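import Vale.Agent.P146.H118.JointQ
import Vale.Agent.P146.H246.Inst

/-!
The window theorem for the modulated SK system in the coordinates `Co n LB LF` of `H347`. The
numbers `RKf`, `QF`, `RKb`, `QBd` are functions of the revealed set `S` of sites, of the revealed
share `t` of the bonds inside `S` and of the revealed share `u` of the fields of `S`:
* `RKf S t u` is the mean of `∑_{i, j ∈ S} (E[⟨s_i s_j⟩] - E[⟨s_i⟩] E[⟨s_j⟩])²`,
* `QF S t u` is the mean of `∑_{i ∈ S} E[⟨s_i⟩]²`,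
* `RKb`, `QBd` are the same for the pairs inside `S`,
the conditional means being given the revealed coordinates, in every system with levels.
-/

open MeasureTheory ProbabilityTheory Filter Topology

namespace Vale.Agent.P146.H118

open Vale.Agent.P157.Lv Vale.Agent.P146.H425 Vale.Agent.P146.H332 Vale.Agent.P146.H246
open Vale.Agent.P146.H196 Vale.Agent.P146.H646 Vale.Agent.P146.H347 Vale.Agent.P146.H325
open Vale.Agent.P146.H816

set_option linter.unusedSectionVars false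

section base

variable {ι : Type} [Fintype ι] [DecidableEq ι] {x : ℝ} {F : (ι → ℝ) → ℝ}
  {D : ι → (ι → ℝ) → ℝ} {H : ι → ι → (ι → ℝ) → ℝ} {A1 : Finset ι} {δ : ι → ℝ} {δ0 : ℝ}
  {Y : (ι → ℝ) → ℝ} {q : ι → ℝ}

lemma MB_mul (x : ℝ) (F : (ι → ℝ) → ℝ) (q : ι → ℝ) (a : ℝ) (Φ : (ι → ℝ) → ℝ) :
    MB x F q (fun y => a * Φ y) = a * MB x F q Φ := by
  unfold MB
  rw [← integral_const_mul]
  refine integral_congr_ae (Filter.Eventually.of_forall fun y => ?_)
  simp only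
  ring

lemma Kv_const (hδ : ∀ e ∈ A1, δ e = δ0) :
    Kv x F D H A1 δ Y q = δ0 ^ 2 * Kv x F D H A1 (fun _ => 1) Y q := by
  unfold Kv
  rw [← MB_mul]
  congr 1
  funext y
  rw [mul_left_comm]
  congr 1
  rw [Finset.mul_sum]
  refine Finset.sum_congr rfl fun k hk => ?_
  rw [Finset.mul_sum]
  refine Finset.sum_congr rfl fun e he => ?_
  rw [hδ k hk, hδ e he]
  ring

lemma Qv_const (hδ : ∀ e ∈ A1, δ e = δ0) :
    Qv x F D A1 δ Y q = δ0 * Qv x F D A1 (fun _ => 1) Y q := by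
  unfold Qv
  rw [← MB_mul]
  congr 1
  funext y
  rw [mul_left_comm]
  congr 1
  rw [Finset.mul_sum]
  refine Finset.sum_congr rfl fun k hk => ?_
  rw [hδ k hk]
  ring

end base

variable {n : ℕ} {b s η CB CF x M0 : ℝ} {μ : Measure (ℝ × Xs n)}

/-- the logarithm of the partition function of the basic system -/
noncomputable abbrev Fb (μ : Measure (ℝ × Xs n)) (b CB CF s η : ℝ) : (Co n Unit Unit → ℝ) → ℝ :=
  lzm μ 1 (Sb n b CB CF s η)

/-- the rank-one number of the fields -/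
noncomputable def RKf (μ : Measure (ℝ × Xs n)) (b CB CF s η x : ℝ) (S : Finset (Fin n))
    (t u : ℝ) : ℝ :=
  Kv x (Fb μ b CB CF s η) (Dm μ 1 (Sb n b CB CF s η)) (Hm μ 1 (Sb n b CB CF s η)) (AF S)
    (fun _ => 1) (fun _ => 1) (q0 S t u) / (Z0 x (Fb μ b CB CF s η) * CF ^ 4)

/-- the second moment of the conditional means of the spins -/
noncomputable def QF (μ : Measure (ℝ × Xs n)) (b CB CF s η x : ℝ) (S : Finset (Fin n))
    (t u : ℝ) : ℝ :=
  Qv x (Fb μ b CB CF s η) (Dm μ 1 (Sb n b CB CF s η)) (AF S)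
    (fun _ => 1) (fun _ => 1) (q0 S t u) / (Z0 x (Fb μ b CB CF s η) * CF ^ 2)

/-- the rank-one number of the bonds -/
noncomputable def RKb (μ : Measure (ℝ × Xs n)) (b CB CF s η x : ℝ) (S : Finset (Fin n))
    (t u : ℝ) : ℝ :=
  Kv x (Fb μ b CB CF s η) (Dm μ 1 (Sb n b CB CF s η)) (Hm μ 1 (Sb n b CB CF s η)) (AB S)
    (fun _ => 1) (fun _ => 1) (q0 S t u) / (Z0 x (Fb μ b CB CF s η) * (b / √n * CB) ^ 4)

/-- the second moment of the conditional means of the products of two spins -/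
noncomputable def QBd (μ : Measure (ℝ × Xs n)) (b CB CF s η x : ℝ) (S : Finset (Fin n))
    (t u : ℝ) : ℝ :=
  Qv x (Fb μ b CB CF s η) (Dm μ 1 (Sb n b CB CF s η)) (AB S)
    (fun _ => 1) (fun _ => 1) (q0 S t u) / (Z0 x (Fb μ b CB CF s η) * (b / √n * CB) ^ 2)

section eqs

variable {LB LF : Type} [Fintype LB] [DecidableEq LB] [Fintype LF] [DecidableEq LF]
  {cB : LB → ℝ} {cF : LF → ℝ} {BL : Finset LB} {FL : Finset LF} {S : Finset (Fin n)}
  {t u M1 : ℝ}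

theorem lv_sk (hB : 0 < CB) (hF : 0 < CF) (hs : Sh cB cF BL FL CB CF t u) :
    Lv (p0 n LB LF) (c0 n cB cF CB CF) (Kset S BL FL) (q0 S t u) :=
  ⟨vf_one hB hF hs, vf_re hB hF hs⟩

/-- **The rank-one number of the fields in every system with levels.** -/
theorem rkf_eq (hG : GM μ (Sb n b CB CF s η) M0) (hG1 : GM μ (Sm b cB cF s η) M1)
    (hB : 0 < CB) (hF : 0 < CF) (hs : Sh cB cF BL FL CB CF t u) (x : ℝ) (S : Finset (Fin n)) :
    eg μ (Sm b cB cF s η) x (fun z => ∑ i ∈ S, ∑ j ∈ S,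
      kg μ (Sm b cB cF s η) x (Kset S BL FL) (fun w => sp w.2 i) (fun w => sp w.2 j) z ^ 2) =
      RKf μ b CB CF s η x S t u := by
  have h1 := (lv_sk (n := n) (S := S) hB hF hs).ex_kv (x := x) (hG.sm 1) (EG.const 1) (AF S)
    (fun _ => 1)
  rw [el_av (lvl hB.ne' hF.ne')] at h1
  have e0 : ∀ i : Fin n, Sb n b CB CF s η (fd Unit i ()) = fun w => CF * sp w.2 i := fun i => rfl
  simp only [kl_av (lvl hB.ne' hF.ne'), sum_AF, one_mul, e0, kg_mul hG1] at h1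
  have e1 : (fun z : Co n LB LF → ℝ => ∑ i ∈ S, ∑ j ∈ S, (CF ^ 2 * kg μ (Sm b cB cF s η) x
      (Kset S BL FL) (fun w => sp w.2 i) (fun w => sp w.2 j) z) ^ 2) =
      fun z => CF ^ 4 * ∑ i ∈ S, ∑ j ∈ S, kg μ (Sm b cB cF s η) x
      (Kset S BL FL) (fun w => sp w.2 i) (fun w => sp w.2 j) z ^ 2 := by
    funext z
    simp only [mul_pow, Finset.mul_sum]
    exact Finset.sum_congr rfl fun i _ => Finset.sum_congr rfl fun j _ => by ring
  rw [e1, eg_mul] at h1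
  have hF4 : CF ^ 4 ≠ 0 := by positivity
  unfold RKf
  rw [← div_div, ← h1, mul_comm, mul_div_assoc, div_self hF4, mul_one]

/-- **The second moment of the conditional means of the spins in every system with levels.** -/
theorem qf_eq (hG : GM μ (Sb n b CB CF s η) M0) (hG1 : GM μ (Sm b cB cF s η) M1)
    (hB : 0 < CB) (hF : 0 < CF) (hs : Sh cB cF BL FL CB CF t u) (x : ℝ) (S : Finset (Fin n)) :
    eg μ (Sm b cB cF s η) x (fun z => ∑ i ∈ S,
      cg μ (Sm b cB cF s η) x (Kset S BL FL) (fun w => sp w.2 i) z ^ 2) =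
      QF μ b CB CF s η x S t u := by
  have h1 := (lv_sk (n := n) (S := S) hB hF hs).ex_qv (x := x) (hG.sm 1) (EG.const 1) (AF S)
    (fun _ => 1)
  rw [el_av (lvl hB.ne' hF.ne')] at h1
  have e0 : ∀ i : Fin n, Sb n b CB CF s η (fd Unit i ()) = fun w => CF * sp w.2 i := fun i => rfl
  simp only [Dm_one, cl_av (lvl hB.ne' hF.ne'), sum_AF, one_mul, e0, cg_mul hG1] at h1
  have e1 : (fun z : Co n LB LF → ℝ => ∑ i ∈ S, (CF * cg μ (Sm b cB cF s η) x
      (Kset S BL FL) (fun w => sp w.2 i) z) ^ 2) =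
      fun z => CF ^ 2 * ∑ i ∈ S, cg μ (Sm b cB cF s η) x
      (Kset S BL FL) (fun w => sp w.2 i) z ^ 2 := by
    funext z
    simp only [mul_pow, Finset.mul_sum]
  rw [e1, eg_mul] at h1
  have hF4 : CF ^ 2 ≠ 0 := by positivity
  unfold QF
  rw [← div_div, ← h1, mul_comm, mul_div_assoc, div_self hF4, mul_one]

/-- **The rank-one number of the bonds in every system with levels.** -/
theorem rkb_eq (hG : GM μ (Sb n b CB CF s η) M0) (hG1 : GM μ (Sm b cB cF s η) M1)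
    (hn : 0 < n) (hb0 : 0 < b) (hB : 0 < CB) (hF : 0 < CF) (hs : Sh cB cF BL FL CB CF t u)
    (x : ℝ) (S : Finset (Fin n)) :
    eg μ (Sm b cB cF s η) x (fun z =>
      ∑ q : Pair n with q.1.1 ∈ S ∧ q.1.2 ∈ S, ∑ r : Pair n with r.1.1 ∈ S ∧ r.1.2 ∈ S,
      kg μ (Sm b cB cF s η) x (Kset S BL FL) (fun w => SkS q w.2) (fun w => SkS r w.2) z ^ 2) =
      RKb μ b CB CF s η x S t u := by
  have h1 := (lv_sk (n := n) (S := S) hB hF hs).ex_kv (x := x) (hG.sm 1) (EG.const 1) (AB S)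
    (fun _ => 1)
  rw [el_av (lvl hB.ne' hF.ne')] at h1
  set a : ℝ := b / √n * CB with ha
  have hn' : (0 : ℝ) < n := by exact_mod_cast hn
  have ha0 : 0 < a := by positivity
  have e0 : ∀ q : Pair n, Sb n b CB CF s η (bd Unit q ()) = fun w => a * SkS q w.2 :=
    fun q => rfl
  simp only [kl_av (lvl hB.ne' hF.ne'), sum_AB, one_mul, e0, kg_mul hG1] at h1
  have e1 : (fun z : Co n LB LF → ℝ => ∑ q : Pair n with q.1.1 ∈ S ∧ q.1.2 ∈ S,
      ∑ r : Pair n with r.1.1 ∈ S ∧ r.1.2 ∈ S, (a ^ 2 * kg μ (Sm b cB cF s η) x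
      (Kset S BL FL) (fun w => SkS q w.2) (fun w => SkS r w.2) z) ^ 2) =
      fun z => a ^ 4 * ∑ q : Pair n with q.1.1 ∈ S ∧ q.1.2 ∈ S,
      ∑ r : Pair n with r.1.1 ∈ S ∧ r.1.2 ∈ S, kg μ (Sm b cB cF s η) x
      (Kset S BL FL) (fun w => SkS q w.2) (fun w => SkS r w.2) z ^ 2 := by
    funext z
    simp only [mul_pow, Finset.mul_sum]
    exact Finset.sum_congr rfl fun i _ => Finset.sum_congr rfl fun j _ => by ring
  rw [e1, eg_mul] at h1
  have hF4 : a ^ 4 ≠ 0 := by positivity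
  unfold RKb
  rw [← ha, ← div_div, ← h1, mul_comm, mul_div_assoc, div_self hF4, mul_one]

/-- **The second moment for the pairs in every system with levels.** -/
theorem qbd_eq (hG : GM μ (Sb n b CB CF s η) M0) (hG1 : GM μ (Sm b cB cF s η) M1)
    (hn : 0 < n) (hb0 : 0 < b) (hB : 0 < CB) (hF : 0 < CF) (hs : Sh cB cF BL FL CB CF t u)
    (x : ℝ) (S : Finset (Fin n)) :
    eg μ (Sm b cB cF s η) x (fun z => ∑ q : Pair n with q.1.1 ∈ S ∧ q.1.2 ∈ S,
      cg μ (Sm b cB cF s η) x (Kset S BL FL) (fun w => SkS q w.2) z ^ 2) =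
      QBd μ b CB CF s η x S t u := by
  have h1 := (lv_sk (n := n) (S := S) hB hF hs).ex_qv (x := x) (hG.sm 1) (EG.const 1) (AB S)
    (fun _ => 1)
  rw [el_av (lvl hB.ne' hF.ne')] at h1
  set a : ℝ := b / √n * CB with ha
  have hn' : (0 : ℝ) < n := by exact_mod_cast hn
  have ha0 : 0 < a := by positivity
  have e0 : ∀ q : Pair n, Sb n b CB CF s η (bd Unit q ()) = fun w => a * SkS q w.2 :=
    fun q => rfl
  simp only [Dm_one, cl_av (lvl hB.ne' hF.ne'), sum_AB, one_mul, e0, cg_mul hG1] at h1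
  have e1 : (fun z : Co n LB LF → ℝ => ∑ q : Pair n with q.1.1 ∈ S ∧ q.1.2 ∈ S,
      (a * cg μ (Sm b cB cF s η) x (Kset S BL FL) (fun w => SkS q w.2) z) ^ 2) =
      fun z => a ^ 2 * ∑ q : Pair n with q.1.1 ∈ S ∧ q.1.2 ∈ S, cg μ (Sm b cB cF s η) x
      (Kset S BL FL) (fun w => SkS q w.2) z ^ 2 := by
    funext z
    simp only [mul_pow, Finset.mul_sum]
  rw [e1, eg_mul] at h1
  have hF4 : a ^ 2 ≠ 0 := by positivity
  unfold QBd
  rw [← ha, ← div_div, ← h1, mul_comm, mul_div_assoc, div_self hF4, mul_one]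

end eqs

/-! ### the path of the shares -/

section path

variable {S : Finset (Fin n)} {t0 t1 u0 u1 : ℝ}

lemma qr_sk (S : Finset (Fin n)) (t0 t1 u0 u1 r : ℝ) :
    qr (q0 S t0 u0) (q0 S t1 u1) r = q0 S (t0 + r * (t1 - t0)) (u0 + r * (u1 - u0)) := by
  funext e
  unfold qr
  rcases e with (⟨q, l⟩ | ⟨i, l⟩) | j
  · show (if q.1.1 ∈ S ∧ q.1.2 ∈ S then t0 else 0) + r * ((if q.1.1 ∈ S ∧ q.1.2 ∈ S then t1
      else 0) - (if q.1.1 ∈ S ∧ q.1.2 ∈ S then t0 else 0)) =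
      if q.1.1 ∈ S ∧ q.1.2 ∈ S then t0 + r * (t1 - t0) else 0
    split_ifs <;> ring
  · show (if i ∈ S then u0 else 0) + r * ((if i ∈ S then u1 else 0) - (if i ∈ S then u0
      else 0)) = if i ∈ S then u0 + r * (u1 - u0) else 0
    split_ifs <;> ring
  · show (0 : ℝ) + r * (0 - 0) = 0
    ring

lemma q0_nonneg (ht : 0 ≤ t0) (hu : 0 ≤ u0) (e : Co n Unit Unit) : 0 ≤ q0 S t0 u0 e := by
  rcases e with (⟨q, l⟩ | ⟨i, l⟩) | j
  · show 0 ≤ if q.1.1 ∈ S ∧ q.1.2 ∈ S then t0 else 0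
    split_ifs <;> simp [ht]
  · show 0 ≤ if i ∈ S then u0 else 0
    split_ifs <;> simp [hu]
  · exact le_rfl

lemma q0_le (ht : t0 ≤ t1) (hu : u0 ≤ u1) (e : Co n Unit Unit) :
    q0 S t0 u0 e ≤ q0 S t1 u1 e := by
  rcases e with (⟨q, l⟩ | ⟨i, l⟩) | j
  · show (if q.1.1 ∈ S ∧ q.1.2 ∈ S then t0 else 0) ≤ if q.1.1 ∈ S ∧ q.1.2 ∈ S then t1 else 0
    split_ifs <;> simp [ht]
  · show (if i ∈ S then u0 else 0) ≤ if i ∈ S then u1 else 0
    split_ifs <;> simp [hu]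
  · exact le_rfl

lemma q0_le_one (ht : t1 ≤ 1) (hu : u1 ≤ 1) (e : Co n Unit Unit) : q0 S t1 u1 e ≤ 1 := by
  rcases e with (⟨q, l⟩ | ⟨i, l⟩) | j
  · show (if q.1.1 ∈ S ∧ q.1.2 ∈ S then t1 else 0) ≤ 1
    split_ifs <;> simp [ht]
  · show (if i ∈ S then u1 else 0) ≤ 1
    split_ifs <;> simp [hu]
  · exact zero_le_one

lemma del_AF (S : Finset (Fin n)) (t0 t1 u0 u1 : ℝ) :
    ∀ e ∈ AF S, q0 S t1 u1 e - q0 S t0 u0 e = u1 - u0 := by
  intro e he
  obtain ⟨i, hi, rfl⟩ := Finset.mem_image.1 he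
  show (if i ∈ S then u1 else 0) - (if i ∈ S then u0 else 0) = u1 - u0
  rw [if_pos hi, if_pos hi]

lemma del_AB (S : Finset (Fin n)) (t0 t1 u0 u1 : ℝ) :
    ∀ e ∈ AB S, q0 S t1 u1 e - q0 S t0 u0 e = t1 - t0 := by
  intro e he
  obtain ⟨q, hq, rfl⟩ := Finset.mem_image.1 he
  have hq' := (Finset.mem_filter.1 hq).2
  show (if q.1.1 ∈ S ∧ q.1.2 ∈ S then t1 else 0) - (if q.1.1 ∈ S ∧ q.1.2 ∈ S then t0 else 0) =
    t1 - t0
  rw [if_pos hq', if_pos hq']

lemma RKf_nonneg (μ : Measure (ℝ × Xs n)) (b CB CF s η x : ℝ) (S : Finset (Fin n)) (t u : ℝ) :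
    0 ≤ RKf μ b CB CF s η x S t u := by
  unfold RKf
  refine div_nonneg (Kv_nonneg μ _ 1 x (fun _ => zero_le_one) (fun _ => zero_le_one) _ _)
    (mul_nonneg (integral_nonneg fun _ => (Real.exp_pos _).le) (by positivity))

lemma RKb_nonneg (μ : Measure (ℝ × Xs n)) (b CB CF s η x : ℝ) (S : Finset (Fin n)) (t u : ℝ) :
    0 ≤ RKb μ b CB CF s η x S t u := by
  unfold RKb
  refine div_nonneg (Kv_nonneg μ _ 1 x (fun _ => zero_le_one) (fun _ => zero_le_one) _ _)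
    (mul_nonneg (integral_nonneg fun _ => (Real.exp_pos _).le) (by positivity))

lemma QF_nonneg (μ : Measure (ℝ × Xs n)) (b CB CF s η x : ℝ) (S : Finset (Fin n)) (t u : ℝ) :
    0 ≤ QF μ b CB CF s η x S t u := by
  unfold QF
  refine div_nonneg (Qv_nonneg μ _ 1 x (fun _ => zero_le_one) (fun _ => zero_le_one) _ _)
    (mul_nonneg (integral_nonneg fun _ => (Real.exp_pos _).le) (by positivity))

lemma QBd_nonneg (μ : Measure (ℝ × Xs n)) (b CB CF s η x : ℝ) (S : Finset (Fin n)) (t u : ℝ) :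
    0 ≤ QBd μ b CB CF s η x S t u := by
  unfold QBd
  refine div_nonneg (Qv_nonneg μ _ 1 x (fun _ => zero_le_one) (fun _ => zero_le_one) _ _)
    (mul_nonneg (integral_nonneg fun _ => (Real.exp_pos _).le) (by positivity))

variable (hG : GM μ (Sb n b CB CF s η) M0)

include hG in
/-- **The window of the fields along a joint path of the shares.** -/
theorem window_f (hx : 0 ≤ x) (hx1 : x ≤ 1) (hF : 0 < CF) (S : Finset (Fin n))
    (ht0 : 0 ≤ t0) (ht : t0 ≤ t1) (ht1 : t1 ≤ 1) (hu0 : 0 ≤ u0) (hu : u0 < u1) (hu1 : u1 ≤ 1) :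
    x ^ 2 * CF ^ 2 * ((u1 - u0) * ∫ r in (0 : ℝ)..1, RKf μ b CB CF s η x S
      (t0 + r * (t1 - t0)) (u0 + r * (u1 - u0))) ≤
      QF μ b CB CF s η x S t1 u1 - QF μ b CB CF s η x S t0 u0 := by
  have h := windowq (q0_nonneg (S := S) ht0 hu0) (q0_le (S := S) ht hu.le)
    (q0_le_one (S := S) ht1 hu1) hG 1 hx hx1 (Y := fun _ => 1) (EG.const 1)
    (fun _ => zero_le_one) (fun _ _ _ _ => rfl) (AF S) le_rfl zero_le_one le_rfl
  simp only [qr_sk, Kv_const (del_AF S t0 t1 u0 u1), Qv_const (del_AF S t0 t1 u0 u1),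
    one_mul, zero_mul, add_zero, add_sub_cancel] at h
  rw [intervalIntegral.integral_const_mul] at h
  have hZ := Z0_pos (hG.c11 1) x
  have hd : 0 < u1 - u0 := by linarith
  have hF2 : 0 < CF ^ 2 := by positivity
  unfold RKf QF
  rw [intervalIntegral.integral_div]
  set I := ∫ r in (0 : ℝ)..1, Kv x (Fb μ b CB CF s η) (Dm μ 1 (Sb n b CB CF s η))
    (Hm μ 1 (Sb n b CB CF s η)) (AF S) (fun _ => 1) (fun _ => 1)
    (q0 S (t0 + r * (t1 - t0)) (u0 + r * (u1 - u0))) with hI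
  set Z := Z0 x (Fb μ b CB CF s η) with hZd
  have hZ' : 0 < Z := hZ
  rw [← sub_div, le_div_iff₀ (mul_pos hZ' hF2)]
  have e1 : x ^ 2 * CF ^ 2 * ((u1 - u0) * (I / (Z * CF ^ 4))) * (Z * CF ^ 2) =
      x ^ 2 * ((u1 - u0) * I) := by
    field_simp
  rw [e1]
  refine le_of_mul_le_mul_left ?_ hd
  calc (u1 - u0) * (x ^ 2 * ((u1 - u0) * I)) = x ^ 2 * ((u1 - u0) ^ 2 * I) := by ring
    _ ≤ _ := h
    _ = _ := by ring

include hG in
/-- **The window of the bonds along a joint path of the shares.** -/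
theorem window_b (hx : 0 ≤ x) (hx1 : x ≤ 1) (hn : 0 < n) (hb0 : 0 < b) (hB : 0 < CB)
    (S : Finset (Fin n))
    (ht0 : 0 ≤ t0) (ht : t0 < t1) (ht1 : t1 ≤ 1) (hu0 : 0 ≤ u0) (hu : u0 ≤ u1) (hu1 : u1 ≤ 1) :
    x ^ 2 * (b ^ 2 / n * CB ^ 2) * ((t1 - t0) * ∫ r in (0 : ℝ)..1, RKb μ b CB CF s η x S
      (t0 + r * (t1 - t0)) (u0 + r * (u1 - u0))) ≤
      QBd μ b CB CF s η x S t1 u1 - QBd μ b CB CF s η x S t0 u0 := by
  have h := windowq (q0_nonneg (S := S) ht0 hu0) (q0_le (S := S) ht.le hu)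
    (q0_le_one (S := S) ht1 hu1) hG 1 hx hx1 (Y := fun _ => 1) (EG.const 1)
    (fun _ => zero_le_one) (fun _ _ _ _ => rfl) (AB S) le_rfl zero_le_one le_rfl
  simp only [qr_sk, Kv_const (del_AB S t0 t1 u0 u1), Qv_const (del_AB S t0 t1 u0 u1),
    one_mul, zero_mul, add_zero, add_sub_cancel] at h
  rw [intervalIntegral.integral_const_mul] at h
  have hZ := Z0_pos (hG.c11 1) x
  have hd : 0 < t1 - t0 := by linarith
  have hn' : (0 : ℝ) < n := by exact_mod_cast hn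
  have ha2 : b ^ 2 / n * CB ^ 2 = (b / √n * CB) ^ 2 := by
    rw [mul_pow, div_pow, Real.sq_sqrt (Nat.cast_nonneg n)]
  unfold RKb QBd
  rw [intervalIntegral.integral_div, ha2]
  set a : ℝ := b / √n * CB with ha
  have ha0 : 0 < a := by positivity
  have hF2 : 0 < a ^ 2 := by positivity
  set I := ∫ r in (0 : ℝ)..1, Kv x (Fb μ b CB CF s η) (Dm μ 1 (Sb n b CB CF s η))
    (Hm μ 1 (Sb n b CB CF s η)) (AB S) (fun _ => 1) (fun _ => 1)
    (q0 S (t0 + r * (t1 - t0)) (u0 + r * (u1 - u0))) with hI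
  set Z := Z0 x (Fb μ b CB CF s η) with hZd
  have hZ' : 0 < Z := hZ
  rw [← sub_div, le_div_iff₀ (mul_pos hZ' hF2)]
  have e1 : x ^ 2 * a ^ 2 * ((t1 - t0) * (I / (Z * a ^ 4))) * (Z * a ^ 2) =
      x ^ 2 * ((t1 - t0) * I) := by
    field_simp
  rw [e1]
  refine le_of_mul_le_mul_left ?_ hd
  calc (t1 - t0) * (x ^ 2 * ((t1 - t0) * I)) = x ^ 2 * ((t1 - t0) ^ 2 * I) := by ring
    _ ≤ _ := h
    _ = _ := by ring

include hG in
/-- continuity along a joint path of the shares -/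
theorem cont_f (hx : 0 ≤ x) (S : Finset (Fin n))
    (ht0 : 0 ≤ t0) (ht : t0 ≤ t1) (ht1 : t1 ≤ 1) (hu0 : 0 ≤ u0) (hu : u0 < u1) (hu1 : u1 ≤ 1) :
    ContinuousOn (fun r => RKf μ b CB CF s η x S (t0 + r * (t1 - t0)) (u0 + r * (u1 - u0)))
      (Set.Icc 0 1) := by
  have h := cont_Kv (q0_nonneg (S := S) ht0 hu0) (q0_le (S := S) ht hu.le)
    (q0_le_one (S := S) ht1 hu1) hG 1 hx (Y := fun _ => 1) (EG.const 1)
    (fun _ _ _ _ => rfl) (AF S)
  simp only [qr_sk, Kv_const (del_AF S t0 t1 u0 u1)] at h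
  have hd : u1 - u0 ≠ 0 := by
    have : 0 < u1 - u0 := by linarith
    exact this.ne'
  have h2 := h.div_const ((u1 - u0) ^ 2 * (Z0 x (Fb μ b CB CF s η) * CF ^ 4))
  refine h2.congr fun r _ => ?_
  unfold RKf
  exact (mul_div_mul_left _ _ (pow_ne_zero 2 hd)).symm

include hG in
/-- continuity along a joint path of the shares -/
theorem cont_b (hx : 0 ≤ x) (S : Finset (Fin n))
    (ht0 : 0 ≤ t0) (ht : t0 < t1) (ht1 : t1 ≤ 1) (hu0 : 0 ≤ u0) (hu : u0 ≤ u1) (hu1 : u1 ≤ 1) :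
    ContinuousOn (fun r => RKb μ b CB CF s η x S (t0 + r * (t1 - t0)) (u0 + r * (u1 - u0)))
      (Set.Icc 0 1) := by
  have h := cont_Kv (q0_nonneg (S := S) ht0 hu0) (q0_le (S := S) ht.le hu)
    (q0_le_one (S := S) ht1 hu1) hG 1 hx (Y := fun _ => 1) (EG.const 1)
    (fun _ _ _ _ => rfl) (AB S)
  simp only [qr_sk, Kv_const (del_AB S t0 t1 u0 u1)] at h
  have hd : t1 - t0 ≠ 0 := by
    have : 0 < t1 - t0 := by linarith
    exact this.ne'
  have h2 := h.div_const ((t1 - t0) ^ 2 * (Z0 x (Fb μ b CB CF s η) * (b / √n * CB) ^ 4))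
  refine h2.congr fun r _ => ?_
  unfold RKb
  exact (mul_div_mul_left _ _ (pow_ne_zero 2 hd)).symm

variable {t u : ℝ}

include hG in
/-- continuity in the share of the fields -/
theorem cont_RKf (hx : 0 ≤ x) (S : Finset (Fin n)) (ht0 : 0 ≤ t) (ht1 : t ≤ 1) :
    ContinuousOn (fun u => RKf μ b CB CF s η x S t u) (Set.Icc 0 1) := by
  have h := cont_f hG hx S ht0 le_rfl ht1 le_rfl zero_lt_one le_rfl
  simpa using h

include hG in
/-- continuity in the share of the bonds -/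
theorem cont_RKb (hx : 0 ≤ x) (S : Finset (Fin n)) (hu0 : 0 ≤ u) (hu1 : u ≤ 1) :
    ContinuousOn (fun t => RKb μ b CB CF s η x S t u) (Set.Icc 0 1) := by
  have h := cont_b hG hx S le_rfl zero_lt_one le_rfl hu0 le_rfl hu1
  simpa using h

include hG in
/-- **The window of the fields**, the share `t` of the bonds being fixed. -/
theorem int_RKf (hx : 0 ≤ x) (hx1 : x ≤ 1) (hF : 0 < CF) (S : Finset (Fin n))
    (ht0 : 0 ≤ t) (ht1 : t ≤ 1) (hu0 : 0 ≤ u0) (hu : u0 ≤ u1) (hu1 : u1 ≤ 1) :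
    x ^ 2 * CF ^ 2 * ∫ u in u0..u1, RKf μ b CB CF s η x S t u ≤
      QF μ b CB CF s η x S t u1 - QF μ b CB CF s η x S t u0 := by
  rcases hu.eq_or_lt with rfl | hu
  · simp
  have h := window_f hG hx hx1 hF S ht0 le_rfl ht1 hu0 hu hu1
  simp only [sub_self, mul_zero, add_zero] at h
  have e1 := intervalIntegral.mul_integral_comp_add_mul (a := 0) (b := 1)
    (f := fun u => RKf μ b CB CF s η x S t u) (u1 - u0) u0
  simp only [mul_zero, add_zero, mul_one, add_sub_cancel] at e1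
  rw [← e1]
  simpa only [mul_comm] using h

include hG in
/-- **The window of the bonds**, the share `u` of the fields being fixed. -/
theorem int_RKb (hx : 0 ≤ x) (hx1 : x ≤ 1) (hn : 0 < n) (hb0 : 0 < b) (hB : 0 < CB)
    (S : Finset (Fin n))
    (hu0 : 0 ≤ u) (hu1 : u ≤ 1) (ht0 : 0 ≤ t0) (ht : t0 ≤ t1) (ht1 : t1 ≤ 1) :
    x ^ 2 * (b ^ 2 / n * CB ^ 2) * ∫ t in t0..t1, RKb μ b CB CF s η x S t u ≤
      QBd μ b CB CF s η x S t1 u - QBd μ b CB CF s η x S t0 u := by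
  rcases ht.eq_or_lt with rfl | ht
  · simp
  have h := window_b hG hx hx1 hn hb0 hB S ht0 ht ht1 hu0 le_rfl hu1
  simp only [sub_self, mul_zero, add_zero] at h
  have e1 := intervalIntegral.mul_integral_comp_add_mul (a := 0) (b := 1)
    (f := fun t => RKb μ b CB CF s η x S t u) (t1 - t0) t0
  simp only [mul_zero, add_zero, mul_one, add_sub_cancel] at e1
  rw [← e1]
  simpa only [mul_comm] using h

end path

end Vale.Agent.P146.H118
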