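import Vale.Agent.P146.H118.JointR
import Vale.Agent.P146.H118.RkM
import Vale.Agent.P146.H9.MonoU

/-!
Rank one and response numbers in the ensemble `U` (`H281.U1`), field classes `A`, shares
`ShU κ cB cF BL FL VF t u` of `H9.MonoU`. As functions of the revealed set `S` of sites, of the
revealed share `t` of the bonds and of the revealed shares `u : A → ℝ` of the classes:
* `RKfU k`: the mean of `∑_{i, j ∈ S} (cx⟨a s_i a s_j⟩ - cx⟨a s_i⟩ cx⟨a s_j⟩)²`, `a = α k`,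
* `QFU k`: the mean of `∑_{i ∈ S} cx⟨a s_i⟩²`,
* `RXU k`: the mean of `∑_{i, j ∈ S} rg²`, `rg` the response
  `cx(⟨a s_i a s_j⟩ - (1 - x)⟨a s_i⟩⟨a s_j⟩) - x cx⟨a s_i⟩ cx⟨a s_j⟩`,
* `RKbU`, `QBU`: the first two numbers for the pairs inside `S`.
They have these values in every system with levels (`rkfU_eq`, ...); windows and continuity along
a joint path of all the shares (`window_fU`, `window_xU`, `window_bU`, `cont_fU`, ...).
-/

open MeasureTheory ProbabilityTheory Filter Topology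

namespace Vale.Agent.P146.H118

open Vale.Agent.P157.Lv Vale.Agent.P146.H425 Vale.Agent.P146.H332 Vale.Agent.P146.H246
open Vale.Agent.P146.H196 Vale.Agent.P146.H646 Vale.Agent.P146.H347 Vale.Agent.P146.H325
open Vale.Agent.P146.H816 Vale.Agent.P146.H281.U Vale.Agent.P146.H9.U

set_option linter.unusedSectionVars false

section base

variable {ι : Type} [Fintype ι] [DecidableEq ι] {x : ℝ} {F : (ι → ℝ) → ℝ}
  {D : ι → (ι → ℝ) → ℝ} {H : ι → ι → (ι → ℝ) → ℝ} {A1 : Finset ι} {δ : ι → ℝ} {δ0 : ℝ}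
  {Y : (ι → ℝ) → ℝ} {q : ι → ℝ}

lemma Rv_const (hδ : ∀ e ∈ A1, δ e = δ0) :
    Rv x F D H A1 δ Y q = δ0 ^ 2 * Rv x F D H A1 (fun _ => 1) Y q := by
  unfold Rv
  rw [← MB_mul]
  congr 1
  funext y
  rw [mul_left_comm]
  congr 1
  rw [Finset.mul_sum]
  refine Finset.sum_congr rfl fun k hk => ?_
  rw [Finset.mul_sum]
  refine Finset.sum_congr rfl fun e he => ?_
  rw [hδ k hk, hδ e he]
  ring

end base

section scale

variable {κ Ω : Type} [Fintype κ] [DecidableEq κ] [MeasurableSpace Ω] {μ : Measure Ω}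
  {S' : κ → Ω → ℝ} {M0 x : ℝ} {K : Finset κ}

lemma rg_mul (hG : GM μ S' M0) (x : ℝ) (K : Finset κ) (a : ℝ) (f g : Ω → ℝ) (z : κ → ℝ) :
    rg μ S' x K (fun w => a * f w) (fun w => a * g w) z = a ^ 2 * rg μ S' x K f g z := by
  unfold rg
  rw [cg_mul hG, cg_mul hG]
  have e1 : (fun u => avm μ 1 S' (fun w => a * f w * (a * g w)) u -
      (1 - x) * (avm μ 1 S' (fun w => a * f w) u * avm μ 1 S' (fun w => a * g w) u)) =
      fun u => a ^ 2 * (fun u => avm μ 1 S' (fun w => f w * g w) u -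
        (1 - x) * (avm μ 1 S' f u * avm μ 1 S' g u)) u := by
    funext u
    have h1 : (fun w => a * f w * (a * g w)) = fun w => a ^ 2 * (f w * g w) := by
      funext w
      ring
    simp only [h1, H196.av_mul]
    ring
  rw [e1, cx_const_mul (wt hG 1 x)]
  ring

end scale

variable {n : ℕ} {Th A : Type} [MeasurableSpace Th] [Fintype A] [DecidableEq A]
  {b x M0 : ℝ} {VF : A → ℝ} {α : A → Th → ℝ} {μ : Measure (Th × Xs n)}

/-- the fields of the class `k` of the sites of `S` -/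
def AFU (S : Finset (Fin n)) (k : A) : Finset (Co n Unit A) := S.image fun i => fd Unit i k

/-- the bonds inside `S` -/
def ABU (A : Type) [Fintype A] [DecidableEq A] (S : Finset (Fin n)) : Finset (Co n Unit A) :=
  (Finset.univ.filter fun q : Pair n => q.1.1 ∈ S ∧ q.1.2 ∈ S).image fun q => bd A q ()

lemma sum_AFU (S : Finset (Fin n)) (k : A) (f : Co n Unit A → ℝ) :
    ∑ e ∈ AFU S k, f e = ∑ i ∈ S, f (fd Unit i k) := by
  unfold AFU
  rw [Finset.sum_image]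
  intro i _ j _ h
  simpa using h

lemma sum_ABU (S : Finset (Fin n)) (f : Co n Unit A → ℝ) :
    ∑ e ∈ ABU A S, f e = ∑ q : Pair n with q.1.1 ∈ S ∧ q.1.2 ∈ S, f (bd A q ()) := by
  unfold ABU
  rw [Finset.sum_image]
  intro i _ j _ h
  simpa using h

/-- the logarithm of the partition function of the basic system -/
noncomputable abbrev FbU (μ : Measure (Th × Xs n)) (b : ℝ) (VF : A → ℝ) (α : A → Th → ℝ) :
    (Co n Unit A → ℝ) → ℝ :=
  lzm μ 1 (SbU n b VF α)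

/-- the rank-one number of the fields of the class `k` -/
noncomputable def RKfU (μ : Measure (Th × Xs n)) (b : ℝ) (VF : A → ℝ) (α : A → Th → ℝ) (x : ℝ)
    (k : A) (S : Finset (Fin n)) (t : ℝ) (u : A → ℝ) : ℝ :=
  Kv x (FbU μ b VF α) (Dm μ 1 (SbU n b VF α)) (Hm μ 1 (SbU n b VF α)) (AFU S k)
    (fun _ => 1) (fun _ => 1) (q0U VF S t u) / (Z0 x (FbU μ b VF α) * VF k ^ 2)

/-- the second moment of the conditional means of the class `k` -/
noncomputable def QFU (μ : Measure (Th × Xs n)) (b : ℝ) (VF : A → ℝ) (α : A → Th → ℝ) (x : ℝ)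
    (k : A) (S : Finset (Fin n)) (t : ℝ) (u : A → ℝ) : ℝ :=
  Qv x (FbU μ b VF α) (Dm μ 1 (SbU n b VF α)) (AFU S k)
    (fun _ => 1) (fun _ => 1) (q0U VF S t u) / (Z0 x (FbU μ b VF α) * VF k)

/-- the response number of the class `k` -/
noncomputable def RXU (μ : Measure (Th × Xs n)) (b : ℝ) (VF : A → ℝ) (α : A → Th → ℝ) (x : ℝ)
    (k : A) (S : Finset (Fin n)) (t : ℝ) (u : A → ℝ) : ℝ :=
  Rv x (FbU μ b VF α) (Dm μ 1 (SbU n b VF α)) (Hm μ 1 (SbU n b VF α)) (AFU S k)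
    (fun _ => 1) (fun _ => 1) (q0U VF S t u) / (Z0 x (FbU μ b VF α) * VF k ^ 2)

/-- the rank-one number of the bonds -/
noncomputable def RKbU (μ : Measure (Th × Xs n)) (b : ℝ) (VF : A → ℝ) (α : A → Th → ℝ) (x : ℝ)
    (S : Finset (Fin n)) (t : ℝ) (u : A → ℝ) : ℝ :=
  Kv x (FbU μ b VF α) (Dm μ 1 (SbU n b VF α)) (Hm μ 1 (SbU n b VF α)) (ABU A S)
    (fun _ => 1) (fun _ => 1) (q0U VF S t u) / (Z0 x (FbU μ b VF α) * (b ^ 2 / n) ^ 2)

/-- the second moment of the conditional means of the products of two spins -/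
noncomputable def QBU (μ : Measure (Th × Xs n)) (b : ℝ) (VF : A → ℝ) (α : A → Th → ℝ) (x : ℝ)
    (S : Finset (Fin n)) (t : ℝ) (u : A → ℝ) : ℝ :=
  Qv x (FbU μ b VF α) (Dm μ 1 (SbU n b VF α)) (ABU A S)
    (fun _ => 1) (fun _ => 1) (q0U VF S t u) / (Z0 x (FbU μ b VF α) * (b ^ 2 / n))

section eqs

variable {LB LF : Type} [Fintype LB] [DecidableEq LB] [Fintype LF] [DecidableEq LF]
  {κ : LF → A} {cB : LB → ℝ} {cF : LF → ℝ} {BL : Finset LB} {FL : Finset LF}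
  {S : Finset (Fin n)} {t : ℝ} {u : A → ℝ} {M1 : ℝ}

theorem lvU (hV : ∀ k, 0 < VF k) (hs : ShU κ cB cF BL FL VF t u) (S : Finset (Fin n)) :
    Lv (p0U n LB κ) (c0U n κ cB cF VF) (Kset S BL FL) (q0U VF S t u) where
  one e := by
    rw [vf_totU hs.totB hs.totF]
    rcases e with (⟨q, l⟩ | ⟨i, k⟩) | j
    · rfl
    · show (if VF k = 0 then (0 : ℝ) else 1) = 1
      rw [if_neg (hV k).ne']
    · rfl
  rev := vf_reU hs S

/-- **The rank-one number of the fields in every system with levels.** -/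
theorem rkfU_eq (hG : GM μ (SbU n b VF α) M0) (hG1 : GM μ (SU b cB cF fun l => α (κ l)) M1)
    (hV : ∀ k, 0 < VF k) (hs : ShU κ cB cF BL FL VF t u) (x : ℝ) (k : A)
    (S : Finset (Fin n)) :
    eg μ (SU b cB cF fun l => α (κ l)) x (fun z => ∑ i ∈ S, ∑ j ∈ S,
      kg μ (SU b cB cF fun l => α (κ l)) x (Kset S BL FL) (fun w => α k w.1 * sp w.2 i)
        (fun w => α k w.1 * sp w.2 j) z ^ 2) = RKfU μ b VF α x k S t u := by
  have hl := lvlU (n := n) (LB := LB) (cB := cB) hs.totF b α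
  have h1 := (lvU hV hs S).ex_kv (x := x) (hG.sm 1) (EG.const 1) (AFU S k) (fun _ => 1)
  rw [el_av hl] at h1
  have e0 : ∀ i : Fin n, SbU n b VF α (fd Unit i k) =
      fun w => √(VF k) * (α k w.1 * sp w.2 i) := fun i => by
    funext w
    show √(VF k) * α k w.1 * sp w.2 i = _
    ring
  simp only [kl_av hl, sum_AFU, one_mul, e0, kg_mul hG1] at h1
  have e1 : (fun z : Co n LB LF → ℝ => ∑ i ∈ S, ∑ j ∈ S, (√(VF k) ^ 2 *
      kg μ (SU b cB cF fun l => α (κ l)) x (Kset S BL FL) (fun w => α k w.1 * sp w.2 i)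
        (fun w => α k w.1 * sp w.2 j) z) ^ 2) =
      fun z => VF k ^ 2 * ∑ i ∈ S, ∑ j ∈ S,
      kg μ (SU b cB cF fun l => α (κ l)) x (Kset S BL FL) (fun w => α k w.1 * sp w.2 i)
        (fun w => α k w.1 * sp w.2 j) z ^ 2 := by
    funext z
    simp only [mul_pow, Real.sq_sqrt (hV k).le, Finset.mul_sum]
  rw [e1, eg_mul] at h1
  have hF4 : VF k ^ 2 ≠ 0 := pow_ne_zero 2 (hV k).ne'
  unfold RKfU
  rw [← div_div, ← h1, mul_comm, mul_div_assoc, div_self hF4, mul_one]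

/-- **The second moment of the conditional means in every system with levels.** -/
theorem qfU_eq (hG : GM μ (SbU n b VF α) M0) (hG1 : GM μ (SU b cB cF fun l => α (κ l)) M1)
    (hV : ∀ k, 0 < VF k) (hs : ShU κ cB cF BL FL VF t u) (x : ℝ) (k : A)
    (S : Finset (Fin n)) :
    eg μ (SU b cB cF fun l => α (κ l)) x (fun z => ∑ i ∈ S,
      cg μ (SU b cB cF fun l => α (κ l)) x (Kset S BL FL) (fun w => α k w.1 * sp w.2 i) z ^ 2) =
      QFU μ b VF α x k S t u := by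
  have hl := lvlU (n := n) (LB := LB) (cB := cB) hs.totF b α
  have h1 := (lvU hV hs S).ex_qv (x := x) (hG.sm 1) (EG.const 1) (AFU S k) (fun _ => 1)
  rw [el_av hl] at h1
  have e0 : ∀ i : Fin n, SbU n b VF α (fd Unit i k) =
      fun w => √(VF k) * (α k w.1 * sp w.2 i) := fun i => by
    funext w
    show √(VF k) * α k w.1 * sp w.2 i = _
    ring
  simp only [Dm_one, cl_av hl, sum_AFU, one_mul, e0, cg_mul hG1] at h1
  have e1 : (fun z : Co n LB LF → ℝ => ∑ i ∈ S, (√(VF k) *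
      cg μ (SU b cB cF fun l => α (κ l)) x (Kset S BL FL) (fun w => α k w.1 * sp w.2 i) z) ^ 2) =
      fun z => VF k * ∑ i ∈ S,
      cg μ (SU b cB cF fun l => α (κ l)) x (Kset S BL FL)
        (fun w => α k w.1 * sp w.2 i) z ^ 2 := by
    funext z
    simp only [mul_pow, Real.sq_sqrt (hV k).le, Finset.mul_sum]
  rw [e1, eg_mul] at h1
  unfold QFU
  rw [← div_div, ← h1, mul_comm, mul_div_assoc, div_self (hV k).ne', mul_one]

/-- **The response number in every system with levels.** -/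
theorem rxU_eq (hG : GM μ (SbU n b VF α) M0) (hG1 : GM μ (SU b cB cF fun l => α (κ l)) M1)
    (hV : ∀ k, 0 < VF k) (hs : ShU κ cB cF BL FL VF t u) (x : ℝ) (k : A)
    (S : Finset (Fin n)) :
    eg μ (SU b cB cF fun l => α (κ l)) x (fun z => ∑ i ∈ S, ∑ j ∈ S,
      rg μ (SU b cB cF fun l => α (κ l)) x (Kset S BL FL) (fun w => α k w.1 * sp w.2 i)
        (fun w => α k w.1 * sp w.2 j) z ^ 2) = RXU μ b VF α x k S t u := by
  have hl := lvlU (n := n) (LB := LB) (cB := cB) hs.totF b α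
  have h1 := (lvU hV hs S).ex_rv (x := x) (hG.sm 1) (EG.const 1) (AFU S k) (fun _ => 1)
  rw [el_av hl] at h1
  have e0 : ∀ i : Fin n, SbU n b VF α (fd Unit i k) =
      fun w => √(VF k) * (α k w.1 * sp w.2 i) := fun i => by
    funext w
    show √(VF k) * α k w.1 * sp w.2 i = _
    ring
  simp only [rl_av hl, sum_AFU, one_mul, e0, rg_mul hG1] at h1
  have e1 : (fun z : Co n LB LF → ℝ => ∑ i ∈ S, ∑ j ∈ S, (√(VF k) ^ 2 *
      rg μ (SU b cB cF fun l => α (κ l)) x (Kset S BL FL) (fun w => α k w.1 * sp w.2 i)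
        (fun w => α k w.1 * sp w.2 j) z) ^ 2) =
      fun z => VF k ^ 2 * ∑ i ∈ S, ∑ j ∈ S,
      rg μ (SU b cB cF fun l => α (κ l)) x (Kset S BL FL) (fun w => α k w.1 * sp w.2 i)
        (fun w => α k w.1 * sp w.2 j) z ^ 2 := by
    funext z
    simp only [mul_pow, Real.sq_sqrt (hV k).le, Finset.mul_sum]
  rw [e1, eg_mul] at h1
  have hF4 : VF k ^ 2 ≠ 0 := pow_ne_zero 2 (hV k).ne'
  unfold RXU
  rw [← div_div, ← h1, mul_comm, mul_div_assoc, div_self hF4, mul_one]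

/-- the bonds: the two-spin energy of the basic system -/
lemma SbU_bd (n : ℕ) (b : ℝ) (VF : A → ℝ) (α : A → Th → ℝ) (q : Pair n) :
    SbU n b VF α (bd A q ()) = fun w => (b / √n) * SkS q w.2 := by
  funext w
  show b / √n * 1 * SkS q w.2 = _
  rw [mul_one]

lemma bn_sq (n : ℕ) (b : ℝ) : (b / √n) ^ 2 = b ^ 2 / n := by
  rw [div_pow, Real.sq_sqrt (Nat.cast_nonneg n)]

/-- **The rank-one number of the bonds in every system with levels.** -/
theorem rkbU_eq (hG : GM μ (SbU n b VF α) M0) (hG1 : GM μ (SU b cB cF fun l => α (κ l)) M1)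
    (hn : 0 < n) (hb : 0 < b) (hV : ∀ k, 0 < VF k) (hs : ShU κ cB cF BL FL VF t u) (x : ℝ)
    (S : Finset (Fin n)) :
    eg μ (SU b cB cF fun l => α (κ l)) x (fun z =>
      ∑ q : Pair n with q.1.1 ∈ S ∧ q.1.2 ∈ S, ∑ r : Pair n with r.1.1 ∈ S ∧ r.1.2 ∈ S,
      kg μ (SU b cB cF fun l => α (κ l)) x (Kset S BL FL) (fun w => SkS q w.2)
        (fun w => SkS r w.2) z ^ 2) = RKbU μ b VF α x S t u := by
  have hl := lvlU (n := n) (LB := LB) (cB := cB) hs.totF b α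
  have h1 := (lvU hV hs S).ex_kv (x := x) (hG.sm 1) (EG.const 1) (ABU A S) (fun _ => 1)
  rw [el_av hl] at h1
  simp only [kl_av hl, sum_ABU, one_mul, SbU_bd, kg_mul hG1] at h1
  have hn' : (0 : ℝ) < n := by exact_mod_cast hn
  have e1 : (fun z : Co n LB LF → ℝ => ∑ q : Pair n with q.1.1 ∈ S ∧ q.1.2 ∈ S,
      ∑ r : Pair n with r.1.1 ∈ S ∧ r.1.2 ∈ S, ((b / √n) ^ 2 *
      kg μ (SU b cB cF fun l => α (κ l)) x (Kset S BL FL) (fun w => SkS q w.2)
        (fun w => SkS r w.2) z) ^ 2) =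
      fun z => (b ^ 2 / n) ^ 2 * ∑ q : Pair n with q.1.1 ∈ S ∧ q.1.2 ∈ S,
      ∑ r : Pair n with r.1.1 ∈ S ∧ r.1.2 ∈ S,
      kg μ (SU b cB cF fun l => α (κ l)) x (Kset S BL FL) (fun w => SkS q w.2)
        (fun w => SkS r w.2) z ^ 2 := by
    funext z
    rw [bn_sq]
    simp only [mul_pow, Finset.mul_sum]
  rw [e1, eg_mul] at h1
  have hF4 : (b ^ 2 / n) ^ 2 ≠ 0 := by positivity
  unfold RKbU
  rw [← div_div, ← h1, mul_comm, mul_div_assoc, div_self hF4, mul_one]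

/-- **The second moment for the pairs in every system with levels.** -/
theorem qbU_eq (hG : GM μ (SbU n b VF α) M0) (hG1 : GM μ (SU b cB cF fun l => α (κ l)) M1)
    (hn : 0 < n) (hb : 0 < b) (hV : ∀ k, 0 < VF k) (hs : ShU κ cB cF BL FL VF t u) (x : ℝ)
    (S : Finset (Fin n)) :
    eg μ (SU b cB cF fun l => α (κ l)) x (fun z =>
      ∑ q : Pair n with q.1.1 ∈ S ∧ q.1.2 ∈ S,
      cg μ (SU b cB cF fun l => α (κ l)) x (Kset S BL FL) (fun w => SkS q w.2) z ^ 2) =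
      QBU μ b VF α x S t u := by
  have hl := lvlU (n := n) (LB := LB) (cB := cB) hs.totF b α
  have h1 := (lvU hV hs S).ex_qv (x := x) (hG.sm 1) (EG.const 1) (ABU A S) (fun _ => 1)
  rw [el_av hl] at h1
  simp only [Dm_one, cl_av hl, sum_ABU, one_mul, SbU_bd, cg_mul hG1] at h1
  have hn' : (0 : ℝ) < n := by exact_mod_cast hn
  have e1 : (fun z : Co n LB LF → ℝ => ∑ q : Pair n with q.1.1 ∈ S ∧ q.1.2 ∈ S, (b / √n *
      cg μ (SU b cB cF fun l => α (κ l)) x (Kset S BL FL) (fun w => SkS q w.2) z) ^ 2) =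
      fun z => (b ^ 2 / n) * ∑ q : Pair n with q.1.1 ∈ S ∧ q.1.2 ∈ S,
      cg μ (SU b cB cF fun l => α (κ l)) x (Kset S BL FL) (fun w => SkS q w.2) z ^ 2 := by
    funext z
    simp only [mul_pow, bn_sq, Finset.mul_sum]
  rw [e1, eg_mul] at h1
  have hF4 : (b ^ 2 / n : ℝ) ≠ 0 := by positivity
  unfold QBU
  rw [← div_div, ← h1, mul_comm, mul_div_assoc, div_self hF4, mul_one]

end eqs

/-! ### the path of the shares -/

section path

variable {S : Finset (Fin n)} {t0 t1 : ℝ} {u0 u1 : A → ℝ}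

/-- the shares of the classes along the path -/
def ur (u0 u1 : A → ℝ) (r : ℝ) : A → ℝ := fun k => u0 k + r * (u1 k - u0 k)

lemma qr_U (VF : A → ℝ) (S : Finset (Fin n)) (t0 t1 : ℝ) (u0 u1 : A → ℝ) (r : ℝ) :
    qr (q0U VF S t0 u0) (q0U VF S t1 u1) r = q0U VF S (t0 + r * (t1 - t0)) (ur u0 u1 r) := by
  funext e
  unfold qr
  rcases e with (⟨q, l⟩ | ⟨i, k⟩) | j
  · show (if q.1.1 ∈ S ∧ q.1.2 ∈ S then t0 else 0) + r * ((if q.1.1 ∈ S ∧ q.1.2 ∈ S then t1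
      else 0) - (if q.1.1 ∈ S ∧ q.1.2 ∈ S then t0 else 0)) =
      if q.1.1 ∈ S ∧ q.1.2 ∈ S then t0 + r * (t1 - t0) else 0
    split_ifs <;> ring
  · show (if i ∈ S then (if VF k = 0 then 0 else u0 k) else 0) +
      r * ((if i ∈ S then (if VF k = 0 then 0 else u1 k) else 0) -
        (if i ∈ S then (if VF k = 0 then 0 else u0 k) else 0)) =
      if i ∈ S then (if VF k = 0 then 0 else u0 k + r * (u1 k - u0 k)) else 0
    split_ifs <;> ring
  · show (0 : ℝ) + r * (0 - 0) = 0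
    ring

lemma q0U_nonneg (VF : A → ℝ) (ht : 0 ≤ t0) (hu : ∀ k, 0 ≤ u0 k) (e : Co n Unit A) :
    0 ≤ q0U VF S t0 u0 e := by
  rcases e with (⟨q, l⟩ | ⟨i, k⟩) | j
  · show 0 ≤ if q.1.1 ∈ S ∧ q.1.2 ∈ S then t0 else 0
    split_ifs <;> simp [ht]
  · show 0 ≤ if i ∈ S then (if VF k = 0 then 0 else u0 k) else 0
    split_ifs <;> simp [hu]
  · exact le_rfl

lemma q0U_le (VF : A → ℝ) (ht : t0 ≤ t1) (hu : ∀ k, u0 k ≤ u1 k) (e : Co n Unit A) :
    q0U VF S t0 u0 e ≤ q0U VF S t1 u1 e := by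
  rcases e with (⟨q, l⟩ | ⟨i, k⟩) | j
  · show (if q.1.1 ∈ S ∧ q.1.2 ∈ S then t0 else 0) ≤ if q.1.1 ∈ S ∧ q.1.2 ∈ S then t1 else 0
    split_ifs <;> simp [ht]
  · show (if i ∈ S then (if VF k = 0 then 0 else u0 k) else 0) ≤
      if i ∈ S then (if VF k = 0 then 0 else u1 k) else 0
    split_ifs <;> simp [hu]
  · exact le_rfl

lemma q0U_le_one (VF : A → ℝ) (ht : t1 ≤ 1) (hu : ∀ k, u1 k ≤ 1) (e : Co n Unit A) :
    q0U VF S t1 u1 e ≤ 1 := by
  rcases e with (⟨q, l⟩ | ⟨i, k⟩) | j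
  · show (if q.1.1 ∈ S ∧ q.1.2 ∈ S then t1 else 0) ≤ 1
    split_ifs <;> simp [ht]
  · show (if i ∈ S then (if VF k = 0 then 0 else u1 k) else 0) ≤ 1
    split_ifs <;> simp [hu]
  · exact zero_le_one

lemma del_AFU (hV : ∀ k, 0 < VF k) (S : Finset (Fin n)) (t0 t1 : ℝ) (u0 u1 : A → ℝ) (k : A) :
    ∀ e ∈ AFU S k, q0U VF S t1 u1 e - q0U VF S t0 u0 e = u1 k - u0 k := by
  intro e he
  obtain ⟨i, hi, rfl⟩ := Finset.mem_image.1 he
  show (if i ∈ S then (if VF k = 0 then 0 else u1 k) else 0) -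
    (if i ∈ S then (if VF k = 0 then 0 else u0 k) else 0) = u1 k - u0 k
  rw [if_pos hi, if_pos hi, if_neg (hV k).ne', if_neg (hV k).ne']

lemma del_ABU (VF : A → ℝ) (S : Finset (Fin n)) (t0 t1 : ℝ) (u0 u1 : A → ℝ) :
    ∀ e ∈ ABU A S, q0U VF S t1 u1 e - q0U VF S t0 u0 e = t1 - t0 := by
  intro e he
  obtain ⟨q, hq, rfl⟩ := Finset.mem_image.1 he
  have hq' := (Finset.mem_filter.1 hq).2
  show (if q.1.1 ∈ S ∧ q.1.2 ∈ S then t1 else 0) - (if q.1.1 ∈ S ∧ q.1.2 ∈ S then t0 else 0) =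
    t1 - t0
  rw [if_pos hq', if_pos hq']

lemma RKfU_nonneg (μ : Measure (Th × Xs n)) (b : ℝ) (VF : A → ℝ) (α : A → Th → ℝ) (x : ℝ)
    (k : A) (S : Finset (Fin n)) (t : ℝ) (u : A → ℝ) : 0 ≤ RKfU μ b VF α x k S t u := by
  unfold RKfU
  refine div_nonneg (Kv_nonneg μ _ 1 x (fun _ => zero_le_one) (fun _ => zero_le_one) _ _)
    (mul_nonneg (integral_nonneg fun _ => (Real.exp_pos _).le) (by positivity))

lemma RXU_nonneg (μ : Measure (Th × Xs n)) (b : ℝ) (VF : A → ℝ) (α : A → Th → ℝ) (x : ℝ)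
    (k : A) (S : Finset (Fin n)) (t : ℝ) (u : A → ℝ) : 0 ≤ RXU μ b VF α x k S t u := by
  unfold RXU
  refine div_nonneg (Rv_nonneg μ _ 1 x (fun _ => zero_le_one) (fun _ => zero_le_one) _ _)
    (mul_nonneg (integral_nonneg fun _ => (Real.exp_pos _).le) (by positivity))

lemma RKbU_nonneg (μ : Measure (Th × Xs n)) (b : ℝ) (VF : A → ℝ) (α : A → Th → ℝ) (x : ℝ)
    (S : Finset (Fin n)) (t : ℝ) (u : A → ℝ) : 0 ≤ RKbU μ b VF α x S t u := by
  unfold RKbU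
  refine div_nonneg (Kv_nonneg μ _ 1 x (fun _ => zero_le_one) (fun _ => zero_le_one) _ _)
    (mul_nonneg (integral_nonneg fun _ => (Real.exp_pos _).le) (by positivity))

lemma QFU_nonneg (μ : Measure (Th × Xs n)) (b : ℝ) (hV : ∀ k, 0 < VF k) (α : A → Th → ℝ) (x : ℝ)
    (k : A) (S : Finset (Fin n)) (t : ℝ) (u : A → ℝ) : 0 ≤ QFU μ b VF α x k S t u := by
  unfold QFU
  refine div_nonneg (Qv_nonneg μ _ 1 x (fun _ => zero_le_one) (fun _ => zero_le_one) _ _)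
    (mul_nonneg (integral_nonneg fun _ => (Real.exp_pos _).le) (hV k).le)

lemma QBU_nonneg (μ : Measure (Th × Xs n)) (b : ℝ) (VF : A → ℝ) (α : A → Th → ℝ) (x : ℝ)
    (S : Finset (Fin n)) (t : ℝ) (u : A → ℝ) : 0 ≤ QBU μ b VF α x S t u := by
  unfold QBU
  refine div_nonneg (Qv_nonneg μ _ 1 x (fun _ => zero_le_one) (fun _ => zero_le_one) _ _)
    (mul_nonneg (integral_nonneg fun _ => (Real.exp_pos _).le) (by positivity))

variable (hG : GM μ (SbU n b VF α) M0)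

include hG in
/-- **The window of the fields of the class `k` along a joint path of the shares.** -/
theorem window_fU (hx : 0 ≤ x) (hx1 : x ≤ 1) (hV : ∀ k, 0 < VF k) (k : A) (S : Finset (Fin n))
    (ht0 : 0 ≤ t0) (ht : t0 ≤ t1) (ht1 : t1 ≤ 1) (hu0 : ∀ j, 0 ≤ u0 j) (hu : ∀ j, u0 j ≤ u1 j)
    (hu1 : ∀ j, u1 j ≤ 1) (hk : u0 k < u1 k) :
    x ^ 2 * VF k * ((u1 k - u0 k) * ∫ r in (0 : ℝ)..1, RKfU μ b VF α x k S
      (t0 + r * (t1 - t0)) (ur u0 u1 r)) ≤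
      QFU μ b VF α x k S t1 u1 - QFU μ b VF α x k S t0 u0 := by
  have h := windowq (q0U_nonneg (S := S) VF ht0 hu0) (q0U_le (S := S) VF ht hu)
    (q0U_le_one (S := S) VF ht1 hu1) hG 1 hx hx1 (Y := fun _ => 1) (EG.const 1)
    (fun _ => zero_le_one) (fun _ _ _ _ => rfl) (AFU S k) le_rfl zero_le_one le_rfl
  have e0 : ur u0 u1 0 = u0 := by funext j; simp [ur]
  have e1 : ur u0 u1 1 = u1 := by funext j; simp [ur]
  simp only [qr_U, Kv_const (del_AFU hV S t0 t1 u0 u1 k), Qv_const (del_AFU hV S t0 t1 u0 u1 k),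
    one_mul, zero_mul, add_zero, add_sub_cancel, e0, e1] at h
  rw [intervalIntegral.integral_const_mul] at h
  have hZ := Z0_pos (hG.c11 1) x
  have hd : 0 < u1 k - u0 k := by linarith
  have hF2 := hV k
  unfold RKfU QFU
  rw [intervalIntegral.integral_div]
  set I := ∫ r in (0 : ℝ)..1, Kv x (FbU μ b VF α) (Dm μ 1 (SbU n b VF α))
    (Hm μ 1 (SbU n b VF α)) (AFU S k) (fun _ => 1) (fun _ => 1)
    (q0U VF S (t0 + r * (t1 - t0)) (ur u0 u1 r)) with hI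
  set Z := Z0 x (FbU μ b VF α) with hZd
  have hZ' : 0 < Z := hZ
  rw [← sub_div, le_div_iff₀ (mul_pos hZ' hF2)]
  have e3 : x ^ 2 * VF k * ((u1 k - u0 k) * (I / (Z * VF k ^ 2))) * (Z * VF k) =
      x ^ 2 * ((u1 k - u0 k) * I) := by
    field_simp
  rw [e3]
  refine le_of_mul_le_mul_left ?_ hd
  calc (u1 k - u0 k) * (x ^ 2 * ((u1 k - u0 k) * I)) =
        x ^ 2 * ((u1 k - u0 k) ^ 2 * I) := by ring
    _ ≤ _ := h
    _ = _ := by ring

include hG in
/-- **The window of the response of the class `k` along a joint path of the shares.** -/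
theorem window_xU (hx : 0 ≤ x) (hV : ∀ k, 0 < VF k) (k : A) (S : Finset (Fin n))
    (ht0 : 0 ≤ t0) (ht : t0 ≤ t1) (ht1 : t1 ≤ 1) (hu0 : ∀ j, 0 ≤ u0 j) (hu : ∀ j, u0 j ≤ u1 j)
    (hu1 : ∀ j, u1 j ≤ 1) (hk : u0 k < u1 k) :
    VF k * ((u1 k - u0 k) * ∫ r in (0 : ℝ)..1, RXU μ b VF α x k S
      (t0 + r * (t1 - t0)) (ur u0 u1 r)) ≤
      QFU μ b VF α x k S t1 u1 - QFU μ b VF α x k S t0 u0 := by
  have h := windowr (q0U_nonneg (S := S) VF ht0 hu0) (q0U_le (S := S) VF ht hu)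
    (q0U_le_one (S := S) VF ht1 hu1) hG 1 hx (Y := fun _ => 1) (EG.const 1)
    (fun _ => zero_le_one) (fun _ _ _ _ => rfl) (AFU S k) le_rfl zero_le_one le_rfl
  have e0 : ur u0 u1 0 = u0 := by funext j; simp [ur]
  have e1 : ur u0 u1 1 = u1 := by funext j; simp [ur]
  simp only [qr_U, Rv_const (del_AFU hV S t0 t1 u0 u1 k), Qv_const (del_AFU hV S t0 t1 u0 u1 k),
    one_mul, zero_mul, add_zero, add_sub_cancel, e0, e1] at h
  rw [intervalIntegral.integral_const_mul] at h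
  have hZ := Z0_pos (hG.c11 1) x
  have hd : 0 < u1 k - u0 k := by linarith
  have hF2 := hV k
  unfold RXU QFU
  rw [intervalIntegral.integral_div]
  set I := ∫ r in (0 : ℝ)..1, Rv x (FbU μ b VF α) (Dm μ 1 (SbU n b VF α))
    (Hm μ 1 (SbU n b VF α)) (AFU S k) (fun _ => 1) (fun _ => 1)
    (q0U VF S (t0 + r * (t1 - t0)) (ur u0 u1 r)) with hI
  set Z := Z0 x (FbU μ b VF α) with hZd
  have hZ' : 0 < Z := hZ
  rw [← sub_div, le_div_iff₀ (mul_pos hZ' hF2)]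
  have e3 : VF k * ((u1 k - u0 k) * (I / (Z * VF k ^ 2))) * (Z * VF k) =
      (u1 k - u0 k) * I := by
    field_simp
  rw [e3]
  refine le_of_mul_le_mul_left ?_ hd
  calc (u1 k - u0 k) * ((u1 k - u0 k) * I) = (u1 k - u0 k) ^ 2 * I := by ring
    _ ≤ _ := h
    _ = _ := by ring

include hG in
/-- **The window of the bonds along a joint path of the shares.** -/
theorem window_bU (hx : 0 ≤ x) (hx1 : x ≤ 1) (hn : 0 < n) (hb : 0 < b) (S : Finset (Fin n))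
    (ht0 : 0 ≤ t0) (ht : t0 < t1) (ht1 : t1 ≤ 1) (hu0 : ∀ j, 0 ≤ u0 j) (hu : ∀ j, u0 j ≤ u1 j)
    (hu1 : ∀ j, u1 j ≤ 1) :
    x ^ 2 * (b ^ 2 / n) * ((t1 - t0) * ∫ r in (0 : ℝ)..1, RKbU μ b VF α x S
      (t0 + r * (t1 - t0)) (ur u0 u1 r)) ≤
      QBU μ b VF α x S t1 u1 - QBU μ b VF α x S t0 u0 := by
  have h := windowq (q0U_nonneg (S := S) VF ht0 hu0) (q0U_le (S := S) VF ht.le hu)
    (q0U_le_one (S := S) VF ht1 hu1) hG 1 hx hx1 (Y := fun _ => 1) (EG.const 1)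
    (fun _ => zero_le_one) (fun _ _ _ _ => rfl) (ABU A S) le_rfl zero_le_one le_rfl
  have e0 : ur u0 u1 0 = u0 := by funext j; simp [ur]
  have e1 : ur u0 u1 1 = u1 := by funext j; simp [ur]
  simp only [qr_U, Kv_const (del_ABU VF S t0 t1 u0 u1), Qv_const (del_ABU VF S t0 t1 u0 u1),
    one_mul, zero_mul, add_zero, add_sub_cancel, e0, e1] at h
  rw [intervalIntegral.integral_const_mul] at h
  have hZ := Z0_pos (hG.c11 1) x
  have hd : 0 < t1 - t0 := by linarith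
  have hn' : (0 : ℝ) < n := by exact_mod_cast hn
  unfold RKbU QBU
  rw [intervalIntegral.integral_div]
  have hF2 : 0 < b ^ 2 / (n : ℝ) := by positivity
  generalize b ^ 2 / (n : ℝ) = B2 at hF2 ⊢
  set I := ∫ r in (0 : ℝ)..1, Kv x (FbU μ b VF α) (Dm μ 1 (SbU n b VF α))
    (Hm μ 1 (SbU n b VF α)) (ABU A S) (fun _ => 1) (fun _ => 1)
    (q0U VF S (t0 + r * (t1 - t0)) (ur u0 u1 r)) with hI
  set Z := Z0 x (FbU μ b VF α) with hZd
  have hZ' : 0 < Z := hZ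
  rw [← sub_div, le_div_iff₀ (mul_pos hZ' hF2)]
  have e3 : x ^ 2 * B2 * ((t1 - t0) * (I / (Z * B2 ^ 2))) * (Z * B2) =
      x ^ 2 * ((t1 - t0) * I) := by
    field_simp
  rw [e3]
  refine le_of_mul_le_mul_left ?_ hd
  calc (t1 - t0) * (x ^ 2 * ((t1 - t0) * I)) = x ^ 2 * ((t1 - t0) ^ 2 * I) := by ring
    _ ≤ _ := h
    _ = _ := by ring

include hG in
/-- continuity of the rank-one number of the class `k` along a joint path -/
theorem cont_fU (hx : 0 ≤ x) (hV : ∀ k, 0 < VF k) (k : A) (S : Finset (Fin n))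
    (ht0 : 0 ≤ t0) (ht : t0 ≤ t1) (ht1 : t1 ≤ 1) (hu0 : ∀ j, 0 ≤ u0 j) (hu : ∀ j, u0 j ≤ u1 j)
    (hu1 : ∀ j, u1 j ≤ 1) (hk : u0 k < u1 k) :
    ContinuousOn (fun r => RKfU μ b VF α x k S (t0 + r * (t1 - t0)) (ur u0 u1 r))
      (Set.Icc 0 1) := by
  have h := cont_Kv (q0U_nonneg (S := S) VF ht0 hu0) (q0U_le (S := S) VF ht hu)
    (q0U_le_one (S := S) VF ht1 hu1) hG 1 hx (Y := fun _ => 1) (EG.const 1)
    (fun _ _ _ _ => rfl) (AFU S k)
  simp only [qr_U, Kv_const (del_AFU hV S t0 t1 u0 u1 k)] at h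
  have hd : u1 k - u0 k ≠ 0 := by
    have : 0 < u1 k - u0 k := by linarith
    exact this.ne'
  have h2 := h.div_const ((u1 k - u0 k) ^ 2 * (Z0 x (FbU μ b VF α) * VF k ^ 2))
  refine h2.congr fun r _ => ?_
  unfold RKfU
  exact (mul_div_mul_left _ _ (pow_ne_zero 2 hd)).symm

include hG in
/-- continuity of the response number of the class `k` along a joint path -/
theorem cont_xU (hx : 0 ≤ x) (hV : ∀ k, 0 < VF k) (k : A) (S : Finset (Fin n))
    (ht0 : 0 ≤ t0) (ht : t0 ≤ t1) (ht1 : t1 ≤ 1) (hu0 : ∀ j, 0 ≤ u0 j) (hu : ∀ j, u0 j ≤ u1 j)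
    (hu1 : ∀ j, u1 j ≤ 1) (hk : u0 k < u1 k) :
    ContinuousOn (fun r => RXU μ b VF α x k S (t0 + r * (t1 - t0)) (ur u0 u1 r))
      (Set.Icc 0 1) := by
  have h := cont_Rv (q0U_nonneg (S := S) VF ht0 hu0) (q0U_le (S := S) VF ht hu)
    (q0U_le_one (S := S) VF ht1 hu1) hG 1 hx (Y := fun _ => 1) (EG.const 1)
    (fun _ _ _ _ => rfl) (AFU S k)
  simp only [qr_U, Rv_const (del_AFU hV S t0 t1 u0 u1 k)] at h
  have hd : u1 k - u0 k ≠ 0 := by
    have : 0 < u1 k - u0 k := by linarith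
    exact this.ne'
  have h2 := h.div_const ((u1 k - u0 k) ^ 2 * (Z0 x (FbU μ b VF α) * VF k ^ 2))
  refine h2.congr fun r _ => ?_
  unfold RXU
  exact (mul_div_mul_left _ _ (pow_ne_zero 2 hd)).symm

include hG in
/-- continuity of the rank-one number of the bonds along a joint path -/
theorem cont_bU (hx : 0 ≤ x) (S : Finset (Fin n))
    (ht0 : 0 ≤ t0) (ht : t0 < t1) (ht1 : t1 ≤ 1) (hu0 : ∀ j, 0 ≤ u0 j) (hu : ∀ j, u0 j ≤ u1 j)
    (hu1 : ∀ j, u1 j ≤ 1) :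
    ContinuousOn (fun r => RKbU μ b VF α x S (t0 + r * (t1 - t0)) (ur u0 u1 r))
      (Set.Icc 0 1) := by
  have h := cont_Kv (q0U_nonneg (S := S) VF ht0 hu0) (q0U_le (S := S) VF ht.le hu)
    (q0U_le_one (S := S) VF ht1 hu1) hG 1 hx (Y := fun _ => 1) (EG.const 1)
    (fun _ _ _ _ => rfl) (ABU A S)
  simp only [qr_U, Kv_const (del_ABU VF S t0 t1 u0 u1)] at h
  have hd : t1 - t0 ≠ 0 := by
    have : 0 < t1 - t0 := by linarith
    exact this.ne'
  have h2 := h.div_const ((t1 - t0) ^ 2 * (Z0 x (FbU μ b VF α) * (b ^ 2 / n) ^ 2))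
  refine h2.congr fun r _ => ?_
  unfold RKbU
  exact (mul_div_mul_left _ _ (pow_ne_zero 2 hd)).symm

end path

end Vale.Agent.P146.H118
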