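import Vale.Agent.P146.H463.NeIn
import Vale.Agent.P146.H118.RkU

/-!
The passage from the two point number of the plain spins to the weighted magnetisations with the
amplitude on both sides. In a Gibbs system, given the frozen coordinates `K`, with
`M_i = cx⟨a σ_i⟩`, `Q = ∑_{i ∈ S} M_i²` and
`RKaa = ∑_{i, j ∈ S} (cx⟨a σ_i a σ_j⟩ - M_i M_j)²`:

* `F2_amp_ge`: `c² ∑ (cx⟨σ_i σ_j⟩)² ≤ ∑ (cx⟨a σ_i a σ_j⟩)²` for `c ≤ a²`;
* `F2_amp_le`: the other side, `a² ≤ C`;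
* `cc_up`: `(1 - η)⁴ ∑ (cx⟨σ_i σ_j⟩)² ≤ (1 + θ) Q² + (1 + 1/θ) RKaa`;
* `cc_dn`: `(1 - θ) Q² ≤ (1 + η)⁴ ∑ (cx⟨σ_i σ_j⟩)² + (1/θ) RKaa`;
* the forms in the mean `ex`, and `rkaa_U`: in the ensemble `U` the mean of `RKaa` is the number
  `RKfU` of `H118.RkU`.
-/

open MeasureTheory ProbabilityTheory

namespace Vale.Agent.P146.H118

open Vale.Agent.P157.Lv Vale.Agent.P146.H425 Vale.Agent.P146.H332 Vale.Agent.P146.H246
open Vale.Agent.P146.H196 Vale.Agent.P146.H646 Vale.Agent.P146.H347 Vale.Agent.P146.H325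
open Vale.Agent.P146.H816 Vale.Agent.P146.H281.U Vale.Agent.P146.H9.U
open Vale.Agent.P146.H615
open Vale.Agent.P146.H463 (F2 F2_nonneg quad_eq cxav_mono cxav_cmul bm_F2)

set_option linter.unusedSectionVars false

section sums

/-- `(∑ M_i²)²` as a double sum -/
lemma sq_sum_dbl {J : Type} (S : Finset J) (M : J → ℝ) :
    (∑ i ∈ S, M i ^ 2) ^ 2 = ∑ i ∈ S, ∑ j ∈ S, (M i * M j) ^ 2 := by
  rw [sq, Finset.sum_mul]
  refine Finset.sum_congr rfl fun i _ => ?_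
  rw [Finset.mul_sum]
  exact Finset.sum_congr rfl fun j _ => by ring

/-- the square of a sum with a parameter -/
lemma sq_le_par {θ : ℝ} (hθ : 0 < θ) (u v : ℝ) :
    u ^ 2 ≤ (1 + θ) * v ^ 2 + (1 + 1 / θ) * (u - v) ^ 2 := by
  have h1 : (1 + θ) * v ^ 2 + (1 + 1 / θ) * (u - v) ^ 2 - u ^ 2 =
      (1 / θ) * (θ * v - (u - v)) ^ 2 := by
    field_simp
    ring
  have h2 : 0 ≤ (1 / θ) * (θ * v - (u - v)) ^ 2 := by positivity
  linarith

lemma dbl_le_par {J : Type} (S : Finset J) (M : J → ℝ) (D : J → J → ℝ) {θ : ℝ} (hθ : 0 < θ) :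
    ∑ i ∈ S, ∑ j ∈ S, D i j ^ 2 ≤ (1 + θ) * (∑ i ∈ S, M i ^ 2) ^ 2 +
      (1 + 1 / θ) * ∑ i ∈ S, ∑ j ∈ S, (D i j - M i * M j) ^ 2 := by
  rw [sq_sum_dbl, Finset.mul_sum, Finset.mul_sum, ← Finset.sum_add_distrib]
  refine Finset.sum_le_sum fun i _ => ?_
  rw [Finset.mul_sum, Finset.mul_sum, ← Finset.sum_add_distrib]
  exact Finset.sum_le_sum fun j _ => sq_le_par hθ _ _

lemma dbl_ge_par {J : Type} (S : Finset J) (M : J → ℝ) (D : J → J → ℝ) {θ : ℝ} (hθ : 0 < θ) :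
    (∑ i ∈ S, M i ^ 2) ^ 2 ≤ (1 + θ) * ∑ i ∈ S, ∑ j ∈ S, D i j ^ 2 +
      (1 + 1 / θ) * ∑ i ∈ S, ∑ j ∈ S, (D i j - M i * M j) ^ 2 := by
  rw [sq_sum_dbl, Finset.mul_sum, Finset.mul_sum, ← Finset.sum_add_distrib]
  refine Finset.sum_le_sum fun i _ => ?_
  rw [Finset.mul_sum, Finset.mul_sum, ← Finset.sum_add_distrib]
  refine Finset.sum_le_sum fun j _ => ?_
  have h := sq_le_par hθ (M i * M j) (D i j)
  have e : (M i * M j - D i j) ^ 2 = (D i j - M i * M j) ^ 2 := by ring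
  rwa [e] at h

end sums

section gm

variable {κ s : Type} [Fintype κ] [DecidableEq κ] [Fintype s] [DecidableEq s]
variable {Ω : Type} [MeasurableSpace Ω] {m : Measure Ω} {M0 : ℝ} {E : κ → Ω → ℝ}
variable {σ : s → Ω → ℝ} {a : Ω → ℝ}

/-- the weighted family -/
def wf2 (a : Ω → ℝ) (σ : s → Ω → ℝ) : s → Ω → ℝ := fun j ω => a ω * σ j ω

lemma bd_wf2 (ha : Bd a) (hs : ∀ j, Bd (σ j)) (j : s) : Bd (wf2 a σ j) := ha.mul (hs j)

/-- the quadratic form of the two point matrix -/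
lemma qform (hG : GM m E M0) (x : ℝ) (K : Finset κ) {f : s → Ω → ℝ} (hf : ∀ j, Bd (f j))
    (S : Finset s) (v : s → ℝ) (z : κ → ℝ) :
    ∑ i ∈ S, ∑ j ∈ S, v i * v j *
      cx (H347.g1 κ) K (Zxm m 1 E x) (avm m 1 E fun ω => f i ω * f j ω) z =
    cx (H347.g1 κ) K (Zxm m 1 E x) (avm m 1 E fun ω => (∑ j ∈ S, v j * f j ω) ^ 2) z := by
  rw [quad_eq hG x K hf S v z]
  refine Finset.sum_congr rfl fun i _ => ?_
  rw [Finset.mul_sum]
  exact Finset.sum_congr rfl fun j _ => by ring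

lemma csym (x : ℝ) (K : Finset κ) (f : s → Ω → ℝ) (i j : s) (z : κ → ℝ) :
    cx (H347.g1 κ) K (Zxm m 1 E x) (avm m 1 E fun ω => f i ω * f j ω) z =
      cx (H347.g1 κ) K (Zxm m 1 E x) (avm m 1 E fun ω => f j ω * f i ω) z := by
  have e : (fun ω => f i ω * f j ω) = fun ω => f j ω * f i ω := by
    funext ω; ring
  rw [e]

/-- comparison of the two point numbers of two families -/
theorem F2_cmp (hG : GM m E M0) (x : ℝ) (K : Finset κ) {f g : s → Ω → ℝ} (hf : ∀ j, Bd (f j))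
    (hg : ∀ j, Bd (g j)) {c : ℝ} (hc : 0 ≤ c) (S : Finset s)
    (h : ∀ (v : s → ℝ) (ω : Ω), c * (∑ j ∈ S, v j * f j ω) ^ 2 ≤ (∑ j ∈ S, v j * g j ω) ^ 2)
    (z : κ → ℝ) : c ^ 2 * F2 m E x K f S z ≤ F2 m E x K g S z := by
  have hb : ∀ {f : s → Ω → ℝ}, (∀ j, Bd (f j)) → ∀ v : s → ℝ,
      Bd fun ω => (∑ j ∈ S, v j * f j ω) ^ 2 := fun hf v =>
    (Bd.sum S fun j _ => (hf j).cmul _).sq
  have h1 := frob_mono' (A := S)
    (K := fun i j => c * cx (H347.g1 κ) K (Zxm m 1 E x) (avm m 1 E fun ω => f i ω * f j ω) z)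
    (H := fun i j => cx (H347.g1 κ) K (Zxm m 1 E x) (avm m 1 E fun ω => g i ω * g j ω) z)
    (fun i j => by rw [csym x K f i j z]) (fun i j => csym x K g i j z) ?_ ?_
  · unfold F2
    refine le_trans (le_of_eq ?_) h1
    rw [Finset.mul_sum]
    refine Finset.sum_congr rfl fun i _ => ?_
    rw [Finset.mul_sum]
    exact Finset.sum_congr rfl fun j _ => by rw [mul_pow]
  · intro v
    have e : ∑ i ∈ S, ∑ j ∈ S, v i * v j *
        (c * cx (H347.g1 κ) K (Zxm m 1 E x) (avm m 1 E fun ω => f i ω * f j ω) z) =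
        c * cx (H347.g1 κ) K (Zxm m 1 E x)
          (avm m 1 E fun ω => (∑ j ∈ S, v j * f j ω) ^ 2) z := by
      rw [← qform hG x K hf S v z, Finset.mul_sum]
      refine Finset.sum_congr rfl fun i _ => ?_
      rw [Finset.mul_sum]
      exact Finset.sum_congr rfl fun j _ => by ring
    rw [e]
    refine mul_nonneg hc ?_
    have h0 := cxav_mono hG x K (Bd.const 0) (hb hf v) (fun ω => sq_nonneg _) z
    rwa [H463.cxav_const hG x K 0 z] at h0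
  · intro v
    have e : ∑ i ∈ S, ∑ j ∈ S, v i * v j *
        (c * cx (H347.g1 κ) K (Zxm m 1 E x) (avm m 1 E fun ω => f i ω * f j ω) z) =
        c * cx (H347.g1 κ) K (Zxm m 1 E x)
          (avm m 1 E fun ω => (∑ j ∈ S, v j * f j ω) ^ 2) z := by
      rw [← qform hG x K hf S v z, Finset.mul_sum]
      refine Finset.sum_congr rfl fun i _ => ?_
      rw [Finset.mul_sum]
      exact Finset.sum_congr rfl fun j _ => by ring
    rw [e, qform hG x K hg S v z, ← cxav_cmul hG]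
    exact cxav_mono hG x K ((hb hf v).cmul _) (hb hg v) (h v) z

lemma sum_wf2 (S : Finset s) (v : s → ℝ) (ω : Ω) :
    ∑ j ∈ S, v j * wf2 a σ j ω = a ω * ∑ j ∈ S, v j * σ j ω := by
  unfold wf2
  rw [Finset.mul_sum]
  exact Finset.sum_congr rfl fun j _ => by ring

/-- **The two point number with the amplitude on both sides, lower bound.** -/
theorem F2_amp_ge (hG : GM m E M0) (x : ℝ) (K : Finset κ) (ha : Bd a) (hs : ∀ j, Bd (σ j))
    {c : ℝ} (hc : 0 ≤ c) (hca : ∀ ω, c ≤ a ω ^ 2) (S : Finset s) (z : κ → ℝ) :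
    c ^ 2 * F2 m E x K σ S z ≤ F2 m E x K (wf2 a σ) S z := by
  refine F2_cmp hG x K hs (bd_wf2 ha hs) hc S (fun v ω => ?_) z
  rw [sum_wf2, mul_pow]
  exact mul_le_mul_of_nonneg_right (hca ω) (sq_nonneg _)

/-- **The two point number with the amplitude on both sides, upper bound.** -/
theorem F2_amp_le (hG : GM m E M0) (x : ℝ) (K : Finset κ) (ha : Bd a) (hs : ∀ j, Bd (σ j))
    {C : ℝ} (hC : 0 < C) (hCa : ∀ ω, a ω ^ 2 ≤ C) (S : Finset s) (z : κ → ℝ) :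
    F2 m E x K (wf2 a σ) S z ≤ C ^ 2 * F2 m E x K σ S z := by
  have h1 := F2_cmp hG x K (bd_wf2 ha hs) hs (c := C⁻¹) (by positivity) S (fun v ω => ?_) z
  · rw [inv_pow, ← div_eq_inv_mul, div_le_iff₀ (by positivity)] at h1
    linarith
  · rw [sum_wf2, mul_pow, ← mul_assoc]
    refine mul_le_of_le_one_left (sq_nonneg _) ?_
    rw [← div_eq_inv_mul]
    exact (div_le_one hC).2 (hCa ω)

lemma sq_ge_of {η c : ℝ} (hη1 : η ≤ 1) (hc : |c - 1| ≤ η) : (1 - η) ^ 2 ≤ c ^ 2 := by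
  have h := abs_le.1 hc
  exact pow_le_pow_left₀ (by linarith) (by linarith [h.1]) 2

lemma sq_le_of {η c : ℝ} (hη1 : η ≤ 1) (hc : |c - 1| ≤ η) : c ^ 2 ≤ (1 + η) ^ 2 := by
  have h := abs_le.1 hc
  exact pow_le_pow_left₀ (by linarith [h.1]) (by linarith [h.2]) 2

/-- the sum of the squared deviations in the form of `F2` -/
lemma dbl_rk (x : ℝ) (K : Finset κ) (S : Finset s) (z : κ → ℝ) :
    RKg m E x K (wf2 a σ) S z = ∑ i ∈ S, ∑ j ∈ S,
      (cx (H347.g1 κ) K (Zxm m 1 E x) (avm m 1 E fun ω => wf2 a σ i ω * wf2 a σ j ω) z -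
        Mg m E x K a σ i z * Mg m E x K a σ j z) ^ 2 := rfl

/-- **From the two point number to the weighted magnetisations**, no a priori size. -/
theorem cc_up (hG : GM m E M0) (x : ℝ) (K : Finset κ) (ha : Bd a) (hs : ∀ j, Bd (σ j))
    {η θ : ℝ} (hη1 : η ≤ 1) (haη : ∀ ω, |a ω - 1| ≤ η) (hθ : 0 < θ) (S : Finset s)
    (z : κ → ℝ) :
    (1 - η) ^ 4 * F2 m E x K σ S z ≤ (1 + θ) * m2 S (Mg m E x K a σ) z ^ 2 +
      (1 + 1 / θ) * RKg m E x K (wf2 a σ) S z := by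
  have h1 := F2_amp_ge hG x K ha hs (c := (1 - η) ^ 2) (sq_nonneg _)
    (fun ω => sq_ge_of hη1 (haη ω)) S z
  have e : ((1 - η) ^ 2) ^ 2 = (1 - η) ^ 4 := by ring
  rw [e] at h1
  refine h1.trans ?_
  rw [dbl_rk]
  exact dbl_le_par S (fun i => Mg m E x K a σ i z) _ hθ

/-- **From the weighted magnetisations to the two point number.** -/
theorem cc_dn (hG : GM m E M0) (x : ℝ) (K : Finset κ) (ha : Bd a) (hs : ∀ j, Bd (σ j))
    {η θ : ℝ} (hη : 0 ≤ η) (hη1 : η ≤ 1) (haη : ∀ ω, |a ω - 1| ≤ η) (hθ : 0 < θ)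
    (S : Finset s) (z : κ → ℝ) :
    m2 S (Mg m E x K a σ) z ^ 2 ≤ (1 + θ) * ((1 + η) ^ 4 * F2 m E x K σ S z) +
      (1 + 1 / θ) * RKg m E x K (wf2 a σ) S z := by
  have h1 := F2_amp_le hG x K ha hs (C := (1 + η) ^ 2) (by positivity)
    (fun ω => sq_le_of hη1 (haη ω)) S z
  have e : ((1 + η) ^ 2) ^ 2 = (1 + η) ^ 4 := by ring
  rw [e] at h1
  have h2 := dbl_ge_par S (fun i => Mg m E x K a σ i z)
    (fun i j => cx (H347.g1 κ) K (Zxm m 1 E x)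
      (avm m 1 E fun ω => wf2 a σ i ω * wf2 a σ j ω) z) hθ
  refine (le_of_eq rfl).trans (h2.trans ?_)
  rw [dbl_rk]
  have h3 : (1 + θ) * F2 m E x K (wf2 a σ) S z ≤ (1 + θ) * ((1 + η) ^ 4 * F2 m E x K σ S z) :=
    mul_le_mul_of_nonneg_left h1 (by linarith)
  exact add_le_add_left h3 _

/-! ### forms in the mean -/

lemma bm_m2 (hG : GM m E M0) (x : ℝ) (K : Finset κ) (ha : Bd a) (hs : ∀ j, Bd (σ j))
    (S : Finset s) : BM (m2 S (Mg m E x K a σ)) :=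
  BM.sum S fun j _ => (bm_Mg hG x K ha hs j).sq

lemma bm_RKaa (hG : GM m E M0) (x : ℝ) (K : Finset κ) (ha : Bd a) (hs : ∀ j, Bd (σ j))
    (S : Finset s) : BM (RKg m E x K (wf2 a σ) S) :=
  H615.bm_RKg hG x K (bd_wf2 ha hs) S

/-- **The mean form of `cc_up`.** -/
theorem ex_cc_up (hG : GM m E M0) (x : ℝ) (K : Finset κ) (ha : Bd a) (hs : ∀ j, Bd (σ j))
    {η θ : ℝ} (hη1 : η ≤ 1) (haη : ∀ ω, |a ω - 1| ≤ η) (hθ : 0 < θ) (S : Finset s) :
    (1 - η) ^ 4 * ex (H347.g1 κ) (Zxm m 1 E x) (F2 m E x K σ S) ≤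
      (1 + θ) * ex (H347.g1 κ) (Zxm m 1 E x) (fun z => m2 S (Mg m E x K a σ) z ^ 2) +
      (1 + 1 / θ) * ex (H347.g1 κ) (Zxm m 1 E x) (RKg m E x K (wf2 a σ) S) := by
  have hw := H347.wt hG 1 x
  have b1 : BM (F2 m E x K σ S) := bm_F2 hG x K hs S
  have b2 := (bm_m2 hG x K ha hs S).sq
  have b3 := bm_RKaa hG x K ha hs S
  have c1 := (BM.const ((1 - η) ^ 4)).mul b1
  have c2 := (BM.const (1 + θ)).mul b2
  have c3 := (BM.const (1 + 1 / θ)).mul b3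
  have h := hw.ex_mono c1 (c2.add c3) (fun z => cc_up hG x K ha hs hη1 haη hθ S z)
  rw [hw.ex_const_mul, hw.ex_add c2 c3, hw.ex_const_mul, hw.ex_const_mul] at h
  exact h

/-- **The mean form of `cc_dn`.** -/
theorem ex_cc_dn (hG : GM m E M0) (x : ℝ) (K : Finset κ) (ha : Bd a) (hs : ∀ j, Bd (σ j))
    {η θ : ℝ} (hη : 0 ≤ η) (hη1 : η ≤ 1) (haη : ∀ ω, |a ω - 1| ≤ η) (hθ : 0 < θ)
    (S : Finset s) :
    ex (H347.g1 κ) (Zxm m 1 E x) (fun z => m2 S (Mg m E x K a σ) z ^ 2) ≤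
      (1 + θ) * ((1 + η) ^ 4 * ex (H347.g1 κ) (Zxm m 1 E x) (F2 m E x K σ S)) +
      (1 + 1 / θ) * ex (H347.g1 κ) (Zxm m 1 E x) (RKg m E x K (wf2 a σ) S) := by
  have hw := H347.wt hG 1 x
  have b1 : BM (F2 m E x K σ S) := bm_F2 hG x K hs S
  have b2 := (bm_m2 hG x K ha hs S).sq
  have b3 := bm_RKaa hG x K ha hs S
  have c1 := (BM.const (1 + θ)).mul ((BM.const ((1 + η) ^ 4)).mul b1)
  have c3 := (BM.const (1 + 1 / θ)).mul b3
  have h := hw.ex_mono b2 (c1.add c3) (fun z => cc_dn hG x K ha hs hη hη1 haη hθ S z)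
  rw [hw.ex_add c1 c3, hw.ex_const_mul, hw.ex_const_mul, hw.ex_const_mul] at h
  exact h

end gm

section ens

variable {n : ℕ} {Th A : Type} [MeasurableSpace Th] [Fintype A] [DecidableEq A]
  {b x M0 M1 : ℝ} {VF : A → ℝ} {α : A → Th → ℝ} {μ : Measure (Th × Xs n)}
  {LB LF : Type} [Fintype LB] [DecidableEq LB] [Fintype LF] [DecidableEq LF]
  {κ : LF → A} {cB : LB → ℝ} {cF : LF → ℝ} {BL : Finset LB} {FL : Finset LF}
  {S : Finset (Fin n)} {t : ℝ} {u : A → ℝ}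

/-- **In the ensemble `U` the mean of the rank number with the amplitude on both sides is
`RKfU`.** -/
theorem rkaa_U (hG : GM μ (SbU n b VF α) M0) (hG1 : GM μ (SU b cB cF fun l => α (κ l)) M1)
    (hV : ∀ k, 0 < VF k) (hs : ShU κ cB cF BL FL VF t u) (x : ℝ) (k : A)
    (S : Finset (Fin n)) :
    ex (H347.g1 (Co n LB LF)) (Zxm μ 1 (SU b cB cF fun l => α (κ l)) x)
      (RKg μ (SU b cB cF fun l => α (κ l)) x (Kset S BL FL)
        (wf2 (fun w => α k w.1) fun (j : Fin n) w => sp w.2 j) S) =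
      RKfU μ b VF α x k S t u :=
  rkfU_eq hG hG1 hV hs x k S

/-- the mean of the weighted magnetisations -/
theorem m2_U (hG : GM μ (SbU n b VF α) M0) (hG1 : GM μ (SU b cB cF fun l => α (κ l)) M1)
    (hV : ∀ k, 0 < VF k) (hs : ShU κ cB cF BL FL VF t u) (x : ℝ) (k : A)
    (S : Finset (Fin n)) :
    ex (H347.g1 (Co n LB LF)) (Zxm μ 1 (SU b cB cF fun l => α (κ l)) x)
      (m2 S (Mg μ (SU b cB cF fun l => α (κ l)) x (Kset S BL FL) (fun w => α k w.1)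
        fun (j : Fin n) w => sp w.2 j)) =
      QFU μ b VF α x k S t u :=
  qfU_eq hG hG1 hV hs x k S

end ens

end Vale.Agent.P146.H118
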