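import Vale.Agent.P146.H713.Hess
import Vale.Agent.P146.H332.KX
import Vale.Agent.P146.H332.Conv

/-!
Conditional means of the law with the density `exp (x F)` given a position: the coordinates of `A0`
are revealed up to the share `s` (position `√s w`, noise `√(1 - s) z`), any other coordinate `e` is
at `a e w(inl e) + b e w(inr e)` with the noise `c e z e` (frozen: `a e = 1`, `b e = c e = 0`;
private: `a e = b e = 0`, `c e = 1`). `zd` is the density, `cm φ` the conditional mean of `φ`.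
`(cm φ)` is a martingale in the share, with the gradient `dcm φ`.
-/

open MeasureTheory ProbabilityTheory Filter Topology

namespace Vale.Agent.P146.H118

open Vale.Agent.P157.Lv Vale.Agent.P146.H425 Vale.Agent.P146.H332

set_option linter.unusedSectionVars false

variable {ι : Type} [Fintype ι] [DecidableEq ι]

/-- the density of the position -/
noncomputable def zd (A0 : Finset ι) (a b c : ι → ℝ) (x : ℝ) (F : (ι → ℝ) → ℝ) (s : ℝ)
    (w : ι ⊕ ι → ℝ) : ℝ := P A0 a b c (fun y => Real.exp (x * F y)) s w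

/-- the conditional mean given the position -/
noncomputable def cm (A0 : Finset ι) (a b c : ι → ℝ) (x : ℝ) (F φ : (ι → ℝ) → ℝ) (s : ℝ)
    (w : ι ⊕ ι → ℝ) : ℝ :=
  P A0 a b c (fun y => Real.exp (x * F y) * φ y) s w * (zd A0 a b c x F s w)⁻¹

/-- the gradient of the conditional mean in an active coordinate -/
noncomputable def dcm (A0 : Finset ι) (a b c : ι → ℝ) (x : ℝ) (F : (ι → ℝ) → ℝ)
    (D : ι → (ι → ℝ) → ℝ) (φ : (ι → ℝ) → ℝ) (φ1 : ι → (ι → ℝ) → ℝ) (e : ι) (s : ℝ)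
    (w : ι ⊕ ι → ℝ) : ℝ :=
  cm A0 a b c x F (φ1 e) s w + x * (cm A0 a b c x F (fun y => φ y * D e y) s w -
    cm A0 a b c x F φ s w * cm A0 a b c x F (D e) s w)

variable {A0 : Finset ι} {a b c : ι → ℝ} {x s : ℝ} {F : (ι → ℝ) → ℝ} {D : ι → (ι → ℝ) → ℝ}
  {B L : ℝ} {φ ψ : (ι → ℝ) → ℝ}

lemma eg_ptA {G : (ι → ℝ) → ℝ} (hG : EG G) (A0 : Finset ι) (a b c : ι → ℝ) (s : ℝ)
    (w : ι ⊕ ι → ℝ) : EG fun z => G (pt A0 a b c s w z) :=
  H325.EG.aff hG (u A0 a b s w) fun e => if e ∈ A0 then √(1 - s) else c e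

lemma P_add {G G' : (ι → ℝ) → ℝ} (hG : EG G) (hG' : EG G') (s : ℝ) (w : ι ⊕ ι → ℝ) :
    P A0 a b c (fun y => G y + G' y) s w = P A0 a b c G s w + P A0 a b c G' s w := by
  unfold P
  exact integral_add (eg_ptA hG A0 a b c s w).integrable (eg_ptA hG' A0 a b c s w).integrable

lemma P_const_mul (k : ℝ) (G : (ι → ℝ) → ℝ) (s : ℝ) (w : ι ⊕ ι → ℝ) :
    P A0 a b c (fun y => k * G y) s w = k * P A0 a b c G s w := by
  unfold P
  exact integral_const_mul _ _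

lemma P_mono {G G' : (ι → ℝ) → ℝ} (hG : EG G) (hG' : EG G') (h : ∀ y, G y ≤ G' y) (s : ℝ)
    (w : ι ⊕ ι → ℝ) : P A0 a b c G s w ≤ P A0 a b c G' s w := by
  unfold P
  exact integral_mono (eg_ptA hG A0 a b c s w).integrable (eg_ptA hG' A0 a b c s w).integrable
    fun z => h _

lemma zd_pos (h : C11 F D B L) (x s : ℝ) (w : ι ⊕ ι → ℝ) : 0 < zd A0 a b c x F s w := by
  unfold zd P
  exact integral_exp_pos (f := fun z => x * F (pt A0 a b c s w z))
    (eg_ptA (h.eg_exp x) A0 a b c s w).integrable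

lemma cm_add (h : C11 F D B L) (hφ : EG φ) (hψ : EG ψ) (s : ℝ) (w : ι ⊕ ι → ℝ) :
    cm A0 a b c x F (fun y => φ y + ψ y) s w = cm A0 a b c x F φ s w + cm A0 a b c x F ψ s w := by
  unfold cm
  rw [← add_mul, ← P_add ((h.eg_exp x).mul hφ) ((h.eg_exp x).mul hψ)]
  simp only [mul_add]

lemma cm_const_mul (k : ℝ) (φ : (ι → ℝ) → ℝ) (s : ℝ) (w : ι ⊕ ι → ℝ) :
    cm A0 a b c x F (fun y => k * φ y) s w = k * cm A0 a b c x F φ s w := by
  unfold cm
  rw [← mul_assoc, ← P_const_mul]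
  congr 2
  funext y
  ring

lemma cm_sub (h : C11 F D B L) (hφ : EG φ) (hψ : EG ψ) (s : ℝ) (w : ι ⊕ ι → ℝ) :
    cm A0 a b c x F (fun y => φ y - ψ y) s w = cm A0 a b c x F φ s w - cm A0 a b c x F ψ s w := by
  have h1 := cm_add (A0 := A0) (a := a) (b := b) (c := c) (x := x) h hφ (hψ.const_mul (-1)) s w
  rw [cm_const_mul] at h1
  have e : (fun y => φ y - ψ y) = fun y => φ y + -1 * ψ y := by funext y; ring
  rw [e, h1]
  ring

lemma cm_const (h : C11 F D B L) (k : ℝ) (s : ℝ) (w : ι ⊕ ι → ℝ) :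
    cm A0 a b c x F (fun _ => k) s w = k := by
  have h0 := (zd_pos (A0 := A0) (a := a) (b := b) (c := c) h x s w).ne'
  unfold cm
  have e : (fun y => Real.exp (x * F y) * k) = fun y => k * Real.exp (x * F y) := by
    funext y; ring
  rw [e, P_const_mul]
  unfold zd at h0 ⊢
  rw [mul_assoc, mul_inv_cancel₀ h0, mul_one]

lemma cm_sum {K : Type*} (S : Finset K) (h : C11 F D B L) {φ : K → (ι → ℝ) → ℝ}
    (hφ : ∀ i ∈ S, EG (φ i)) (s : ℝ) (w : ι ⊕ ι → ℝ) :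
    cm A0 a b c x F (fun y => ∑ i ∈ S, φ i y) s w = ∑ i ∈ S, cm A0 a b c x F (φ i) s w := by
  classical
  induction S using Finset.induction_on with
  | empty => simpa using cm_const (A0 := A0) (a := a) (b := b) (c := c) (x := x) h 0 s w
  | insert i S hi ih =>
    simp only [Finset.sum_insert hi]
    rw [cm_add h (hφ i (Finset.mem_insert_self i S))
      (EG.sum S fun i hi => hφ i (Finset.mem_insert_of_mem hi)),
      ih fun i hi => hφ i (Finset.mem_insert_of_mem hi)]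

lemma cm_mono (h : C11 F D B L) (hφ : EG φ) (hψ : EG ψ) (hle : ∀ y, φ y ≤ ψ y) (s : ℝ)
    (w : ι ⊕ ι → ℝ) : cm A0 a b c x F φ s w ≤ cm A0 a b c x F ψ s w := by
  unfold cm
  refine mul_le_mul_of_nonneg_right ?_ (inv_pos.2 (zd_pos h x s w)).le
  exact P_mono ((h.eg_exp x).mul hφ) ((h.eg_exp x).mul hψ)
    (fun y => mul_le_mul_of_nonneg_left (hle y) (Real.exp_pos _).le) s w

lemma cm_nonneg (h : C11 F D B L) (hφ : EG φ) (hle : ∀ y, 0 ≤ φ y) (s : ℝ) (w : ι ⊕ ι → ℝ) :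
    0 ≤ cm A0 a b c x F φ s w := by
  have := cm_mono (A0 := A0) (a := a) (b := b) (c := c) (x := x) h (EG.const 0) hφ hle s w
  rwa [cm_const h] at this

lemma abs_cm_le (h : C11 F D B L) (hφ : EG φ) {C : ℝ} (hle : ∀ y, |φ y| ≤ C) (s : ℝ)
    (w : ι ⊕ ι → ℝ) : |cm A0 a b c x F φ s w| ≤ C := by
  rw [abs_le]
  constructor
  · have := cm_mono (A0 := A0) (a := a) (b := b) (c := c) (x := x) h (EG.const (-C)) hφ
      (fun y => (abs_le.1 (hle y)).1) s w
    rwa [cm_const h] at this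
  · have := cm_mono (A0 := A0) (a := a) (b := b) (c := c) (x := x) h hφ (EG.const C)
      (fun y => (abs_le.1 (hle y)).2) s w
    rwa [cm_const h] at this

/-- Jensen -/
lemma cm_sq_le (h : C11 F D B L) (hφ : EG φ) (s : ℝ) (w : ι ⊕ ι → ℝ) :
    cm A0 a b c x F φ s w ^ 2 ≤ cm A0 a b c x F (fun y => φ y ^ 2) s w := by
  set m := cm A0 a b c x F φ s w with hm
  have h1 := cm_nonneg (A0 := A0) (a := a) (b := b) (c := c) (x := x) h
    (φ := fun y => (φ y - m) ^ 2) ((hφ.sub (EG.const m)).pow 2) (fun _ => sq_nonneg _) s w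
  have e : (fun y => (φ y - m) ^ 2) = fun y => (φ y ^ 2 - 2 * m * φ y) + m ^ 2 := by
    funext y; ring
  rw [e, cm_add h ((hφ.pow 2).sub (hφ.const_mul _)) (EG.const _), cm_sub h (hφ.pow 2)
    (hφ.const_mul _), cm_const_mul, cm_const h, ← hm] at h1
  nlinarith

/-! ### the class `KX` -/

lemma sf_c2 {G : (ι → ℝ) → ℝ} {G1 G2 : ι → (ι → ℝ) → ℝ} (h : H325.C2 G G1 G2) (A0 : Finset ι) :
    SF A0 G G1 G2 :=
  ⟨h.eg, h.cont, fun e _ => h.eg1 e, fun e _ => h.c1 e, fun e _ => h.eg2 e, fun e _ => h.c2 e,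
    h.fd, fun e _ => h.pd e⟩

/-- the exponential of `F` -/
lemma c2_expF (h : C11 F D B L) {F2 : ι → (ι → ℝ) → ℝ} (hF : H325.C2 F D F2) (x : ℝ) :
    H325.C2 (fun y => Real.exp (x * F y)) (fun e y => x * (Real.exp (x * F y) * D e y))
      (fun e y => x * (Real.exp (x * F y) * F2 e y + x * (Real.exp (x * F y) * D e y ^ 2))) := by
  have hE := h.eg_exp x
  have hc : Continuous fun y => Real.exp (x * F y) :=
    Real.continuous_exp.comp (continuous_const.mul hF.cont)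
  refine ⟨fun u => R1.fd_expF hF x u, fun e => ?_, hE, fun e => (hE.mul (h.eg_D e)).const_mul x,
    fun e => ((hE.mul (hF.eg2 e)).add ((hE.mul ((h.eg_D e).pow 2)).const_mul x)).const_mul x,
    fun e => continuous_const.mul (hc.mul (hF.c1 e)),
    fun e => continuous_const.mul ((hc.mul (hF.c2 e)).add
      (continuous_const.mul (hc.mul ((hF.c1 e).pow 2))))⟩
  have h1 : PD e (fun y => Real.exp (x * F y)) (fun y => x * (Real.exp (x * F y) * D e y)) :=
    H325.pd_of_fd (fun u => R1.fd_expF hF x u) e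
  exact ((h1.mul (hF.pd e)).const_mul x).congr fun y => by ring

/-- the gradient of the density -/
noncomputable def dzd (A0 : Finset ι) (a b c : ι → ℝ) (x : ℝ) (F : (ι → ℝ) → ℝ)
    (D : ι → (ι → ℝ) → ℝ) : ι ⊕ ι → ℝ → (ι ⊕ ι → ℝ) → ℝ := fun j =>
  Sum.elim (fun e s w => x * (zd A0 a b c x F s w * cm A0 a b c x F (D e) s w))
    (fun _ _ _ => 0) j

lemma zd_cm (h : C11 F D B L) (φ : (ι → ℝ) → ℝ) (s : ℝ) (w : ι ⊕ ι → ℝ) :
    zd A0 a b c x F s w * cm A0 a b c x F φ s w =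
      P A0 a b c (fun y => Real.exp (x * F y) * φ y) s w := by
  have h0 := (zd_pos (A0 := A0) (a := a) (b := b) (c := c) h x s w).ne'
  unfold cm
  field_simp

lemma kf_zd (h : C11 F D B L) {F2 : ι → (ι → ℝ) → ℝ} (hF : H325.C2 F D F2)
    (A0 : Finset ι) (a b c : ι → ℝ) (x : ℝ) :
    KF (A0.map Function.Embedding.inl) (zd A0 a b c x F) (dzd A0 a b c x F D)
      (fun _ _ => 0) := by
  refine ((sf_c2 (c2_expF h hF x) A0).kf a b c).congr (fun _ _ => rfl) (fun j hj s w => ?_)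
    fun _ _ => rfl
  obtain ⟨e, -, rfl⟩ := Finset.mem_map.1 hj
  show x * (zd A0 a b c x F s w * cm A0 a b c x F (D e) s w) =
    P A0 a b c (fun y => x * (Real.exp (x * F y) * D e y)) s w
  rw [zd_cm h, P_const_mul]

lemma zd_lower (h : C11 F D B L) (hx : 0 ≤ x) (A0 : Finset ι) (a b c : ι → ℝ) :
    ∃ k d : ℝ, 0 < k ∧ ∀ s ∈ Set.Icc (0 : ℝ) 1, ∀ w,
      k * Real.exp (-(d * ‖w‖)) ≤ zd A0 a b c x F s w := by
  have hB := h.B0
  have h2 : ∀ y : ι → ℝ, Real.exp (x * F 0) * Real.exp (-(x * B * ‖y‖)) ≤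
      Real.exp (x * F y) := by
    intro y
    rw [← Real.exp_add]
    refine Real.exp_le_exp.2 ?_
    have h3 := (abs_le.1 (h.lip 0 y)).1
    rw [zero_add] at h3
    have h5 : x * (F 0 - B * ‖y‖) ≤ x * F y := by
      refine mul_le_mul_of_nonneg_left ?_ hx
      linarith
    linarith
  obtain ⟨k', hk', h3⟩ := P_lower (A0 := A0) (h.eg_exp x) (Real.exp_pos _)
    (by positivity : 0 ≤ x * B) h2 a b c
  exact ⟨k', _, hk', fun s hs w => h3 s hs w⟩

lemma den_zd (h : C11 F D B L) {F2 : ι → (ι → ℝ) → ℝ} (hF : H325.C2 F D F2) (hx : 0 ≤ x)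
    (A0 : Finset ι) (a b c : ι → ℝ) :
    Den (A0.map Function.Embedding.inl) (zd A0 a b c x F) (dzd A0 a b c x F D) :=
  ⟨kf_zd h hF A0 a b c x, zd_lower h hx A0 a b c⟩

/-- **Conditional means are martingales in the share.** -/
theorem kx_cm (h : C11 F D B L) {F2 φ1 φ2 : ι → (ι → ℝ) → ℝ} (hF : H325.C2 F D F2)
    (hφ : H325.C2 φ φ1 φ2) (hx : 0 ≤ x) (A0 : Finset ι) (a b c : ι → ℝ) :
    KX (A0.map Function.Embedding.inl) (zd A0 a b c x F) (dzd A0 a b c x F D)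
      (cm A0 a b c x F φ)
      (fun j s w => Sum.elim (fun e => dcm A0 a b c x F D φ φ1 e s w) (fun _ => 0) j)
      (fun _ _ => 0) := by
  have hE := h.eg_exp x
  have kN := (sf_c2 ((c2_expF h hF x).mul hφ) A0).kf a b c
  refine (KX.ratio (den_zd h hF hx A0 a b c) kN).congr (fun s w => rfl) (fun j hj s w => ?_)
    fun _ _ => rfl
  obtain ⟨e, -, rfl⟩ := Finset.mem_map.1 hj
  have h0 := (zd_pos (A0 := A0) (a := a) (b := b) (c := c) h x s w).ne'
  have e1 : P A0 a b c (fun y => x * (Real.exp (x * F y) * D e y) * φ y +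
      Real.exp (x * F y) * φ1 e y) s w =
      x * (zd A0 a b c x F s w * cm A0 a b c x F (fun y => φ y * D e y) s w) +
        zd A0 a b c x F s w * cm A0 a b c x F (φ1 e) s w := by
    rw [zd_cm h, zd_cm h, ← P_const_mul, ← P_add (((hE.mul (hφ.eg.mul (h.eg_D e)))).const_mul x)
      (hE.mul (hφ.eg1 e))]
    congr 1
    funext y
    ring
  have e2 : P A0 a b c (fun y => Real.exp (x * F y) * φ y) s w =
      zd A0 a b c x F s w * cm A0 a b c x F φ s w := (zd_cm h φ s w).symm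
  show dcm A0 a b c x F D φ φ1 e s w = (P A0 a b c (fun y => x * (Real.exp (x * F y) * D e y) *
      φ y + Real.exp (x * F y) * φ1 e y) s w - P A0 a b c (fun y => Real.exp (x * F y) * φ y) s w *
      (zd A0 a b c x F s w)⁻¹ * (x * (zd A0 a b c x F s w * cm A0 a b c x F (D e) s w))) *
      (zd A0 a b c x F s w)⁻¹
  rw [e1, e2]
  unfold dcm
  field_simp
  ring

lemma sum_inl {α : Type*} [AddCommMonoid α] (A0 : Finset ι) (g : ι ⊕ ι → α) :
    ∑ j ∈ A0.map Function.Embedding.inl, g j = ∑ e ∈ A0, g (Sum.inl e) := by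
  rw [Finset.sum_map]
  rfl

/-- the sum of the squares of conditional means, with a weight -/
theorem kx_sq (h : C11 F D B L) {F2 : ι → (ι → ℝ) → ℝ} (hF : H325.C2 F D F2)
    {K : Type*} (S : Finset K) {f : K → (ι → ℝ) → ℝ} {f1 f2 : K → ι → (ι → ℝ) → ℝ}
    (hf : ∀ k ∈ S, H325.C2 (f k) (f1 k) (f2 k)) (hx : 0 ≤ x) (A0 : Finset ι) (a b c : ι → ℝ)
    {Y : (ι ⊕ ι → ℝ) → ℝ} (hY : EG Y)
    (hYi : ∀ e ∈ A0, ∀ w t, Y (Function.update w (Sum.inl e) t) = Y w) :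
    ∃ D', KX (A0.map Function.Embedding.inl) (zd A0 a b c x F) (dzd A0 a b c x F D)
      (fun s w => Y w * ∑ k ∈ S, cm A0 a b c x F (f k) s w ^ 2) D'
      (fun s w => Y w * ∑ k ∈ S, ∑ e ∈ A0, dcm A0 a b c x F D (f k) (f1 k) e s w ^ 2) := by
  have k1 := KX.sum S fun k (hk : k ∈ S) => (kx_cm h hF (hf k hk) hx A0 a b c).sq
  have kY : KX (A0.map Function.Embedding.inl) (zd A0 a b c x F) (dzd A0 a b c x F D)
      (fun _ w => Y w) (fun _ _ _ => 0) (fun _ _ => 0) := by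
    refine KX.weight hY fun j hj y r => ?_
    obtain ⟨e, he, rfl⟩ := Finset.mem_map.1 hj
    exact hYi e he y r
  refine ⟨_, (kY.mul k1).congr (fun _ _ => rfl) (fun _ _ _ _ => rfl) fun s w => ?_⟩
  simp only [mul_zero, zero_mul, zero_add, add_zero, Finset.sum_const_zero]
  congr 1
  refine Finset.sum_congr rfl fun k _ => ?_
  rw [sum_inl]
  rfl

/-- **The variance identity**: in the share, the second moment of the conditional means increases
by the integral of the squared gradients. -/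
theorem ftc_sq (h : C11 F D B L) {F2 : ι → (ι → ℝ) → ℝ} (hF : H325.C2 F D F2)
    {K : Type*} (S : Finset K) {f : K → (ι → ℝ) → ℝ} {f1 f2 : K → ι → (ι → ℝ) → ℝ}
    (hf : ∀ k ∈ S, H325.C2 (f k) (f1 k) (f2 k)) (hx : 0 ≤ x) (A0 : Finset ι) (a b c : ι → ℝ)
    {Y : (ι ⊕ ι → ℝ) → ℝ} (hY : EG Y)
    (hYi : ∀ e ∈ A0, ∀ w t, Y (Function.update w (Sum.inl e) t) = Y w)
    {s0 s1 : ℝ} (h0 : 0 ≤ s0) (h01 : s0 ≤ s1) (h1 : s1 ≤ 1) :
    ∫ s in s0..s1, (∫ w, zd A0 a b c x F s w *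
        (Y w * ∑ k ∈ S, ∑ e ∈ A0, dcm A0 a b c x F D (f k) (f1 k) e s w ^ 2) ∂(gI (ι ⊕ ι))) =
      (∫ w, zd A0 a b c x F s1 w * (Y w * ∑ k ∈ S, cm A0 a b c x F (f k) s1 w ^ 2)
        ∂(gI (ι ⊕ ι))) -
      ∫ w, zd A0 a b c x F s0 w * (Y w * ∑ k ∈ S, cm A0 a b c x F (f k) s0 w ^ 2)
        ∂(gI (ι ⊕ ι)) := by
  obtain ⟨D', hk⟩ := kx_sq h hF S hf hx A0 a b c hY hYi
  exact KX.ftc (den_zd h hF hx A0 a b c) hk h0 h01 h1

/-- the integrand of `ftc_sq` is continuous -/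
theorem cont_dsq (h : C11 F D B L) {F2 : ι → (ι → ℝ) → ℝ} (hF : H325.C2 F D F2)
    {K : Type*} (S : Finset K) {f : K → (ι → ℝ) → ℝ} {f1 f2 : K → ι → (ι → ℝ) → ℝ}
    (hf : ∀ k ∈ S, H325.C2 (f k) (f1 k) (f2 k)) (hx : 0 ≤ x) (A0 : Finset ι) (a b c : ι → ℝ)
    {Y : (ι ⊕ ι → ℝ) → ℝ} (hY : EG Y)
    (hYi : ∀ e ∈ A0, ∀ w t, Y (Function.update w (Sum.inl e) t) = Y w) :
    ContinuousOn (fun s => ∫ w, zd A0 a b c x F s w *
        (Y w * ∑ k ∈ S, ∑ e ∈ A0, dcm A0 a b c x F D (f k) (f1 k) e s w ^ 2) ∂(gI (ι ⊕ ι)))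
      (Set.Icc 0 1) := by
  obtain ⟨D', hk⟩ := kx_sq h hF S hf hx A0 a b c hY hYi
  have hd := den_zd h hF hx A0 a b c
  exact (hd.kf.gf.mul (KX.gL hd hk)).continuousOn

end Vale.Agent.P146.H118
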