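import Vale.Agent.P146.H420B.GgrB
import Vale.Agent.P146.H463.NeIn
import Vale.Agent.P146.H281.U2
import Vale.Agent.P146.H487.N4cx

/-!
The linear identity of the thermal amplitude with part of the modulated field revealed, tested with
ANY vector of revealed coordinates (no derivative of the test appears).

Letters of `H420B`: modulated coordinates `md i l`, energy `cG l * (a * σ i)`, `v = ∑ (cG l)^2`.
`FR` is a set of levels, `ρ` its share of `v`, `d l = cG l (1_{FR} - ρ)`, so `∑ d l * cG l = 0`, and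
`ξ i = ∑ l, d l * u (md i l)`: this field does not enter the energy.

* `ggv_exact`, `ggv_ex`: with `φ` independent of the levels outside `FR`,
  `ex (φ ViG) = lam/((1-x) v n) ex (φ ⟨T sg⟩) - 1/((1-ρ)(1-x) v n) ex (φ ∑ ξ i ⟨T I σ i⟩)`;
* `xi_sq`: `ex ⟨(∑ ξ i σ i)²⟩ = ρ (1-ρ) v n`;
* `ggv_l2`: the vector bound for `cx K (Va j)`.
-/

open MeasureTheory ProbabilityTheory Filter

namespace Vale.Agent.P146.H118

open Vale.Agent.P157.Lv hiding Dep
open Vale.Agent.P146.H196 Vale.Agent.P146.H646 Vale.Agent.P146.H347 Vale.Agent.P146.H325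
open Vale.Agent.P146.H420B

set_option linter.unusedSectionVars false

section real

/-- optimisation of a parameter -/
lemma opt_t {h p r : ℝ} (hp : 0 ≤ p) (hr : 0 ≤ r) (H : ∀ t > 0, 2 * h ≤ t * p + r / t) :
    h ≤ √p * √r := by
  rcases eq_or_lt_of_le hp with hp0 | hp0
  · -- `p = 0`
    rw [← hp0, Real.sqrt_zero, zero_mul]
    by_contra hh
    push Not at hh
    have h1 := H (r / h + 1) (by positivity)
    rw [← hp0, mul_zero, zero_add, le_div_iff₀ (by positivity)] at h1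
    have h2 : 2 * h * (r / h + 1) = 2 * r + 2 * h := by
      field_simp
    linarith
  rcases eq_or_lt_of_le hr with hr0 | hr0
  · rw [← hr0, Real.sqrt_zero, mul_zero]
    by_contra hh
    push Not at hh
    have h1 := H (h / p) (by positivity)
    rw [← hr0, zero_div, add_zero, div_mul_cancel₀ _ hp0.ne'] at h1
    linarith
  · have h1 : 0 < √p := Real.sqrt_pos.2 hp0
    have h2 : 0 < √r := Real.sqrt_pos.2 hr0
    have h3 := H (√r / √p) (by positivity)
    have e1 : √r / √p * p = √p * √r := by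
      rw [div_mul_eq_mul_div, div_eq_iff h1.ne']
      linear_combination (-√r) * Real.mul_self_sqrt hp
    have e2 : r / (√r / √p) = √p * √r := by
      rw [div_div_eq_mul_div, div_eq_iff h2.ne']
      linear_combination (-√p) * Real.mul_self_sqrt hr
    rw [e1, e2] at h3
    linarith

lemma sqrt_add_le' {p q : ℝ} (hp : 0 ≤ p) (hq : 0 ≤ q) : √(p + q) ≤ √p + √q := by
  have h1 : 0 ≤ √p := Real.sqrt_nonneg p
  have h2 : 0 ≤ √q := Real.sqrt_nonneg q
  rw [Real.sqrt_le_left (by positivity)]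
  nlinarith [Real.sq_sqrt hp, Real.sq_sqrt hq, mul_nonneg h1 h2]

/-- a quadratic inequality -/
lemma sq_of_lin {X p q : ℝ} (h : X ≤ p * √X + q) (hX : 0 ≤ X) : X ≤ p ^ 2 + 2 * q := by
  have h1 : √X ^ 2 = X := Real.sq_sqrt hX
  nlinarith [sq_nonneg (√X - p)]

end real

section dir

variable {L : Type} [Fintype L] [DecidableEq L]

/-- the share of the levels `FR` -/
noncomputable def rhoG (cG : L → ℝ) (FR : Finset L) : ℝ := (∑ l ∈ FR, cG l ^ 2) / vG cG

/-- the direction which does not enter the energy -/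
noncomputable def dG (cG : L → ℝ) (FR : Finset L) (l : L) : ℝ :=
  cG l * ((if l ∈ FR then 1 else 0) - rhoG cG FR)

lemma rhoG_nonneg (cG : L → ℝ) (FR : Finset L) : 0 ≤ rhoG cG FR :=
  div_nonneg (Finset.sum_nonneg fun _ _ => sq_nonneg _) (Finset.sum_nonneg fun _ _ => sq_nonneg _)

lemma rhoG_mul {cG : L → ℝ} (hv : 0 < vG cG) (FR : Finset L) :
    rhoG cG FR * vG cG = ∑ l ∈ FR, cG l ^ 2 := div_mul_cancel₀ _ hv.ne'

lemma sum_ite (cG : L → ℝ) (FR : Finset L) :
    ∑ l, cG l ^ 2 * (if l ∈ FR then (1 : ℝ) else 0) = ∑ l ∈ FR, cG l ^ 2 := by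
  simp only [mul_ite, mul_one, mul_zero]
  rw [Finset.sum_ite_mem, Finset.univ_inter]

lemma sum_dG {cG : L → ℝ} (hv : 0 < vG cG) (FR : Finset L) : ∑ l, dG cG FR l * cG l = 0 := by
  have e : ∀ l, dG cG FR l * cG l =
      cG l ^ 2 * (if l ∈ FR then (1 : ℝ) else 0) - rhoG cG FR * cG l ^ 2 := fun l => by
    unfold dG; ring
  simp only [e]
  rw [Finset.sum_sub_distrib, sum_ite, ← Finset.mul_sum]
  have := rhoG_mul hv FR
  unfold vG at this
  rw [this, sub_self]

lemma sum_dG_sq {cG : L → ℝ} (hv : 0 < vG cG) (FR : Finset L) :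
    ∑ l, dG cG FR l ^ 2 = rhoG cG FR * (1 - rhoG cG FR) * vG cG := by
  have e : ∀ l, dG cG FR l ^ 2 = (1 - 2 * rhoG cG FR) * (cG l ^ 2 *
      (if l ∈ FR then (1 : ℝ) else 0)) + rhoG cG FR ^ 2 * cG l ^ 2 := fun l => by
    unfold dG
    split_ifs <;> ring
  simp only [e]
  rw [Finset.sum_add_distrib, ← Finset.mul_sum, sum_ite, ← Finset.mul_sum, ← rhoG_mul hv FR]
  have : ∑ l, cG l ^ 2 = vG cG := rfl
  rw [this]
  ring

/-- splitting of the energy direction -/
lemma split_dG {cG : L → ℝ} {FR : Finset L} (hρ : rhoG cG FR < 1) (y : L → ℝ) :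
    ∑ l, cG l * y l = 1 / (1 - rhoG cG FR) * (∑ l ∈ FRᶜ, cG l * y l + ∑ l, dG cG FR l * y l) := by
  have h1 : (1 - rhoG cG FR) ≠ 0 := by linarith [hρ] |> fun h : 0 < 1 - rhoG cG FR => h.ne'
  have e1 : ∑ l ∈ FRᶜ, cG l * y l = ∑ l, (if l ∈ FR then 0 else cG l * y l) := by
    rw [← Finset.sum_add_sum_compl FR fun l => (if l ∈ FR then 0 else cG l * y l)]
    have h2 : ∑ l ∈ FR, (if l ∈ FR then 0 else cG l * y l) = 0 :=
      Finset.sum_eq_zero fun l hl => if_pos hl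
    rw [h2, zero_add]
    exact Finset.sum_congr rfl fun l hl => (if_neg (Finset.mem_compl.1 hl)).symm
  rw [e1, ← Finset.sum_add_distrib, Finset.mul_sum]
  refine Finset.sum_congr rfl fun l _ => ?_
  unfold dG
  split_ifs with hl <;> field_simp <;> ring

lemma sum_compl {cG : L → ℝ} (hv : 0 < vG cG) (FR : Finset L) :
    ∑ l ∈ FRᶜ, cG l ^ 2 = (1 - rhoG cG FR) * vG cG := by
  have h1 := Finset.sum_add_sum_compl FR fun l => cG l ^ 2
  have h2 := rhoG_mul hv FR
  have h3 : ∑ l, cG l ^ 2 = vG cG := rfl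
  rw [h3] at h1
  linarith

end dir

variable {ι s L J : Type} [Fintype ι] [DecidableEq ι] [Fintype s] [DecidableEq s] [Fintype L]
  [DecidableEq L] [Fintype J] [DecidableEq J]
  {Ω : Type} [MeasurableSpace Ω] {μ : Measure Ω} {S : ι → Ω → ℝ} {M0 x : ℝ}
  {md : s → L → ι} {cG : L → ℝ} {σ : s → Ω → ℝ} {a I sg : Ω → ℝ} {lam c r0 η : ℝ}
  {τ : J → Ω → ℝ} {FR : Finset L}

/-- the field which does not enter the energy -/
noncomputable def xiG (md : s → L → ι) (cG : L → ℝ) (FR : Finset L) (i : s) (u : ι → ℝ) : ℝ :=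
  ∑ l, dG cG FR l * u (md i l)

lemma eg_xiG (md : s → L → ι) (cG : L → ℝ) (FR : Finset L) (i : s) : EG (xiG md cG FR i) :=
  EG.sum Finset.univ fun l _ => (EG.coord (md i l)).const_mul _

/-- **the exact identity**, the test does not depend on the levels outside `FR` -/
theorem ggv_exact (hG : GM μ S M0) (hM : MS S md cG σ a I sg) (x : ℝ) {T : Ω → ℝ} (bT : Bm T)
    (hT : AIbp μ S md cG σ a I sg lam c T) (hv : 0 < vG cG) (hρ : rhoG cG FR < 1)
    {φ : (ι → ℝ) → ℝ} (hφ : EG φ) (hd : ∀ i, ∀ l ∈ FRᶜ, PD (md i l) φ fun _ => 0) :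
    (∫ u, φ u * (Zxm μ 1 S x u * ((vG cG * Fintype.card s - c) *
          avm μ 1 S (fun w => T w * I w * a w) u -
        (1 - x) * vG cG * ∑ i, avm μ 1 S (fun w => T w * I w * σ i w) u *
          avm μ 1 S (fun w => a w * σ i w) u)) ∂(gI ι)) +
      1 / (1 - rhoG cG FR) * ∫ u, φ u * (Zxm μ 1 S x u * ∑ i, xiG md cG FR i u *
        avm μ 1 S (fun w => T w * I w * σ i w) u) ∂(gI ι) =
      lam * ∫ u, φ u * (Zxm μ 1 S x u * avm μ 1 S (fun w => T w * sg w) u) ∂(gI ι) := by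
  have bTI : Bm fun w => T w * I w := bT.mul hM.bI
  have bf : ∀ i, Bm fun w => T w * I w * σ i w := fun i => bTI.mul (hM.bs i)
  have bal : Bm fun w => T w * I w * a w := bTI.mul hM.ba
  have bas : ∀ i, Bm fun w => a w * σ i w := fun i => hM.ba.mul (hM.bs i)
  have eZ := hG.eg_Zx 1 x
  set P : s → (ι → ℝ) → ℝ := fun i => avm μ 1 S (fun w => T w * I w * σ i w) with hP
  set A : (ι → ℝ) → ℝ := avm μ 1 S (fun w => T w * I w * a w) with hA
  set B : s → (ι → ℝ) → ℝ := fun i => avm μ 1 S (fun w => a w * σ i w) with hB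
  have eP : ∀ i, EG (P i) := fun i => hG.eg_av 1 (bf i)
  have eA : EG A := hG.eg_av 1 bal
  have eB : ∀ i, EG (B i) := fun i => hG.eg_av 1 (bas i)
  set R := 1 / (1 - rhoG cG FR) with hR
  rw [← integral_const_mul lam]
  have e1 : ∫ u, lam * (φ u * (Zxm μ 1 S x u * avm μ 1 S (fun w => T w * sg w) u)) ∂(gI ι) =
      ∫ u, ((R * (∑ i, ∑ l ∈ FRᶜ, cG l * (u (md i l) * (φ u * (Zxm μ 1 S x u * P i u))))) +
        R * (φ u * (Zxm μ 1 S x u * ∑ i, xiG md cG FR i u * P i u)) -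
        c * (φ u * (Zxm μ 1 S x u * A u))) ∂(gI ι) := by
    refine integral_congr_ae (Eventually.of_forall fun u => ?_)
    simp only
    have h1 := hT u
    have h2 : lam * (φ u * (Zxm μ 1 S x u * avm μ 1 S (fun w => T w * sg w) u)) =
        φ u * (Zxm μ 1 S x u * (lam * avm μ 1 S (fun w => T w * sg w) u)) := by ring
    have h3 : ∀ i, ∑ l, u (md i l) * (cG l * P i u) = R * (∑ l ∈ FRᶜ, cG l * u (md i l) +
        xiG md cG FR i u) * P i u := by
      intro i
      have h4 := split_dG (cG := cG) hρ fun l => u (md i l)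
      unfold xiG
      rw [hR, ← h4, Finset.sum_mul]
      exact Finset.sum_congr rfl fun l _ => by ring
    rw [h2, ← h1]
    have h5 : ∑ i, ∑ l, u (md i l) * (cG l * avm μ 1 S (fun w => T w * I w * σ i w) u) =
        ∑ i, R * (∑ l ∈ FRᶜ, cG l * u (md i l) + xiG md cG FR i u) * P i u :=
      Finset.sum_congr rfl fun i _ => h3 i
    rw [h5]
    have h6 : ∑ i, R * (∑ l ∈ FRᶜ, cG l * u (md i l) + xiG md cG FR i u) * P i u =
        R * (∑ i, (∑ l ∈ FRᶜ, cG l * u (md i l)) * P i u) +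
        R * ∑ i, xiG md cG FR i u * P i u := by
      rw [Finset.mul_sum, Finset.mul_sum, ← Finset.sum_add_distrib]
      exact Finset.sum_congr rfl fun i _ => by ring
    rw [h6]
    have h7 : ∑ i, ∑ l ∈ FRᶜ, cG l * (u (md i l) * (φ u * (Zxm μ 1 S x u * P i u))) =
        φ u * (Zxm μ 1 S x u * ∑ i, (∑ l ∈ FRᶜ, cG l * u (md i l)) * P i u) := by
      rw [Finset.mul_sum, Finset.mul_sum]
      refine Finset.sum_congr rfl fun i _ => ?_
      rw [Finset.sum_mul, Finset.mul_sum, Finset.mul_sum]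
      exact Finset.sum_congr rfl fun l _ => by ring
    rw [h7]
    ring
  have i1 : ∀ i l, EG (fun u : ι → ℝ => cG l * (u (md i l) * (φ u *
      (Zxm μ 1 S x u * P i u)))) := fun i l =>
    EG.const_mul _ ((EG.coord (md i l)).mul (hφ.mul (eZ.mul (eP i))))
  have i2 : EG (fun u : ι → ℝ => c * (φ u * (Zxm μ 1 S x u * A u))) :=
    (hφ.mul (eZ.mul eA)).const_mul c
  have i3 : EG (fun u : ι → ℝ => φ u * (Zxm μ 1 S x u * ∑ i, xiG md cG FR i u * P i u)) :=
    hφ.mul (eZ.mul (EG.sum Finset.univ fun i _ => (eg_xiG md cG FR i).mul (eP i)))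
  have i4 : EG (fun u : ι → ℝ => R * (∑ i, ∑ l ∈ FRᶜ, cG l * (u (md i l) * (φ u *
      (Zxm μ 1 S x u * P i u))))) :=
    (EG.sum Finset.univ fun i _ => EG.sum _ fun l _ => i1 i l).const_mul R
  rw [e1, integral_sub (i4.add (i3.const_mul R)).integrable i2.integrable,
    integral_add i4.integrable (i3.const_mul R).integrable, integral_const_mul R,
    integral_const_mul R, integral_const_mul c,
    integral_finsetSum _ fun i _ => (EG.sum _ fun l _ => i1 i l).integrable]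
  have e2 : ∀ i, ∫ u, ∑ l ∈ FRᶜ, cG l * (u (md i l) * (φ u * (Zxm μ 1 S x u * P i u))) ∂(gI ι) =
      (1 - rhoG cG FR) * vG cG * ((∫ u, φ u * (Zxm μ 1 S x u * A u) ∂(gI ι)) -
        (1 - x) * ∫ u, φ u * (Zxm μ 1 S x u * (P i u * B i u)) ∂(gI ι)) := by
    intro i
    rw [integral_finsetSum _ fun l _ => (i1 i l).integrable, ← sum_compl hv FR, Finset.sum_mul]
    refine Finset.sum_congr rfl fun l hl => ?_
    have h1 := stein_md hG hM x bT hφ (hd i l hl) (EG.const 0)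
    have h2 : ∫ u, (0 : ℝ) * (Zxm μ 1 S x u * avm μ 1 S (fun w => T w * I w * σ i w) u)
        ∂(gI ι) = 0 := by
      simp only [zero_mul, integral_zero]
    rw [h2, add_zero] at h1
    rw [integral_const_mul]
    simp only [hP] at h1 ⊢
    rw [h1]
    have h3 : (fun u : ι → ℝ => φ u * (Zxm μ 1 S x u * (cG l * avm μ 1 S
        (fun w => T w * I w * a w) u - (1 - x) * (cG l * (avm μ 1 S
        (fun w => T w * I w * σ i w) u * avm μ 1 S (fun w => a w * σ i w) u))))) = fun u =>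
        cG l * (φ u * (Zxm μ 1 S x u * A u)) - (1 - x) * cG l * (φ u * (Zxm μ 1 S x u *
          (P i u * B i u))) := by
      funext u
      simp only [hA, hP, hB]
      ring
    rw [h3, integral_sub ((hφ.mul (eZ.mul eA)).const_mul (cG l)).integrable
      ((hφ.mul (eZ.mul ((eP i).mul (eB i)))).const_mul ((1 - x) * cG l)).integrable,
      integral_const_mul, integral_const_mul]
    ring
  rw [Finset.sum_congr rfl fun i _ => e2 i, ← Finset.mul_sum, Finset.sum_sub_distrib,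
    Finset.sum_const, Finset.card_univ, nsmul_eq_mul, ← Finset.mul_sum]
  have h8 : R * ((1 - rhoG cG FR) * vG cG * (Fintype.card s *
      (∫ u, φ u * (Zxm μ 1 S x u * A u) ∂(gI ι)) -
      (1 - x) * ∑ i, ∫ u, φ u * (Zxm μ 1 S x u * (P i u * B i u)) ∂(gI ι))) =
      vG cG * (Fintype.card s * (∫ u, φ u * (Zxm μ 1 S x u * A u) ∂(gI ι)) -
      (1 - x) * ∑ i, ∫ u, φ u * (Zxm μ 1 S x u * (P i u * B i u)) ∂(gI ι)) := by
    have h9 : 1 - rhoG cG FR ≠ 0 := by
      have : 0 < 1 - rhoG cG FR := by linarith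
      exact this.ne'
    rw [hR]
    field_simp
  rw [h8]
  have e3 : ∫ u, φ u * (Zxm μ 1 S x u * ((vG cG * Fintype.card s - c) * A u -
      (1 - x) * vG cG * ∑ i, P i u * B i u)) ∂(gI ι) =
      (vG cG * Fintype.card s - c) * (∫ u, φ u * (Zxm μ 1 S x u * A u) ∂(gI ι)) -
      (1 - x) * vG cG * ∑ i, ∫ u, φ u * (Zxm μ 1 S x u * (P i u * B i u)) ∂(gI ι) := by
    rw [← integral_const_mul, ← integral_finsetSum _ fun i _ =>
      (hφ.mul (eZ.mul ((eP i).mul (eB i)))).integrable, ← integral_const_mul,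
      ← integral_sub ((hφ.mul (eZ.mul eA)).const_mul _).integrable
        ((EG.sum Finset.univ fun i _ => hφ.mul (eZ.mul ((eP i).mul (eB i)))).const_mul
          _).integrable]
    refine integral_congr_ae (Eventually.of_forall fun u => ?_)
    simp only
    rw [show ∑ i, φ u * (Zxm μ 1 S x u * (P i u * B i u)) =
      φ u * (Zxm μ 1 S x u * ∑ i, P i u * B i u) by
        rw [Finset.mul_sum, Finset.mul_sum]]
    ring
  rw [e3]
  ring

/-- the exact identity in `ex` -/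
theorem ggv_ex [Nonempty s] (hG : GM μ S M0) (hM : MS S md cG σ a I sg) (hv : 0 < vG cG)
    (hx : x < 1) (hρ : rhoG cG FR < 1) {T : Ω → ℝ} (bT : Bm T)
    (hT : AIbp μ S md cG σ a I sg lam c T)
    (hc : c = vG cG * Fintype.card s * (1 - (1 - x) * r0))
    {φ : (ι → ℝ) → ℝ} (hφ : BM φ) (hd : ∀ i, ∀ l ∈ FRᶜ, PD (md i l) φ fun _ => 0) :
    ex (g1 ι) (Zxm μ 1 S x) (fun z => φ z * ViG r0 μ S σ a I T z)
      = lam / ((1 - x) * (vG cG * Fintype.card s)) * ex (g1 ι) (Zxm μ 1 S x)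
          (fun z => φ z * avm μ 1 S (fun w => T w * sg w) z)
        - 1 / ((1 - rhoG cG FR) * ((1 - x) * (vG cG * Fintype.card s))) *
          ex (g1 ι) (Zxm μ 1 S x) (fun z => φ z * ∑ i, xiG md cG FR i z *
            avm μ 1 S (fun w => T w * I w * σ i w) z) := by
  have key := ggv_exact hG hM x bT hT hv hρ hφ.eg hd
  have hn : (0 : ℝ) < Fintype.card s := by exact_mod_cast Fintype.card_pos
  set D := (1 - x) * (vG cG * Fintype.card s) with hDdef
  have hD : 0 < D := by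
    have : 0 < 1 - x := by linarith
    positivity
  have hr : 0 < 1 - rhoG cG FR := by linarith
  have hw := H347.wt hG 1 x
  have hW : (0 : ℝ) < ∫ z, Zxm μ 1 S x z ∂(Measure.pi (g1 ι)) := hw.tot_pos
  set W := ∫ z, Zxm μ 1 S x z ∂(Measure.pi (g1 ι)) with hWdef
  have e1 : ∀ f : (ι → ℝ) → ℝ, ex (g1 ι) (Zxm μ 1 S x) f =
      (∫ z, Zxm μ 1 S x z * f z ∂(Measure.pi (g1 ι))) / W := fun f => rfl
  have e2 : ∫ u, φ u * (Zxm μ 1 S x u * ((vG cG * Fintype.card s - c) *
          avm μ 1 S (fun w => T w * I w * a w) u -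
        (1 - x) * vG cG * ∑ i, avm μ 1 S (fun w => T w * I w * σ i w) u *
          avm μ 1 S (fun w => a w * σ i w) u)) ∂(gI ι) =
      D * ∫ z, Zxm μ 1 S x z * (φ z * ViG r0 μ S σ a I T z) ∂(Measure.pi (g1 ι)) := by
    rw [← integral_const_mul]
    refine integral_congr_ae (Eventually.of_forall fun z => ?_)
    simp only
    unfold ViG
    rw [hc, hDdef]
    field_simp
    ring
  have e3 : ∫ u, φ u * (Zxm μ 1 S x u * avm μ 1 S (fun w => T w * sg w) u) ∂(gI ι) =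
      ∫ z, Zxm μ 1 S x z * (φ z * avm μ 1 S (fun w => T w * sg w) z) ∂(Measure.pi (g1 ι)) :=
    integral_congr_ae (Eventually.of_forall fun z => by simp only; ring)
  have e4 : ∫ u, φ u * (Zxm μ 1 S x u * ∑ i, xiG md cG FR i u *
        avm μ 1 S (fun w => T w * I w * σ i w) u) ∂(gI ι) =
      ∫ z, Zxm μ 1 S x z * (φ z * ∑ i, xiG md cG FR i z *
        avm μ 1 S (fun w => T w * I w * σ i w) z) ∂(Measure.pi (g1 ι)) :=
    integral_congr_ae (Eventually.of_forall fun z => by simp only; ring)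
  rw [e2, e3, e4] at key
  simp only [e1]
  have fin : ∀ P1 P2 P3 : ℝ, D * P1 + 1 / (1 - rhoG cG FR) * P3 = lam * P2 →
      P1 / W = lam / D * (P2 / W) - 1 / ((1 - rhoG cG FR) * D) * (P3 / W) := by
    intro P1 P2 P3 h
    have h1 : P1 = (lam * P2 - 1 / (1 - rhoG cG FR) * P3) / D := by
      rw [eq_div_iff hD.ne']
      linarith
    rw [h1]
    field_simp
  exact fin _ _ _ key

/-! ### the second moment of the neutral field -/

/-- monotonicity of `ex` for functions of exponential growth -/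
lemma ex_mono_eg (hG : GM μ S M0) (x : ℝ) {f g : (ι → ℝ) → ℝ} (hf : EG f) (hg : EG g)
    (h : ∀ z, f z ≤ g z) : ex (g1 ι) (Zxm μ 1 S x) f ≤ ex (g1 ι) (Zxm μ 1 S x) g := by
  have hw := H347.wt hG 1 x
  have hW : (0 : ℝ) < ∫ z, Zxm μ 1 S x z ∂(Measure.pi (g1 ι)) := hw.tot_pos
  have eZ := hG.eg_Zx 1 x
  refine div_le_div_of_nonneg_right ?_ hW.le
  exact integral_mono (eZ.mul hf).integrable (eZ.mul hg).integrable fun z =>
    mul_le_mul_of_nonneg_left (h z) (hw.pos z).le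

lemma ex_add_eg (hG : GM μ S M0) (x : ℝ) {f g : (ι → ℝ) → ℝ} (hf : EG f) (hg : EG g) :
    ex (g1 ι) (Zxm μ 1 S x) (fun z => f z + g z) =
      ex (g1 ι) (Zxm μ 1 S x) f + ex (g1 ι) (Zxm μ 1 S x) g := by
  have eZ := hG.eg_Zx 1 x
  have e1 : ∀ f : (ι → ℝ) → ℝ, ex (g1 ι) (Zxm μ 1 S x) f =
      (∫ z, Zxm μ 1 S x z * f z ∂(Measure.pi (g1 ι))) /
        ∫ z, Zxm μ 1 S x z ∂(Measure.pi (g1 ι)) := fun f => rfl
  rw [e1, e1, e1, ← add_div]
  congr 1
  rw [← integral_add (eZ.mul hf).integrable (eZ.mul hg).integrable]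
  exact integral_congr_ae (Eventually.of_forall fun z => by simp only; ring)

/-- the mean of `ξ i ξ k ⟨σ i σ k⟩` -/
theorem xi_pair (hG : GM μ S M0) (hM : MS S md cG σ a I sg) (hv : 0 < vG cG)
    (hinj : ∀ i l i' l', md i l = md i' l' → i = i' ∧ l = l') (x : ℝ) (i k : s) :
    ∫ u, xiG md cG FR i u * (xiG md cG FR k u * (Zxm μ 1 S x u *
        avm μ 1 S (fun w => σ i w * σ k w) u)) ∂(gI ι) =
      (if i = k then ∑ l, dG cG FR l ^ 2 else 0) *
        ∫ u, Zxm μ 1 S x u * avm μ 1 S (fun w => σ i w * σ k w) u ∂(gI ι) := by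
  have bf : Bm fun w => σ i w * σ k w := (hM.bs i).mul (hM.bs k)
  have eZ := hG.eg_Zx 1 x
  have eF : EG fun u : ι → ℝ => Zxm μ 1 S x u * avm μ 1 S (fun w => σ i w * σ k w) u :=
    eZ.mul (hG.eg_av 1 bf)
  set X : (ι → ℝ) → ℝ := fun u => Zxm μ 1 S x u * (avm μ 1 S
    (fun w => σ i w * σ k w * (a w * σ i w)) u - (1 - x) * (avm μ 1 S
      (fun w => σ i w * σ k w) u * avm μ 1 S (fun w => a w * σ i w) u)) with hX
  have eX : EG X := eZ.mul ((hG.eg_av 1 (bf.mul (hM.ba.mul (hM.bs i)))).sub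
    (((hG.eg_av 1 bf).mul (hG.eg_av 1 (hM.ba.mul (hM.bs i)))).const_mul (1 - x)))
  have h1 : ∀ l, ∫ u, u (md i l) * (xiG md cG FR k u * (Zxm μ 1 S x u *
      avm μ 1 S (fun w => σ i w * σ k w) u)) ∂(gI ι) =
      (if i = k then dG cG FR l else 0) * (∫ u, Zxm μ 1 S x u *
        avm μ 1 S (fun w => σ i w * σ k w) u ∂(gI ι)) +
      cG l * ∫ u, xiG md cG FR k u * X u ∂(gI ι) := by
    intro l
    have hd : PD (md i l) (xiG md cG FR k) (fun _ => if i = k then dG cG FR l else 0) := by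
      have h2 := PD.sum (e := md i l) Finset.univ (H := fun l' (u : ι → ℝ) =>
        dG cG FR l' * u (md k l')) (H' := fun l' _ => dG cG FR l' *
          (if md k l' = md i l then 1 else 0)) fun l' _ =>
        (PD.coord (e := md i l) (md k l')).const_mul (dG cG FR l')
      refine PD.congr h2 fun u => ?_
      by_cases hik : i = k
      · subst hik
        rw [if_pos rfl, Finset.sum_eq_single l]
        · rw [if_pos rfl, mul_one]
        · intro l' _ hl'
          rw [if_neg fun h => hl' (hinj _ _ _ _ h).2, mul_zero]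
        · intro h
          exact absurd (Finset.mem_univ l) h
      · rw [if_neg hik]
        refine Finset.sum_eq_zero fun l' _ => ?_
        rw [if_neg fun h => hik (hinj _ _ _ _ h).1.symm, mul_zero]
    have h3 := H281.U.stein_U hG x (md i l) (eg_xiG md cG FR k) (EG.const _) hd bf
    rw [h3, integral_const_mul]
    congr 1
    rw [← integral_const_mul]
    refine integral_congr_ae (Eventually.of_forall fun u => ?_)
    simp only [hX]
    have a1 : avm μ 1 S (fun w => σ i w * σ k w * S (md i l) w) u =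
        cG l * avm μ 1 S (fun w => σ i w * σ k w * (a w * σ i w)) u := by
      rw [← H196.av_mul]
      congr 1
      funext w
      rw [hM.en]
      ring
    have a2 : avm μ 1 S (S (md i l)) u = cG l * avm μ 1 S (fun w => a w * σ i w) u := by
      rw [← H196.av_mul]
      congr 1
      funext w
      rw [hM.en]
    rw [a1, a2]
    ring
  have eK : EG fun u : ι → ℝ => xiG md cG FR k u * (Zxm μ 1 S x u *
      avm μ 1 S (fun w => σ i w * σ k w) u) := (eg_xiG md cG FR k).mul eF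
  have e1 : (fun u : ι → ℝ => xiG md cG FR i u * (xiG md cG FR k u * (Zxm μ 1 S x u *
      avm μ 1 S (fun w => σ i w * σ k w) u))) = fun u => ∑ l, dG cG FR l * (u (md i l) *
        (xiG md cG FR k u * (Zxm μ 1 S x u * avm μ 1 S (fun w => σ i w * σ k w) u))) := by
    funext u
    conv_lhs => rw [xiG]
    rw [Finset.sum_mul]
    exact Finset.sum_congr rfl fun l _ => by ring
  rw [e1, integral_finsetSum _ fun l _ =>
    (((EG.coord (md i l)).mul eK).const_mul (dG cG FR l)).integrable]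
  have e2 : ∀ l, ∫ u, dG cG FR l * (u (md i l) * (xiG md cG FR k u * (Zxm μ 1 S x u *
      avm μ 1 S (fun w => σ i w * σ k w) u))) ∂(gI ι) =
      (if i = k then dG cG FR l ^ 2 else 0) * (∫ u, Zxm μ 1 S x u *
        avm μ 1 S (fun w => σ i w * σ k w) u ∂(gI ι)) +
      (dG cG FR l * cG l) * ∫ u, xiG md cG FR k u * X u ∂(gI ι) := by
    intro l
    rw [integral_const_mul, h1 l]
    split_ifs <;> ring
  rw [Finset.sum_congr rfl fun l _ => e2 l, Finset.sum_add_distrib, ← Finset.sum_mul,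
    ← Finset.sum_mul, sum_dG hv, zero_mul, add_zero]
  congr 1
  split_ifs with h
  · rfl
  · exact Finset.sum_const_zero

/-- the thermal second moment of the neutral field -/
noncomputable def RG (μ : Measure Ω) (S : ι → Ω → ℝ) (md : s → L → ι) (cG : L → ℝ)
    (FR : Finset L) (σ : s → Ω → ℝ) (u : ι → ℝ) : ℝ :=
  ∑ i, ∑ k, xiG md cG FR i u * xiG md cG FR k u * avm μ 1 S (fun w => σ i w * σ k w) u

/-- **the mean of the second moment of the neutral field** -/
theorem xi_sq (hG : GM μ S M0) (hM : MS S md cG σ a I sg) (hv : 0 < vG cG)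
    (hinj : ∀ i l i' l', md i l = md i' l' → i = i' ∧ l = l') (x : ℝ) :
    ex (g1 ι) (Zxm μ 1 S x) (RG μ S md cG FR σ) =
      rhoG cG FR * (1 - rhoG cG FR) * vG cG * Fintype.card s := by
  have hw := H347.wt hG 1 x
  have hW : (0 : ℝ) < ∫ z, Zxm μ 1 S x z ∂(Measure.pi (g1 ι)) := hw.tot_pos
  have eZ := hG.eg_Zx 1 x
  have eR : ∀ i k, EG fun u : ι → ℝ => xiG md cG FR i u * (xiG md cG FR k u *
      (Zxm μ 1 S x u * avm μ 1 S (fun w => σ i w * σ k w) u)) := fun i k =>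
    (eg_xiG md cG FR i).mul ((eg_xiG md cG FR k).mul
      (eZ.mul (hG.eg_av 1 ((hM.bs i).mul (hM.bs k)))))
  have e1 : ex (g1 ι) (Zxm μ 1 S x) (RG μ S md cG FR σ) =
      (∫ z, Zxm μ 1 S x z * RG μ S md cG FR σ z ∂(Measure.pi (g1 ι))) /
        ∫ z, Zxm μ 1 S x z ∂(Measure.pi (g1 ι)) := rfl
  have e2 : ∫ z, Zxm μ 1 S x z * RG μ S md cG FR σ z ∂(Measure.pi (g1 ι)) =
      ∑ i, ∑ k, ∫ u, xiG md cG FR i u * (xiG md cG FR k u * (Zxm μ 1 S x u *
        avm μ 1 S (fun w => σ i w * σ k w) u)) ∂(gI ι) := by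
    have e3 : (fun z : ι → ℝ => Zxm μ 1 S x z * RG μ S md cG FR σ z) = fun u => ∑ i, ∑ k,
        xiG md cG FR i u * (xiG md cG FR k u * (Zxm μ 1 S x u *
          avm μ 1 S (fun w => σ i w * σ k w) u)) := by
      funext u
      unfold RG
      rw [Finset.mul_sum]
      refine Finset.sum_congr rfl fun i _ => ?_
      rw [Finset.mul_sum]
      exact Finset.sum_congr rfl fun k _ => by ring
    rw [e3]
    have e4 : ∫ u, ∑ i, ∑ k, xiG md cG FR i u * (xiG md cG FR k u * (Zxm μ 1 S x u *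
          avm μ 1 S (fun w => σ i w * σ k w) u)) ∂(gI ι) = ∑ i, ∑ k, ∫ u,
          xiG md cG FR i u * (xiG md cG FR k u * (Zxm μ 1 S x u *
          avm μ 1 S (fun w => σ i w * σ k w) u)) ∂(gI ι) := by
      rw [integral_finsetSum _ fun i _ => (EG.sum Finset.univ fun k _ => eR i k).integrable]
      refine Finset.sum_congr rfl fun i _ => ?_
      rw [integral_finsetSum _ fun k _ => (eR i k).integrable]
    exact e4
  rw [e1, e2]
  have e5 : ∀ i k, ∫ u, xiG md cG FR i u * (xiG md cG FR k u * (Zxm μ 1 S x u *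
        avm μ 1 S (fun w => σ i w * σ k w) u)) ∂(gI ι) =
      if i = k then (rhoG cG FR * (1 - rhoG cG FR) * vG cG) *
        ∫ z, Zxm μ 1 S x z ∂(Measure.pi (g1 ι)) else 0 := by
    intro i k
    rw [xi_pair hG hM hv hinj x i k]
    split_ifs with h
    · subst h
      rw [sum_dG_sq hv]
      congr 1
      refine integral_congr_ae (Eventually.of_forall fun u => ?_)
      simp only
      have : (fun w => σ i w * σ i w) = fun _ => (1 : ℝ) := by
        funext w
        rw [← sq]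
        exact hM.s2 i w
      rw [this, hG.av_one, mul_one]
    · rw [zero_mul]
  simp only [e5, Finset.sum_ite_eq, Finset.mem_univ, if_true, Finset.sum_const,
    Finset.card_univ, nsmul_eq_mul]
  field_simp

/-! ### the vector bound -/

/-- the thermal second moment of a linear combination with frozen coefficients -/
noncomputable def PG (μ : Measure Ω) (S : ι → Ω → ℝ) (τ : J → Ω → ℝ) (T0 : Finset J)
    (Q : J → (ι → ℝ) → ℝ) (u : ι → ℝ) : ℝ :=
  ∑ j ∈ T0, ∑ l ∈ T0, Q j u * Q l u * avm μ 1 S (fun w => τ j w * τ l w) u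

/-- the pairing with the neutral field -/
noncomputable def HG (μ : Measure Ω) (S : ι → Ω → ℝ) (md : s → L → ι) (cG : L → ℝ)
    (FR : Finset L) (σ : s → Ω → ℝ) (I : Ω → ℝ) (τ : J → Ω → ℝ) (T0 : Finset J)
    (Q : J → (ι → ℝ) → ℝ) (u : ι → ℝ) : ℝ :=
  ∑ j ∈ T0, Q j u * ∑ i, xiG md cG FR i u * avm μ 1 S (fun w => τ j w * I w * σ i w) u

/-- the square of a linear combination -/
lemma av_quad {K' : Type} (hG : GM μ S M0) (A : Finset K') {f : K' → Ω → ℝ} (hf : ∀ p, Bm (f p))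
    (q : K' → ℝ) (u : ι → ℝ) :
    ∑ j ∈ A, ∑ l ∈ A, q j * q l * avm μ 1 S (fun w => f j w * f l w) u =
      avm μ 1 S (fun w => (∑ j ∈ A, q j * f j w) ^ 2) u := by
  have e9 : (fun p : Ω => (∑ j ∈ A, q j * f j p) ^ 2)
      = fun p => ∑ j ∈ A, ∑ l ∈ A, q j * q l * (f j p * f l p) := by
    funext p
    rw [sq, Finset.sum_mul_sum]
    exact Finset.sum_congr rfl fun j _ => Finset.sum_congr rfl fun l _ => by ring
  have b5 : ∀ j l, Bm fun p : Ω => q j * q l * (f j p * f l p) := fun j l =>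
    Bm.const_mul _ ((hf j).mul (hf l))
  rw [e9, hG.av_sum 1 A fun j _ => Bm.sum _ fun l _ => b5 j l]
  refine Finset.sum_congr rfl fun j _ => ?_
  rw [hG.av_sum 1 A fun l _ => b5 j l]
  exact Finset.sum_congr rfl fun l _ => (H196.av_mul _ _ _ _ _ _).symm

/-- a weighted Cauchy-Schwarz inequality -/
lemma av_young (hG : GM μ S M0) {f g I : Ω → ℝ} (hf : Bm f) (hg : Bm g) (hI : Bm I)
    (I0 : ∀ w, 0 ≤ I w) (I1 : ∀ w, I w ≤ 1) {t : ℝ} (ht : 0 < t) (u : ι → ℝ) :
    2 * |avm μ 1 S (fun w => f w * I w * g w) u| ≤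
      t * avm μ 1 S (fun w => f w ^ 2) u + avm μ 1 S (fun w => g w ^ 2) u / t := by
  have hpt : ∀ w, |2 * (f w * I w * g w)| ≤ t * f w ^ 2 + t⁻¹ * g w ^ 2 := by
    intro w
    have h1 : (f w * I w) ^ 2 ≤ f w ^ 2 := by
      rw [mul_pow]
      refine mul_le_of_le_one_right (sq_nonneg _) ?_
      exact pow_le_one₀ (I0 w) (I1 w)
    have h2 : 0 ≤ t⁻¹ := by positivity
    have h3 : t * f w ^ 2 + t⁻¹ * g w ^ 2 - 2 * (f w * I w * g w) =
        t * (f w ^ 2 - (f w * I w) ^ 2) + t⁻¹ * (t * (f w * I w) - g w) ^ 2 := by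
      field_simp
      ring
    have h4 : t * f w ^ 2 + t⁻¹ * g w ^ 2 + 2 * (f w * I w * g w) =
        t * (f w ^ 2 - (f w * I w) ^ 2) + t⁻¹ * (t * (f w * I w) + g w) ^ 2 := by
      field_simp
      ring
    have h5 : 0 ≤ t * (f w ^ 2 - (f w * I w) ^ 2) := mul_nonneg ht.le (by linarith)
    rw [abs_le]
    constructor
    · have := mul_nonneg h2 (sq_nonneg (t * (f w * I w) + g w))
      linarith
    · have := mul_nonneg h2 (sq_nonneg (t * (f w * I w) - g w))
      linarith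
  have b1 : Bm fun w => 2 * (f w * I w * g w) := Bm.const_mul _ ((hf.mul hI).mul hg)
  have bf2 : Bm fun w => f w ^ 2 := by simpa only [sq] using hf.mul hf
  have bg2 : Bm fun w => g w ^ 2 := by simpa only [sq] using hg.mul hg
  have b2 : Bm fun w => t * f w ^ 2 + t⁻¹ * g w ^ 2 := (bf2.const_mul t).add (bg2.const_mul t⁻¹)
  have e1 : avm μ 1 S (fun w => t * f w ^ 2 + t⁻¹ * g w ^ 2) u =
      t * avm μ 1 S (fun w => f w ^ 2) u + avm μ 1 S (fun w => g w ^ 2) u / t := by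
    rw [hG.av_add 1 (bf2.const_mul t) (bg2.const_mul t⁻¹), H196.av_mul, H196.av_mul]
    ring
  have e2 : avm μ 1 S (fun w => 2 * (f w * I w * g w)) u =
      2 * avm μ 1 S (fun w => f w * I w * g w) u := H196.av_mul _ _ _ _ _ _
  have h1 := hG.av_mono 1 b1 b2 (fun w => (abs_le.1 (hpt w)).2) u
  have h2 := hG.av_mono 1 (b2.const_mul (-1)) b1
    (fun w => by have := (abs_le.1 (hpt w)).1; linarith) u
  rw [H196.av_mul, e1, e2] at h2
  rw [e1, e2] at h1
  have e3 : 2 * |avm μ 1 S (fun w => f w * I w * g w) u| =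
      |2 * avm μ 1 S (fun w => f w * I w * g w) u| := by
    rw [abs_mul, abs_of_pos (by norm_num : (0 : ℝ) < 2)]
  rw [e3, abs_le]
  constructor <;> linarith

/-- the pairing with the neutral field, pointwise -/
lemma hg_young (hG : GM μ S M0) (hM : MS S md cG σ a I sg) (bt : ∀ j, Bm (τ j)) (T0 : Finset J)
    (Q : J → (ι → ℝ) → ℝ) {t : ℝ} (ht : 0 < t) (u : ι → ℝ) :
    2 * |HG μ S md cG FR σ I τ T0 Q u| ≤
      t * PG μ S τ T0 Q u + RG μ S md cG FR σ u / t := by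
  have bF : Bm fun w => ∑ j ∈ T0, Q j u * τ j w := Bm.sum _ fun j _ => (bt j).const_mul _
  have bX : Bm fun w => ∑ i, xiG md cG FR i u * σ i w := Bm.sum _ fun i _ =>
    (hM.bs i).const_mul _
  have h1 := av_young (μ := μ) (S := S) hG bF bX hM.bI hM.I0 hM.I1 ht u
  rw [← av_quad hG T0 bt (fun j => Q j u) u,
    ← av_quad hG Finset.univ hM.bs (fun i => xiG md cG FR i u) u] at h1
  have e1 : avm μ 1 S (fun w => (∑ j ∈ T0, Q j u * τ j w) * I w *
      ∑ i, xiG md cG FR i u * σ i w) u = HG μ S md cG FR σ I τ T0 Q u := by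
    have e2 : (fun w => (∑ j ∈ T0, Q j u * τ j w) * I w * ∑ i, xiG md cG FR i u * σ i w) =
        fun w => ∑ j ∈ T0, Q j u * ∑ i, xiG md cG FR i u * (τ j w * I w * σ i w) := by
      funext w
      rw [Finset.sum_mul, Finset.sum_mul]
      refine Finset.sum_congr rfl fun j _ => ?_
      rw [Finset.mul_sum, Finset.mul_sum]
      exact Finset.sum_congr rfl fun i _ => by ring
    have b1 : ∀ j i, Bm fun w => xiG md cG FR i u * (τ j w * I w * σ i w) := fun j i =>
      Bm.const_mul _ (((bt j).mul hM.bI).mul (hM.bs i))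
    rw [e2, hG.av_sum 1 T0 fun j _ => Bm.const_mul _ (Bm.sum _ fun i _ => b1 j i)]
    unfold HG
    refine Finset.sum_congr rfl fun j _ => ?_
    rw [H196.av_mul, hG.av_sum 1 Finset.univ fun i _ => b1 j i]
    congr 1
    exact Finset.sum_congr rfl fun i _ => H196.av_mul _ _ _ _ _ _
  rw [e1] at h1
  exact h1

lemma bm_PG (hG : GM μ S M0) (bt : ∀ j, Bm (τ j)) (T0 : Finset J) {Q : J → (ι → ℝ) → ℝ}
    (hQ : ∀ j, BM (Q j)) : BM (PG μ S τ T0 Q) :=
  BM.sum _ fun j _ => BM.sum _ fun l _ => ((hQ j).mul (hQ l)).mul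
    (H347.bm hG 1 ((bt j).mul (bt l)))

lemma eg_RG (hG : GM μ S M0) (hM : MS S md cG σ a I sg) : EG (RG μ S md cG FR σ) :=
  EG.sum _ fun i _ => EG.sum _ fun k _ => ((eg_xiG md cG FR i).mul (eg_xiG md cG FR k)).mul
    (hG.eg_av 1 ((hM.bs i).mul (hM.bs k)))

lemma eg_HG (hG : GM μ S M0) (hM : MS S md cG σ a I sg) (bt : ∀ j, Bm (τ j)) (T0 : Finset J)
    {Q : J → (ι → ℝ) → ℝ} (hQ : ∀ j, BM (Q j)) : EG (HG μ S md cG FR σ I τ T0 Q) :=
  EG.sum _ fun j _ => (hQ j).eg.mul (EG.sum _ fun i _ => (eg_xiG md cG FR i).mul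
    (hG.eg_av 1 (((bt j).mul hM.bI).mul (hM.bs i))))

/-- **the pairing with the neutral field, in the mean** -/
theorem ex_hg_le (hG : GM μ S M0) (hM : MS S md cG σ a I sg) (hv : 0 < vG cG)
    (hinj : ∀ i l i' l', md i l = md i' l' → i = i' ∧ l = l') (x : ℝ) (bt : ∀ j, Bm (τ j))
    (T0 : Finset J) {Q : J → (ι → ℝ) → ℝ} (hQ : ∀ j, BM (Q j)) :
    |ex (g1 ι) (Zxm μ 1 S x) (HG μ S md cG FR σ I τ T0 Q)| ≤
      √(ex (g1 ι) (Zxm μ 1 S x) (PG μ S τ T0 Q)) *
        √(rhoG cG FR * (1 - rhoG cG FR) * vG cG * Fintype.card s) := by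
  have hw := H347.wt hG 1 x
  rw [← xi_sq hG hM hv hinj x]
  have eP := (bm_PG hG bt T0 hQ).eg
  have eR := eg_RG (FR := FR) hG hM
  have eH := eg_HG (FR := FR) hG hM bt T0 hQ
  have hP0 : 0 ≤ ex (g1 ι) (Zxm μ 1 S x) (PG μ S τ T0 Q) := by
    refine hw.ex_nonneg (bm_PG hG bt T0 hQ) fun z => ?_
    unfold PG
    rw [av_quad hG T0 bt (fun j => Q j z) z]
    exact hG.av_nonneg 1 (fun w => sq_nonneg _) z
  have hR0 : 0 ≤ ex (g1 ι) (Zxm μ 1 S x) (RG μ S md cG FR σ) := by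
    have h1 := ex_mono_eg hG x (EG.const 0) eR fun z => by
      unfold RG
      rw [av_quad hG Finset.univ hM.bs (fun i => xiG md cG FR i z) z]
      exact hG.av_nonneg 1 (fun w => sq_nonneg _) z
    rwa [hw.ex_zero] at h1
  have key : ∀ sgn : ℝ, sgn = 1 ∨ sgn = -1 → sgn * ex (g1 ι) (Zxm μ 1 S x)
      (HG μ S md cG FR σ I τ T0 Q) ≤ √(ex (g1 ι) (Zxm μ 1 S x) (PG μ S τ T0 Q)) *
        √(ex (g1 ι) (Zxm μ 1 S x) (RG μ S md cG FR σ)) := by
    intro sgn hs
    refine opt_t hP0 hR0 fun t ht => ?_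
    have h1 := ex_mono_eg hG x (f := fun z => (2 * sgn) * HG μ S md cG FR σ I τ T0 Q z)
      (g := fun z => t * PG μ S τ T0 Q z + t⁻¹ * RG μ S md cG FR σ z) (eH.const_mul _)
      ((eP.const_mul t).add (eR.const_mul t⁻¹)) fun z => by
        have h2 := hg_young (FR := FR) hG hM bt T0 Q ht z
        have h3 : (2 * sgn) * HG μ S md cG FR σ I τ T0 Q z ≤
            2 * |HG μ S md cG FR σ I τ T0 Q z| := by
          rcases hs with h | h
          · rw [h]; nlinarith [le_abs_self (HG μ S md cG FR σ I τ T0 Q z)]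
          · rw [h]; nlinarith [neg_abs_le (HG μ S md cG FR σ I τ T0 Q z)]
        have h4 : RG μ S md cG FR σ z / t = t⁻¹ * RG μ S md cG FR σ z := by
          rw [div_eq_inv_mul]
        linarith
    rw [ex_add_eg hG x (eP.const_mul t) (eR.const_mul t⁻¹), hw.ex_const_mul, hw.ex_const_mul,
      hw.ex_const_mul] at h1
    have h5 : ex (g1 ι) (Zxm μ 1 S x) (RG μ S md cG FR σ) / t =
        t⁻¹ * ex (g1 ι) (Zxm μ 1 S x) (RG μ S md cG FR σ) := by rw [div_eq_inv_mul]
    rw [h5]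
    linarith
  rw [abs_le]
  have k1 := key 1 (Or.inl rfl)
  have k2 := key (-1) (Or.inr rfl)
  constructor <;> linarith

/-- the second moment with revealed coefficients -/
theorem ex_pg_le (hG : GM μ S M0) (x : ℝ) (bt : ∀ j, Bm (τ j)) (T0 : Finset J) {K : Finset ι}
    {Q : J → (ι → ℝ) → ℝ} (hQ : ∀ j, BM (Q j)) (dQ : ∀ j, H646.Dep K (Q j)) :
    ex (g1 ι) (Zxm μ 1 S x) (PG μ S τ T0 Q) ≤ ex (g1 ι) (Zxm μ 1 S x) (fun z =>
      (∑ j ∈ T0, Q j z ^ 2) * √(H463.F2 μ S x K τ T0 z)) := by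
  have hw := H347.wt hG 1 x
  have bA : ∀ j l, BM (avm μ 1 S (fun w => τ j w * τ l w)) := fun j l =>
    H347.bm hG 1 ((bt j).mul (bt l))
  have e1 : ex (g1 ι) (Zxm μ 1 S x) (PG μ S τ T0 Q) = ex (g1 ι) (Zxm μ 1 S x) (fun z =>
      ∑ j ∈ T0, ∑ l ∈ T0, Q j z * Q l z * cx (g1 ι) K (Zxm μ 1 S x)
        (avm μ 1 S (fun w => τ j w * τ l w)) z) := by
    unfold PG
    rw [hw.ex_sum T0 fun j _ => BM.sum _ fun l _ => ((hQ j).mul (hQ l)).mul (bA j l),
      hw.ex_sum T0 fun j _ => BM.sum _ fun l _ => ((hQ j).mul (hQ l)).mul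
        (hw.bm_cx K (bA j l))]
    refine Finset.sum_congr rfl fun j _ => ?_
    rw [hw.ex_sum T0 fun l _ => ((hQ j).mul (hQ l)).mul (bA j l),
      hw.ex_sum T0 fun l _ => ((hQ j).mul (hQ l)).mul (hw.bm_cx K (bA j l))]
    refine Finset.sum_congr rfl fun l _ => ?_
    exact (ex_cx hw (Q := fun z => Q j z * Q l z) (fun z z' => by
      show Q j (glue K z z') * Q l (glue K z z') = Q j z * Q l z
      rw [dQ j z z', dQ l z z'])
      ((hQ j).mul (hQ l)) (bA j l)).symm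
  rw [e1]
  have bF2 : BM (H463.F2 μ S x K τ T0) := H463.bm_F2 hG x K bt T0
  refine hw.ex_mono (BM.sum _ fun j _ => BM.sum _ fun l _ => ((hQ j).mul (hQ l)).mul
    (hw.bm_cx K (bA j l))) ((BM.sum _ fun j _ => (hQ j).sq).mul (H615.bm_sqrt bF2)) fun z => ?_
  have h1 := H463.quad_cs hG x K (f := τ) bt T0 (fun j => Q j z) z
  rw [H463.quad_eq hG x K bt T0 (fun j => Q j z) z] at h1
  refine le_trans (le_of_eq ?_) h1
  refine Finset.sum_congr rfl fun j _ => ?_
  rw [Finset.mul_sum]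
  exact Finset.sum_congr rfl fun l _ => by ring

/-- the mean of the square of a revealed vector against the two point number, with a threshold -/
theorem ex_q_sqrt_le {w : (ι → ℝ) → ℝ} (hw : Wt (g1 ι) w) {q F : (ι → ℝ) → ℝ} (hq : BM q)
    (hF : BM F) (q0 : ∀ z, 0 ≤ q z) {Cq Nf B : ℝ} (hCq : ∀ z, q z ≤ Cq) (hNf : ∀ z, √(F z) ≤ Nf)
    (hB : 0 ≤ B) :
    ex (g1 ι) w (fun z => q z * √(F z)) ≤ B * ex (g1 ι) w q +
      Cq * Nf * ex (g1 ι) w (fun z => if B ^ 2 < F z then 1 else 0) := by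
  have bi : BM fun z : ι → ℝ => if B ^ 2 < F z then (1 : ℝ) else 0 := by
    obtain ⟨hm, -⟩ := hF
    refine ⟨Measurable.ite (measurableSet_lt measurable_const hm) measurable_const
      measurable_const, 1, fun z => ?_⟩
    split_ifs <;> simp
  rw [← hw.ex_const_mul, ← hw.ex_const_mul, ← hw.ex_add ((BM.const _).mul hq)
    ((BM.const _).mul bi)]
  refine hw.ex_mono (hq.mul (H615.bm_sqrt hF)) (((BM.const _).mul hq).add ((BM.const _).mul bi))
    fun z => ?_
  have hCq0 : 0 ≤ Cq := (q0 z).trans (hCq z)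
  by_cases h : B ^ 2 < F z
  · simp only [if_pos h, mul_one]
    have h1 : q z * √(F z) ≤ Cq * Nf :=
      mul_le_mul (hCq z) (hNf z) (Real.sqrt_nonneg _) hCq0
    have h2 : 0 ≤ B * q z := mul_nonneg hB (q0 z)
    linarith
  · simp only [if_neg h, mul_zero, add_zero]
    push Not at h
    have h1 : √(F z) ≤ B := by
      rw [← Real.sqrt_sq hB]
      exact Real.sqrt_le_sqrt h
    rw [mul_comm B]
    exact mul_le_mul_of_nonneg_left h1 (q0 z)

/-- **The vector bound of the defect with modulated coordinates revealed.** -/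
theorem ggv_l2 [Nonempty s] (hG : GM μ S M0) (hM : MS S md cG σ a I sg) (hv : 0 < vG cG)
    (hinj : ∀ i l i' l', md i l = md i' l' → i = i' ∧ l = l') (hx : x < 1) (hlam : 0 ≤ lam)
    (hρ : rhoG cG FR < 1) (hη : 0 ≤ η) (ha : ∀ w, |a w| ≤ 1 + η) (bt : ∀ j, Bm (τ j))
    (ht : ∀ j w, |τ j w| ≤ 1) (hT : ∀ j, AIbp μ S md cG σ a I sg lam c (τ j))
    (hc : c = vG cG * Fintype.card s * (1 - (1 - x) * r0)) {K : Finset ι}
    (hK : ∀ i, ∀ l ∈ FRᶜ, md i l ∉ K) (T0 : Finset J) {B Cq Nf pb κ e : ℝ} (hB : 0 ≤ B)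
    (hCq : ∀ z, ∑ j ∈ T0, cx (g1 ι) K (Zxm μ 1 S x) (Va μ 1 r0 S σ a τ j) z ^ 2 ≤ Cq)
    (hNf : ∀ z, √(H463.F2 μ S x K τ T0 z) ≤ Nf)
    (hpb : ex (g1 ι) (Zxm μ 1 S x) (fun z => if B ^ 2 < H463.F2 μ S x K τ T0 z then 1 else 0)
      ≤ pb)
    (hκ : lam / ((1 - x) * (vG cG * Fintype.card s)) +
      1 / ((1 - rhoG cG FR) * ((1 - x) * (vG cG * Fintype.card s))) *
        √(rhoG cG FR * (1 - rhoG cG FR) * vG cG * Fintype.card s) ≤ κ)
    (he : √(T0.card * ((|r0| + 1) * (1 + η)) ^ 2 *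
      ex (g1 ι) (Zxm μ 1 S x) (avm μ 1 S (fun w => 1 - I w))) ≤ e) :
    ex (g1 ι) (Zxm μ 1 S x) (fun z => ∑ j ∈ T0,
        cx (g1 ι) K (Zxm μ 1 S x) (Va μ 1 r0 S σ a τ j) z ^ 2) ≤
      (κ * √B + e) ^ 2 + 2 * (κ * √(Cq * Nf * pb)) := by
  have hn : (0 : ℝ) < Fintype.card s := by exact_mod_cast Fintype.card_pos
  have hx1 : 0 < 1 - x := by linarith
  have hr1 : 0 < 1 - rhoG cG FR := by linarith
  set θ := lam / ((1 - x) * (vG cG * Fintype.card s)) with hθ
  set κ' := 1 / ((1 - rhoG cG FR) * ((1 - x) * (vG cG * Fintype.card s))) with hκ'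
  set vd := √(rhoG cG FR * (1 - rhoG cG FR) * vG cG * Fintype.card s) with hvd
  have hθ0 : 0 ≤ θ := by positivity
  have hk0 : 0 ≤ κ' := by positivity
  have hvd0 : 0 ≤ vd := Real.sqrt_nonneg _
  have hw := H347.wt hG 1 x
  set w := Zxm μ 1 S x with hwd
  have bI1 : Bm fun w => 1 - I w := (Bm.const 1).sub hM.bI
  have hs1 : ∀ i p, |σ i p| ≤ 1 := fun i p => by
    have := hM.s2 i p
    rw [← sq_abs] at this
    nlinarith [abs_nonneg (σ i p)]
  have bA : ∀ j, BM (avm μ 1 S (fun w => τ j w * sg w)) := fun j =>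
    H347.bm hG 1 ((bt j).mul hM.bg)
  have bV : ∀ j, BM (ViG r0 μ S σ a I (τ j)) := fun j => bm_ViG hG hM.ba hM.bs hM.bI (bt j)
  have bR : ∀ j, BM (ViG r0 μ S σ a (fun w => 1 - I w) (τ j)) := fun j =>
    bm_ViG hG hM.ba hM.bs bI1 (bt j)
  have e0 : ∀ j, Va μ 1 r0 S σ a τ j = fun z => ViG r0 μ S σ a I (τ j) z +
      ViG r0 μ S σ a (fun w => 1 - I w) (τ j) z := fun j => by
    funext z
    exact Va_split hG hM.ba hM.bs hM.bI bt j z
  have bVa : ∀ j, BM (Va μ 1 r0 S σ a τ j) := fun j => by rw [e0]; exact (bV j).add (bR j)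
  set Q : J → (ι → ℝ) → ℝ := fun j => cx (g1 ι) K w (Va μ 1 r0 S σ a τ j) with hQdef
  have hQ : ∀ j, BM (Q j) := fun j => hw.bm_cx K (bVa j)
  have dQ : ∀ j, H646.Dep K (Q j) := fun j => dep_cx K
  have bQ2 : BM fun z => ∑ j ∈ T0, Q j z ^ 2 := BM.sum _ fun j _ => (hQ j).sq
  set S2 := ex (g1 ι) w (fun z => ∑ j ∈ T0, Q j z ^ 2) with hS2
  have hS20 : 0 ≤ S2 := hw.ex_nonneg bQ2 fun z => Finset.sum_nonneg fun _ _ => sq_nonneg _
  -- the three parts
  have e1 : S2 = θ * ex (g1 ι) w (fun z => ∑ j ∈ T0, Q j z *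
        avm μ 1 S (fun w => τ j w * sg w) z) - κ' * ex (g1 ι) w (HG μ S md cG FR σ I τ T0 Q) +
      ex (g1 ι) w (fun z => ∑ j ∈ T0, Q j z * ViG r0 μ S σ a (fun w => 1 - I w) (τ j) z) := by
    have h1 : S2 = ∑ j ∈ T0, ex (g1 ι) w (fun z => Q j z * Va μ 1 r0 S σ a τ j z) := by
      rw [hS2, hw.ex_sum T0 fun j _ => (hQ j).sq]
      refine Finset.sum_congr rfl fun j _ => ?_
      rw [← ex_cx hw (dQ j) (hQ j) (bVa j)]
      congr 1
      funext z
      rw [sq]
    have h2 : ∀ j, ex (g1 ι) w (fun z => Q j z * Va μ 1 r0 S σ a τ j z) =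
        (θ * ex (g1 ι) w (fun z => Q j z * avm μ 1 S (fun w => τ j w * sg w) z) -
          κ' * ex (g1 ι) w (fun z => Q j z * ∑ i, xiG md cG FR i z *
            avm μ 1 S (fun w => τ j w * I w * σ i w) z)) +
        ex (g1 ι) w (fun z => Q j z * ViG r0 μ S σ a (fun w => 1 - I w) (τ j) z) := by
      intro j
      rw [e0]
      have h3 : (fun z => Q j z * (ViG r0 μ S σ a I (τ j) z +
          ViG r0 μ S σ a (fun w => 1 - I w) (τ j) z)) =
          fun z => Q j z * ViG r0 μ S σ a I (τ j) z +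
            Q j z * ViG r0 μ S σ a (fun w => 1 - I w) (τ j) z := by
        funext z; ring
      rw [h3, hw.ex_add ((hQ j).mul (bV j)) ((hQ j).mul (bR j)),
        ggv_ex hG hM hv hx hρ (bt j) (hT j) hc (hQ j) fun i l hl =>
          H487.pd_dep (hK i l hl) (dQ j)]
    have h4 : ex (g1 ι) w (HG μ S md cG FR σ I τ T0 Q) = ∑ j ∈ T0, ex (g1 ι) w (fun z =>
        Q j z * ∑ i, xiG md cG FR i z * avm μ 1 S (fun w => τ j w * I w * σ i w) z) := by
      have hW : (0 : ℝ) < ∫ z, w z ∂(Measure.pi (g1 ι)) := hw.tot_pos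
      have eJ : ∀ j, EG fun z => w z * (Q j z * ∑ i, xiG md cG FR i z *
          avm μ 1 S (fun w => τ j w * I w * σ i w) z) := fun j =>
        (hG.eg_Zx 1 x).mul ((hQ j).eg.mul (EG.sum _ fun i _ => (eg_xiG md cG FR i).mul
          (hG.eg_av 1 (((bt j).mul hM.bI).mul (hM.bs i)))))
      have d1 : ∀ f : (ι → ℝ) → ℝ, ex (g1 ι) w f =
          (∫ z, w z * f z ∂(Measure.pi (g1 ι))) / ∫ z, w z ∂(Measure.pi (g1 ι)) := fun f => rfl
      simp only [d1]
      rw [← Finset.sum_div]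
      congr 1
      have d2 : ∫ z, ∑ j ∈ T0, w z * (Q j z * ∑ i, xiG md cG FR i z *
          avm μ 1 S (fun w => τ j w * I w * σ i w) z) ∂(Measure.pi (g1 ι)) = ∑ j ∈ T0,
          ∫ z, w z * (Q j z * ∑ i, xiG md cG FR i z *
          avm μ 1 S (fun w => τ j w * I w * σ i w) z) ∂(Measure.pi (g1 ι)) :=
        integral_finsetSum T0 fun j _ => (eJ j).integrable
      rw [← d2]
      refine integral_congr_ae (Eventually.of_forall fun z => ?_)
      simp only [HG]
      rw [Finset.mul_sum]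
    rw [h1, Finset.sum_congr rfl fun j _ => h2 j, Finset.sum_add_distrib,
      Finset.sum_sub_distrib, ← Finset.mul_sum, ← Finset.mul_sum, ← h4,
      hw.ex_sum T0 fun j _ => (hQ j).mul (bA j), hw.ex_sum T0 fun j _ => (hQ j).mul (bR j)]
  set P := ex (g1 ι) w (PG μ S τ T0 Q) with hPdef
  have hP0 : 0 ≤ P := by
    refine hw.ex_nonneg (bm_PG hG bt T0 hQ) fun z => ?_
    unfold PG
    rw [av_quad hG T0 bt (fun j => Q j z) z]
    exact hG.av_nonneg 1 (fun w => sq_nonneg _) z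
  -- the sign part
  have c1 : |ex (g1 ι) w (fun z => ∑ j ∈ T0, Q j z * avm μ 1 S (fun w => τ j w * sg w) z)| ≤
      √P := by
    refine Real.abs_le_sqrt ?_
    have b1 : BM fun z => ∑ j ∈ T0, Q j z * avm μ 1 S (fun w => τ j w * sg w) z :=
      BM.sum _ fun j _ => (hQ j).mul (bA j)
    refine (hw.ex_sq_le b1).trans (hw.ex_mono b1.sq (bm_PG hG bt T0 hQ) fun z => ?_)
    have bL : Bm fun p : Ω => ∑ j ∈ T0, Q j z * τ j p := Bm.sum _ fun j _ => (bt j).const_mul _
    have h1 : ∑ j ∈ T0, Q j z * avm μ 1 S (fun w => τ j w * sg w) z =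
        avm μ 1 S (fun p => (∑ j ∈ T0, Q j z * τ j p) * sg p) z := by
      have e7 : (fun p : Ω => (∑ j ∈ T0, Q j z * τ j p) * sg p)
          = fun p => ∑ j ∈ T0, Q j z * (τ j p * sg p) := by
        funext p
        rw [Finset.sum_mul]
        exact Finset.sum_congr rfl fun j _ => by ring
      rw [e7, hG.av_sum 1 T0 fun j _ => Bm.const_mul _ ((bt j).mul hM.bg)]
      exact Finset.sum_congr rfl fun j _ => (H196.av_mul _ _ _ _ _ _).symm
    simp only [PG]
    rw [h1, av_quad hG T0 bt (fun j => Q j z) z]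
    refine (hG.av_sq_le 1 (bL.mul hM.bg) z).trans (le_of_eq ?_)
    congr 1
    funext p
    rw [mul_pow, hM.g2, mul_one]
  -- the neutral field
  have c2 := ex_hg_le (FR := FR) hG hM hv hinj x bt T0 hQ
  rw [← hwd, ← hPdef, ← hvd] at c2
  -- the stuck part
  have c3 : |ex (g1 ι) w (fun z => ∑ j ∈ T0, Q j z *
      ViG r0 μ S σ a (fun w => 1 - I w) (τ j) z)| ≤ e * √S2 := by
    have b1 : BM fun z => ∑ j ∈ T0, Q j z * ViG r0 μ S σ a (fun w => 1 - I w) (τ j) z :=
      BM.sum _ fun j _ => (hQ j).mul (bR j)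
    have bI2 : BM (avm μ 1 S (fun w => 1 - I w)) := H347.bm hG 1 bI1
    have bV2 : BM fun z => ∑ j ∈ T0, ViG r0 μ S σ a (fun w => 1 - I w) (τ j) z ^ 2 :=
      BM.sum _ fun j _ => (bR j).sq
    have hU0 : 0 ≤ ex (g1 ι) w (fun z => ∑ j ∈ T0,
        ViG r0 μ S σ a (fun w => 1 - I w) (τ j) z ^ 2) :=
      hw.ex_nonneg bV2 fun z => Finset.sum_nonneg fun _ _ => sq_nonneg _
    have k1 : ex (g1 ι) w (fun z => ∑ j ∈ T0,
        ViG r0 μ S σ a (fun w => 1 - I w) (τ j) z ^ 2) ≤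
        T0.card * ((|r0| + 1) * (1 + η)) ^ 2 * ex (g1 ι) w (avm μ 1 S (fun w => 1 - I w)) := by
      rw [← hw.ex_const_mul]
      refine hw.ex_mono bV2 ((BM.const _).mul bI2) fun z => ?_
      have h1 : ∀ j ∈ T0, ViG r0 μ S σ a (fun w => 1 - I w) (τ j) z ^ 2 ≤
          ((|r0| + 1) * (1 + η)) ^ 2 * avm μ 1 S (fun w => 1 - I w) z := fun j _ =>
        ViG_sq_le hG hM.ba hM.bs hM.bI hM.I0 hM.I1 hη ha hs1 (bt j) (ht j) z
      refine (Finset.sum_le_sum h1).trans (le_of_eq ?_)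
      rw [Finset.sum_const, nsmul_eq_mul]
      ring
    have k2 : √(ex (g1 ι) w (fun z => ∑ j ∈ T0,
        ViG r0 μ S σ a (fun w => 1 - I w) (τ j) z ^ 2)) ≤ e :=
      (Real.sqrt_le_sqrt k1).trans he
    have k3 : |ex (g1 ι) w (fun z => ∑ j ∈ T0, Q j z *
        ViG r0 μ S σ a (fun w => 1 - I w) (τ j) z)| ≤ √S2 * √(ex (g1 ι) w (fun z => ∑ j ∈ T0,
        ViG r0 μ S σ a (fun w => 1 - I w) (τ j) z ^ 2)) := by
      have kk : ∀ sgn : ℝ, sgn = 1 ∨ sgn = -1 → sgn * ex (g1 ι) w (fun z => ∑ j ∈ T0, Q j z *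
          ViG r0 μ S σ a (fun w => 1 - I w) (τ j) z) ≤ √S2 * √(ex (g1 ι) w (fun z =>
            ∑ j ∈ T0, ViG r0 μ S σ a (fun w => 1 - I w) (τ j) z ^ 2)) := by
        intro sgn hs
        refine opt_t hS20 hU0 fun t ht => ?_
        have h1 := hw.ex_mono ((BM.const (2 * sgn)).mul b1)
          (((BM.const t).mul bQ2).add ((BM.const t⁻¹).mul bV2)) fun z => by
            rw [Finset.mul_sum, Finset.mul_sum, Finset.mul_sum, ← Finset.sum_add_distrib]
            refine Finset.sum_le_sum fun j _ => ?_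
            set p := Q j z
            set q := ViG r0 μ S σ a (fun w => 1 - I w) (τ j) z
            have hsg : sgn ^ 2 = 1 := by rcases hs with h | h <;> rw [h] <;> norm_num
            have h5 : t * p ^ 2 + t⁻¹ * q ^ 2 - 2 * sgn * (p * q) =
                t⁻¹ * (t * p - sgn * q) ^ 2 + t⁻¹ * q ^ 2 * (1 - sgn ^ 2) := by
              field_simp
              ring
            rw [hsg, sub_self, mul_zero, add_zero] at h5
            have h6 : 0 ≤ t⁻¹ * (t * p - sgn * q) ^ 2 := by positivity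
            linarith
        rw [hw.ex_add ((BM.const t).mul bQ2) ((BM.const t⁻¹).mul bV2), hw.ex_const_mul,
          hw.ex_const_mul, hw.ex_const_mul] at h1
        rw [div_eq_inv_mul]
        linarith
      rw [abs_le]
      have k4 := kk 1 (Or.inl rfl)
      have k5 := kk (-1) (Or.inr rfl)
      constructor <;> linarith
    refine k3.trans ?_
    rw [mul_comm e]
    exact mul_le_mul_of_nonneg_left k2 (Real.sqrt_nonneg _)
  -- the second moment
  have bF2 : BM (H463.F2 μ S x K τ T0) := H463.bm_F2 hG x K bt T0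
  have c4 : P ≤ B * S2 + Cq * Nf * pb := by
    have h1 := ex_pg_le hG x bt T0 (K := K) hQ dQ
    rw [← hwd, ← hPdef] at h1
    have h2 := ex_q_sqrt_le hw bQ2 bF2 (fun z => Finset.sum_nonneg fun _ _ => sq_nonneg _)
      hCq hNf hB
    have hCq0 : 0 ≤ Cq := (Finset.sum_nonneg fun _ _ => sq_nonneg _).trans (hCq 0)
    have hNf0 : 0 ≤ Nf := (Real.sqrt_nonneg _).trans (hNf 0)
    have h3 : Cq * Nf * ex (g1 ι) w (fun z => if B ^ 2 < H463.F2 μ S x K τ T0 z then 1 else 0) ≤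
        Cq * Nf * pb := mul_le_mul_of_nonneg_left hpb (mul_nonneg hCq0 hNf0)
    exact h1.trans (h2.trans (add_le_add_right h3 _))
  have hCN : 0 ≤ Cq * Nf * pb := by
    have hCq0 : 0 ≤ Cq := (Finset.sum_nonneg fun _ _ => sq_nonneg _).trans (hCq 0)
    have hNf0 : 0 ≤ Nf := (Real.sqrt_nonneg _).trans (hNf 0)
    have hpb0 : 0 ≤ pb := le_trans (hw.ex_nonneg (by
      obtain ⟨hm, -⟩ := bF2
      refine ⟨Measurable.ite (measurableSet_lt measurable_const hm) measurable_const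
        measurable_const, 1, fun z => ?_⟩
      split_ifs <;> simp) fun z => by split_ifs <;> norm_num) hpb
    positivity
  have c5 : √P ≤ √B * √S2 + √(Cq * Nf * pb) := by
    refine (Real.sqrt_le_sqrt c4).trans ?_
    refine (sqrt_add_le' (mul_nonneg hB hS20) hCN).trans (le_of_eq ?_)
    rw [Real.sqrt_mul hB]
  have hκ0 : 0 ≤ κ := le_trans (by positivity) hκ
  have hm : S2 ≤ κ * √P + e * √S2 := by
    have h1 := (abs_le.1 c1).2
    have h2 := (abs_le.1 c2).1
    have h3 := (abs_le.1 c3).2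
    have h4 := mul_le_mul_of_nonneg_left h1 hθ0
    have h5 := mul_le_mul_of_nonneg_left (show -ex (g1 ι) w (HG μ S md cG FR σ I τ T0 Q) ≤
      √P * vd by linarith) hk0
    have h6 : S2 ≤ (θ + κ' * vd) * √P + e * √S2 := by
      have h7 := e1
      linarith
    refine h6.trans (add_le_add_left ?_ _)
    exact mul_le_mul_of_nonneg_right hκ (Real.sqrt_nonneg _)
  have hfin : S2 ≤ (κ * √B + e) * √S2 + κ * √(Cq * Nf * pb) := by
    have := mul_le_mul_of_nonneg_left c5 hκ0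
    linarith
  exact sq_of_lin hfin hS20

end Vale.Agent.P146.H118
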