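import Vale.Agent.P146.H118.Mom

/-!
Windows in which several blocks of coordinates are revealed at the same time: for a block
`A1 ⊆ A0` of the active coordinates `A0`, the integral over the window of the mean of the squared
Frobenius norm of the total covariance of the block `A1` is at most the increment of the mean of
`∑_{A1} (cm (D k))²`; the other active coordinates do not enter the bound.
-/

open MeasureTheory ProbabilityTheory Filter Topology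

namespace Vale.Agent.P146.H118

open Vale.Agent.P157.Lv Vale.Agent.P146.H425 Vale.Agent.P146.H332

set_option linter.unusedSectionVars false

variable {ι : Type} [Fintype ι] [DecidableEq ι]

variable {A0 A1 : Finset ι} {a b c : ι → ℝ} {x s : ℝ} {F : (ι → ℝ) → ℝ} {D : ι → (ι → ℝ) → ℝ}
  {H T : ι → ι → (ι → ℝ) → ℝ} {B L M : ℝ} {Y : (ι ⊕ ι → ℝ) → ℝ}

lemma bcm_qH (h : R1.Sm F D B L H T M) (v : ι → ℝ) (s : ℝ) (w : ι ⊕ ι → ℝ) :
    cm A0 a b c x F (qH A1 H v) s w =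
      ∑ k ∈ A1, ∑ e ∈ A1, v k * v e * cm A0 a b c x F (H k e) s w := by
  unfold qH
  rw [cm_sum _ h.c11 fun k _ => EG.sum _ fun e _ => (h.eH k e).const_mul _]
  refine Finset.sum_congr rfl fun k _ => ?_
  rw [cm_sum _ h.c11 fun e _ => (h.eH k e).const_mul _]
  exact Finset.sum_congr rfl fun e _ => cm_const_mul _ _ _ _

lemma bcm_lD (h : R1.Sm F D B L H T M) (v : ι → ℝ) (s : ℝ) (w : ι ⊕ ι → ℝ) :
    cm A0 a b c x F (lD A1 D v) s w = ∑ k ∈ A1, v k * cm A0 a b c x F (D k) s w := by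
  unfold lD
  rw [cm_sum _ h.c11 fun k _ => (h.eD k).const_mul _]
  exact Finset.sum_congr rfl fun k _ => cm_const_mul _ _ _ _

lemma bcm_lD_sq (h : R1.Sm F D B L H T M) (v : ι → ℝ) (s : ℝ) (w : ι ⊕ ι → ℝ) :
    cm A0 a b c x F (fun y => lD A1 D v y ^ 2) s w =
      ∑ k ∈ A1, ∑ e ∈ A1, v k * v e * cm A0 a b c x F (fun y => D k y * D e y) s w := by
  have e0 : (fun y => lD A1 D v y ^ 2) =
      fun y => ∑ k ∈ A1, ∑ e ∈ A1, v k * v e * (D k y * D e y) := by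
    funext y
    unfold lD
    rw [pow_two, Finset.sum_mul_sum]
    exact Finset.sum_congr rfl fun k _ => Finset.sum_congr rfl fun e _ => by ring
  rw [e0, cm_sum _ h.c11 fun k _ => EG.sum _ fun e _ => ((h.eD k).mul (h.eD e)).const_mul _]
  refine Finset.sum_congr rfl fun k _ => ?_
  rw [cm_sum _ h.c11 fun e _ => ((h.eD k).mul (h.eD e)).const_mul _]
  exact Finset.sum_congr rfl fun e _ => cm_const_mul _ _ _ _

/-- The quadratic form of the Hessian on a block. -/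
lemma bquad_hs (h : R1.Sm F D B L H T M) (v : ι → ℝ) (s : ℝ) (w : ι ⊕ ι → ℝ) :
    ∑ k ∈ A1, ∑ e ∈ A1, v k * v e * hs A0 a b c x F D H k e s w =
      cm A0 a b c x F (qH A1 H v) s w + x * (cm A0 a b c x F (fun y => lD A1 D v y ^ 2) s w -
        cm A0 a b c x F (lD A1 D v) s w ^ 2) := by
  rw [bcm_qH h, bcm_lD_sq h, bcm_lD h, sq_sum, ← Finset.sum_sub_distrib, Finset.mul_sum,
    ← Finset.sum_add_distrib]
  refine Finset.sum_congr rfl fun k _ => ?_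
  rw [← Finset.sum_sub_distrib, Finset.mul_sum, ← Finset.sum_add_distrib]
  refine Finset.sum_congr rfl fun e _ => ?_
  unfold hs dcm
  ring

/-- The quadratic form of the covariance on a block. -/
lemma bquad_kt (h : R1.Sm F D B L H T M) (v : ι → ℝ) (s : ℝ) (w : ι ⊕ ι → ℝ) :
    ∑ k ∈ A1, ∑ e ∈ A1, v k * v e * kt A0 a b c x F D H k e s w =
      cm A0 a b c x F (qH A1 H v) s w + (cm A0 a b c x F (fun y => lD A1 D v y ^ 2) s w -
        cm A0 a b c x F (lD A1 D v) s w ^ 2) := by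
  rw [bcm_qH h, bcm_lD_sq h, bcm_lD h, sq_sum, ← Finset.sum_sub_distrib,
    ← Finset.sum_add_distrib]
  refine Finset.sum_congr rfl fun k _ => ?_
  rw [← Finset.sum_sub_distrib, ← Finset.sum_add_distrib]
  refine Finset.sum_congr rfl fun e _ => ?_
  have e1 : cm A0 a b c x F (sm D H k e) s w = cm A0 a b c x F (H k e) s w +
      cm A0 a b c x F (fun y => D k y * D e y) s w :=
    cm_add h.c11 (h.eH k e) ((h.eD k).mul (h.eD e)) s w
  unfold kt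
  rw [e1]
  ring

theorem bquad_kt_nonneg (h : R1.Sm F D B L H T M) (hp : Ps A1 H) (v : ι → ℝ) (s : ℝ)
    (w : ι ⊕ ι → ℝ) : 0 ≤ ∑ k ∈ A1, ∑ e ∈ A1, v k * v e * kt A0 a b c x F D H k e s w := by
  rw [bquad_kt h]
  have h1 := cm_nonneg (A0 := A0) (a := a) (b := b) (c := c) (x := x) h.c11 (eg_qH h v)
    (hp v) s w
  have h2 := cm_sq_le (A0 := A0) (a := a) (b := b) (c := c) (x := x) h.c11
    (eg_lD (A0 := A1) h v) s w
  linarith

theorem bquad_kt_le (h : R1.Sm F D B L H T M) (hp : Ps A1 H) (hx1 : x ≤ 1)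
    (v : ι → ℝ) (s : ℝ) (w : ι ⊕ ι → ℝ) :
    x * ∑ k ∈ A1, ∑ e ∈ A1, v k * v e * kt A0 a b c x F D H k e s w ≤
      ∑ k ∈ A1, ∑ e ∈ A1, v k * v e * hs A0 a b c x F D H k e s w := by
  rw [bquad_kt h, bquad_hs h]
  have h1 := cm_nonneg (A0 := A0) (a := a) (b := b) (c := c) (x := x) h.c11 (eg_qH h v)
    (hp v) s w
  nlinarith [mul_le_of_le_one_left h1 hx1]

/-- **The Frobenius norms on a block.** -/
theorem bfrob_kt_le (h : R1.Sm F D B L H T M) (hp : Ps A1 H) (hx : 0 ≤ x) (hx1 : x ≤ 1)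
    (s : ℝ) (w : ι ⊕ ι → ℝ) :
    x ^ 2 * ∑ k ∈ A1, ∑ e ∈ A1, kt A0 a b c x F D H k e s w ^ 2 ≤
      ∑ k ∈ A1, ∑ e ∈ A1, hs A0 a b c x F D H k e s w ^ 2 := by
  have h1 := frob_mono' (A := A1) (K := fun k e => x * kt A0 a b c x F D H k e s w)
    (H := fun k e => hs A0 a b c x F D H k e s w)
    (fun k e => by rw [kt_symm h]) (fun k e => hs_symm h k e w) (fun v => ?_) fun v => ?_
  · refine le_trans (le_of_eq ?_) h1
    rw [Finset.mul_sum]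
    refine Finset.sum_congr rfl fun k _ => ?_
    rw [Finset.mul_sum]
    exact Finset.sum_congr rfl fun e _ => by ring
  · have h2 := mul_nonneg hx (bquad_kt_nonneg (A0 := A0) (a := a) (b := b) (c := c) (x := x)
      h hp v s w)
    refine h2.trans (le_of_eq ?_)
    rw [Finset.mul_sum]
    refine Finset.sum_congr rfl fun k _ => ?_
    rw [Finset.mul_sum]
    exact Finset.sum_congr rfl fun e _ => by ring
  · refine le_trans (le_of_eq ?_) (bquad_kt_le (A0 := A0) (a := a) (b := b) (c := c)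
      h hp hx1 v s w)
    rw [Finset.mul_sum]
    refine Finset.sum_congr rfl fun k _ => ?_
    rw [Finset.mul_sum]
    exact Finset.sum_congr rfl fun e _ => by ring

/-- the weighted mean of `∑_{A1} kt²` at the share `s` (not normalised) -/
noncomputable def Kb (A0 A1 : Finset ι) (a b c : ι → ℝ) (x : ℝ) (F : (ι → ℝ) → ℝ)
    (D : ι → (ι → ℝ) → ℝ) (H : ι → ι → (ι → ℝ) → ℝ) (Y : (ι ⊕ ι → ℝ) → ℝ) (s : ℝ) : ℝ :=
  ∫ w, zd A0 a b c x F s w * (Y w * ∑ k ∈ A1, ∑ e ∈ A1, kt A0 a b c x F D H k e s w ^ 2)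
    ∂(gI (ι ⊕ ι))

/-- the weighted mean of `∑_{A1 × A0} hs²` at the share `s` (not normalised) -/
noncomputable def Hb (A0 A1 : Finset ι) (a b c : ι → ℝ) (x : ℝ) (F : (ι → ℝ) → ℝ)
    (D : ι → (ι → ℝ) → ℝ) (H : ι → ι → (ι → ℝ) → ℝ) (Y : (ι ⊕ ι → ℝ) → ℝ) (s : ℝ) : ℝ :=
  ∫ w, zd A0 a b c x F s w * (Y w * ∑ k ∈ A1, ∑ e ∈ A0, hs A0 a b c x F D H k e s w ^ 2)
    ∂(gI (ι ⊕ ι))

/-- the weighted mean of `∑_{A1} (cm (D k))²` at the share `s` (not normalised) -/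
noncomputable def Qb (A0 A1 : Finset ι) (a b c : ι → ℝ) (x : ℝ) (F : (ι → ℝ) → ℝ)
    (D : ι → (ι → ℝ) → ℝ) (Y : (ι ⊕ ι → ℝ) → ℝ) (s : ℝ) : ℝ :=
  ∫ w, zd A0 a b c x F s w * (Y w * ∑ k ∈ A1, cm A0 a b c x F (D k) s w ^ 2) ∂(gI (ι ⊕ ι))

lemma ge_Kb (h : R1.Sm F D B L H T M) (hx : 0 ≤ x) (A0 A1 : Finset ι) (a b c : ι → ℝ)
    (hY : EG Y) : GE fun s w => zd A0 a b c x F s w *
      (Y w * ∑ k ∈ A1, ∑ e ∈ A1, kt A0 a b c x F D H k e s w ^ 2) :=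
  (ge_zd h hx A0 a b c).mul ((GE.of_eg hY).mul (GE.sum A1 fun k _ => GE.sum A1 fun e _ =>
    (ge_kt h hx A0 a b c k e).pow 2))

lemma ge_Hb (h : R1.Sm F D B L H T M) (hx : 0 ≤ x) (A0 A1 : Finset ι) (a b c : ι → ℝ)
    (hY : EG Y) : GE fun s w => zd A0 a b c x F s w *
      (Y w * ∑ k ∈ A1, ∑ e ∈ A0, hs A0 a b c x F D H k e s w ^ 2) :=
  (ge_zd h hx A0 a b c).mul ((GE.of_eg hY).mul (GE.sum A1 fun k _ => GE.sum A0 fun e _ =>
    (ge_dcm h.c11 h.cF (h.cD k) hx A0 a b c e).pow 2))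

lemma cont_Kb (h : R1.Sm F D B L H T M) (hx : 0 ≤ x) (A0 A1 : Finset ι) (a b c : ι → ℝ)
    (hY : EG Y) : ContinuousOn (Kb A0 A1 a b c x F D H Y) (Set.Icc 0 1) :=
  (ge_Kb h hx A0 A1 a b c hY).continuousOn

lemma cont_Hb (h : R1.Sm F D B L H T M) (hx : 0 ≤ x) (A0 A1 : Finset ι) (a b c : ι → ℝ)
    (hY : EG Y) : ContinuousOn (Hb A0 A1 a b c x F D H Y) (Set.Icc 0 1) :=
  (ge_Hb h hx A0 A1 a b c hY).continuousOn

/-- the window identity for a block -/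
theorem bwindow_hs (h : R1.Sm F D B L H T M) (hx : 0 ≤ x) (A0 A1 : Finset ι) (a b c : ι → ℝ)
    (hY : EG Y) (hYi : ∀ e ∈ A0, ∀ w t, Y (Function.update w (Sum.inl e) t) = Y w)
    {s0 s1 : ℝ} (h0 : 0 ≤ s0) (h01 : s0 ≤ s1) (h1 : s1 ≤ 1) :
    ∫ s in s0..s1, Hb A0 A1 a b c x F D H Y s =
      Qb A0 A1 a b c x F D Y s1 - Qb A0 A1 a b c x F D Y s0 :=
  ftc_sq h.c11 h.cF A1 (fun k _ => h.cD k) hx A0 a b c hY hYi h0 h01 h1

lemma Kb_nonneg (h : R1.Sm F D B L H T M) (hY0 : ∀ w, 0 ≤ Y w) (s : ℝ) :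
    0 ≤ Kb A0 A1 a b c x F D H Y s :=
  integral_nonneg fun w => mul_nonneg (zd_pos h.c11 x s w).le
    (mul_nonneg (hY0 w) (Finset.sum_nonneg fun _ _ => Finset.sum_nonneg fun _ _ => sq_nonneg _))

lemma Qb_nonneg (h : R1.Sm F D B L H T M) (hY0 : ∀ w, 0 ≤ Y w) (s : ℝ) :
    0 ≤ Qb A0 A1 a b c x F D Y s :=
  integral_nonneg fun w => mul_nonneg (zd_pos h.c11 x s w).le
    (mul_nonneg (hY0 w) (Finset.sum_nonneg fun _ _ => sq_nonneg _))

lemma Kb_le_Hb (h : R1.Sm F D B L H T M) (hA : A1 ⊆ A0) (hp : Ps A1 H) (hx : 0 ≤ x)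
    (hx1 : x ≤ 1) (hY : EG Y) (hY0 : ∀ w, 0 ≤ Y w) {s : ℝ} (hsI : s ∈ Set.Icc (0 : ℝ) 1) :
    x ^ 2 * Kb A0 A1 a b c x F D H Y s ≤ Hb A0 A1 a b c x F D H Y s := by
  unfold Kb Hb
  rw [← integral_const_mul]
  refine integral_mono (((ge_Kb h hx A0 A1 a b c hY).eg hsI).integrable.const_mul (x ^ 2))
    ((ge_Hb h hx A0 A1 a b c hY).eg hsI).integrable fun w => ?_
  have h1 := bfrob_kt_le (A0 := A0) (a := a) (b := b) (c := c) h hp hx hx1 s w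
  have h1' : ∑ k ∈ A1, ∑ e ∈ A1, hs A0 a b c x F D H k e s w ^ 2 ≤
      ∑ k ∈ A1, ∑ e ∈ A0, hs A0 a b c x F D H k e s w ^ 2 :=
    Finset.sum_le_sum fun k _ => Finset.sum_le_sum_of_subset_of_nonneg hA
      fun _ _ _ => sq_nonneg _
  have h2 : 0 ≤ zd A0 a b c x F s w * Y w := mul_nonneg (zd_pos h.c11 x s w).le (hY0 w)
  have h3 := mul_le_mul_of_nonneg_left (h1.trans h1') h2
  show x ^ 2 * (zd A0 a b c x F s w * (Y w * ∑ k ∈ A1, ∑ e ∈ A1,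
    kt A0 a b c x F D H k e s w ^ 2)) ≤ zd A0 a b c x F s w * (Y w * ∑ k ∈ A1, ∑ e ∈ A0,
    hs A0 a b c x F D H k e s w ^ 2)
  linarith

/-- **BLOCK WINDOW**: `x² ∫ E|kt|²_{A1 × A1} ds ≤ E|m|²_{A1}(s1) - E|m|²_{A1}(s0)` along the window
in which all the coordinates of `A0 ⊇ A1` are moved. -/
theorem bwindow_kt (h : R1.Sm F D B L H T M) (hA : A1 ⊆ A0) (hp : Ps A1 H) (hx : 0 ≤ x)
    (hx1 : x ≤ 1) (a b c : ι → ℝ) (hY : EG Y) (hY0 : ∀ w, 0 ≤ Y w)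
    (hYi : ∀ e ∈ A0, ∀ w t, Y (Function.update w (Sum.inl e) t) = Y w)
    {s0 s1 : ℝ} (h0 : 0 ≤ s0) (h01 : s0 ≤ s1) (h1 : s1 ≤ 1) :
    x ^ 2 * ∫ s in s0..s1, Kb A0 A1 a b c x F D H Y s ≤
      Qb A0 A1 a b c x F D Y s1 - Qb A0 A1 a b c x F D Y s0 := by
  rw [← bwindow_hs h hx A0 A1 a b c hY hYi h0 h01 h1, ← intervalIntegral.integral_const_mul]
  have hsub : Set.uIcc s0 s1 ⊆ Set.Icc (0 : ℝ) 1 := by
    rw [Set.uIcc_of_le h01]
    exact Set.Icc_subset_Icc h0 h1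
  refine intervalIntegral.integral_mono_on h01
    (((cont_Kb h hx A0 A1 a b c hY).mono hsub).intervalIntegrable.const_mul _)
    ((cont_Hb h hx A0 A1 a b c hY).mono hsub).intervalIntegrable fun s hs => ?_
  exact Kb_le_Hb h hA hp hx hx1 hY hY0 ⟨h0.trans hs.1, hs.2.trans h1⟩

/-- the means of `∑_{A1} (cm (D k))²` increase with the share -/
lemma Qb_mono (h : R1.Sm F D B L H T M) (hx : 0 ≤ x) (a b c : ι → ℝ) (hY : EG Y)
    (hY0 : ∀ w, 0 ≤ Y w) (hYi : ∀ e ∈ A0, ∀ w t, Y (Function.update w (Sum.inl e) t) = Y w)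
    {s0 s1 : ℝ} (h0 : 0 ≤ s0) (h01 : s0 ≤ s1) (h1 : s1 ≤ 1) :
    Qb A0 A1 a b c x F D Y s0 ≤ Qb A0 A1 a b c x F D Y s1 := by
  have h2 := bwindow_hs h hx A0 A1 a b c hY hYi h0 h01 h1
  have h3 : 0 ≤ ∫ s in s0..s1, Hb A0 A1 a b c x F D H Y s :=
    intervalIntegral.integral_nonneg h01 fun s _ => integral_nonneg fun w =>
      mul_nonneg (zd_pos h.c11 x s w).le (mul_nonneg (hY0 w) (Finset.sum_nonneg fun _ _ =>
        Finset.sum_nonneg fun _ _ => sq_nonneg _))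
  linarith

/-- **ONE SHARE FOR SEVERAL BLOCKS AND WEIGHTS**: finitely many pairs (block, weight). -/
theorem joint (h : R1.Sm F D B L H T M) {J : Type*} (S : Finset J) {Aj : J → Finset ι}
    {Yj : J → (ι ⊕ ι → ℝ) → ℝ} (hA : ∀ j ∈ S, Aj j ⊆ A0) (hp : ∀ j ∈ S, Ps (Aj j) H)
    (hx : 0 < x) (hx1 : x ≤ 1) (a b c : ι → ℝ) (hY : ∀ j ∈ S, EG (Yj j))
    (hY0 : ∀ j ∈ S, ∀ w, 0 ≤ Yj j w)
    (hYi : ∀ j ∈ S, ∀ e ∈ A0, ∀ w t, Yj j (Function.update w (Sum.inl e) t) = Yj j w)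
    {s0 s1 : ℝ} (h0 : 0 ≤ s0) (h01 : s0 < s1) (h1 : s1 ≤ 1) {δ : ℝ} (hδ : 0 < δ) :
    ∃ s ∈ Set.Icc s0 s1, ∀ j ∈ S, x ^ 2 * (s1 - s0) * Kb A0 (Aj j) a b c x F D H (Yj j) s ≤
      S.card * (Qb A0 (Aj j) a b c x F D (Yj j) s1 + δ) := by
  have hx2 : 0 < x ^ 2 := pow_pos hx 2
  have hi : ∀ j ∈ S, ∫ s in s0..s1, x ^ 2 * Kb A0 (Aj j) a b c x F D H (Yj j) s ≤
      Qb A0 (Aj j) a b c x F D (Yj j) s1 + δ := by
    intro j hj
    rw [intervalIntegral.integral_const_mul]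
    have h3 := bwindow_kt h (hA j hj) (hp j hj) hx.le hx1 a b c (hY j hj) (hY0 j hj)
      (hYi j hj) h0 h01.le h1
    have h4 := Qb_nonneg (A0 := A0) (A1 := Aj j) (a := a) (b := b) (c := c) (x := x) h
      (hY0 j hj) s0
    linarith
  obtain ⟨s, hs, h2⟩ := pick S
    (f := fun j s => x ^ 2 * Kb A0 (Aj j) a b c x F D H (Yj j) s)
    (t := fun j => Qb A0 (Aj j) a b c x F D (Yj j) s1 + δ) h01
    (fun j hj => continuousOn_const.mul ((cont_Kb h hx.le A0 (Aj j) a b c (hY j hj)).mono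
      (Set.Icc_subset_Icc h0 h1)))
    (fun j hj s _ => mul_nonneg hx2.le (Kb_nonneg h (hY0 j hj) s))
    (fun j hj => add_pos_of_nonneg_of_pos (Qb_nonneg h (hY0 j hj) s1) hδ) hi
  refine ⟨s, hs, fun j hj => ?_⟩
  have h3 : (s1 - s0) * (x ^ 2 * Kb A0 (Aj j) a b c x F D H (Yj j) s) ≤
      S.card * (Qb A0 (Aj j) a b c x F D (Yj j) s1 + δ) := h2 j hj
  refine le_trans (le_of_eq ?_) h3
  ring

end Vale.Agent.P146.H118
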