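import Vale.Agent.P146.H118.Joint
import Vale.Agent.P146.H246.RankEx
import Vale.Agent.P146.H196.Gibm

/-!
The window theorem for an arbitrary path of shares. The base system is a Gibbs system `GM μ S M0`
with one coordinate `e : ι` per bond or field; the share of the coordinate `e` which is revealed is
`qr q0 q1 s e = q0 e + s (q1 e - q0 e)`. A system with levels is given by `p : κ → ι` and
`c : κ → ℝ`, its energies are `Sl p c S j = c j S (p j)`, and the revealed share of `e` for the set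
`K` of frozen coordinates is `vf p (re K c) e` (see `H246.Transfer`).
-/

open MeasureTheory ProbabilityTheory Filter Topology

namespace Vale.Agent.P146.H118

open Vale.Agent.P157.Lv Vale.Agent.P146.H425 Vale.Agent.P146.H332 Vale.Agent.P146.H246
open Vale.Agent.P146.H196 Vale.Agent.P146.H646
open Vale.Agent.P146.H325 (Tc)

set_option linter.unusedSectionVars false

/-! ### systems with levels -/

section level

variable {κ ι : Type} [Fintype κ] [DecidableEq κ] [Fintype ι] [DecidableEq ι]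
  {Ω : Type} [MeasurableSpace Ω]

/-- the energies of the system with levels -/
def Sl (p : κ → ι) (c : κ → ℝ) (S : ι → Ω → ℝ) : κ → Ω → ℝ := fun j w => c j * S (p j) w

variable {μ : Measure Ω} {k : ℝ} {S : ι → Ω → ℝ} {M0 : ℝ} {p : κ → ι} {c : κ → ℝ}

lemma ezm_Sl (k : ℝ) (S : ι → Ω → ℝ) (z : κ → ℝ) (w : Ω) :
    ezm k (Sl p c S) z w = ezm k S (lf p c z) w := by
  unfold ezm Sl lf
  congr 2
  rw [sum_fib p (fun e => S e w) fun j => c j * z j]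
  exact Finset.sum_congr rfl fun j _ => by ring

lemma Zm_Sl (μ : Measure Ω) (k : ℝ) (S : ι → Ω → ℝ) (z : κ → ℝ) :
    Zm μ k (Sl p c S) z = Zm μ k S (lf p c z) := by
  unfold Zm
  simp only [ezm_Sl]

lemma avm_Sl (μ : Measure Ω) (k : ℝ) (S : ι → Ω → ℝ) (h : Ω → ℝ) (z : κ → ℝ) :
    avm μ k (Sl p c S) h z = avm μ k S h (lf p c z) := by
  unfold avm
  rw [Zm_Sl]
  simp only [ezm_Sl]

lemma lzm_Sl (μ : Measure Ω) (k : ℝ) (S : ι → Ω → ℝ) (z : κ → ℝ) :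
    lzm μ k (Sl p c S) z = lzm μ k S (lf p c z) := by
  unfold lzm
  rw [Zm_Sl]

lemma Zxm_Sl (μ : Measure Ω) (k x : ℝ) (S : ι → Ω → ℝ) :
    Zxm μ k (Sl p c S) x = fun z => Real.exp (x * lzm μ k S (lf p c z)) := by
  funext z
  unfold Zxm
  rw [lzm_Sl]

lemma gm_Sl (hG : GM μ S M0) (p : κ → ι) {c : κ → ℝ} {C : ℝ} (hC : 0 ≤ C)
    (hc : ∀ j, |c j| ≤ C) : GM μ (Sl p c S) (C * M0) where
  fin := hG.fin
  ne := hG.ne
  pos := mul_nonneg hC hG.pos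
  meas j := (hG.meas (p j)).const_mul (c j)
  bd j w := by
    unfold Sl
    rw [abs_mul]
    exact mul_le_mul (hc j) (hG.bd (p j) w) (abs_nonneg _) hC

lemma Dm_Sl (μ : Measure Ω) (k : ℝ) (S : ι → Ω → ℝ) (j : κ) (z : κ → ℝ) :
    Dm μ k (Sl p c S) j z = c j * Dm μ k S (p j) (lf p c z) := by
  unfold Dm
  have e1 : Sl p c S j = fun w => c j * S (p j) w := rfl
  rw [avm_Sl, e1, av_mul]
  ring

/-- the second moments of the slopes of a Gibbs system -/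
lemma sm_gm (μ : Measure Ω) (k : ℝ) (S : ι → Ω → ℝ) (e i : ι) (u : ι → ℝ) :
    sm (Dm μ k S) (Hm μ k S) e i u = k ^ 2 * avm μ k S (fun w => S e w * S i w) u := by
  unfold sm Hm Dm
  ring

lemma sm_Sl (μ : Measure Ω) (k : ℝ) (S : ι → Ω → ℝ) (j i : κ) (z : κ → ℝ) :
    sm (Dm μ k (Sl p c S)) (Hm μ k (Sl p c S)) j i z =
      c j * c i * sm (Dm μ k S) (Hm μ k S) (p j) (p i) (lf p c z) := by
  rw [sm_gm, sm_gm, avm_Sl]
  have e1 : (fun w => Sl p c S j w * Sl p c S i w) =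
      fun w => c j * c i * (S (p j) w * S (p i) w) := by
    funext w
    unfold Sl
    ring
  rw [e1, av_mul]
  ring

end level

/-! ### the base functional -/

section base

variable {κ ι : Type} [Fintype κ] [DecidableEq κ] [Fintype ι] [DecidableEq ι]
variable {F : (ι → ℝ) → ℝ} {D : ι → (ι → ℝ) → ℝ} {B L x M : ℝ} {H T : ι → ι → (ι → ℝ) → ℝ}
  {p : κ → ι} {c : κ → ℝ} {K : Finset κ} {q : ι → ℝ}

/-- the mean of a function of the position when the share `q e` of the coordinate `e` is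
revealed (not normalised) -/
noncomputable def MB (x : ℝ) (F : (ι → ℝ) → ℝ) (q : ι → ℝ) (Φ : (ι → ℝ) → ℝ) : ℝ :=
  ∫ y, Tc (fun e => 1 - q e) (We x F) (fun e => √(q e) * y e) * Φ (fun e => √(q e) * y e) ∂(gI ι)

/-- A system with levels and a set of frozen coordinates with the revealed shares `q`. -/
structure Lv (p : κ → ι) (c : κ → ℝ) (K : Finset κ) (q : ι → ℝ) : Prop where
  one : ∀ e, vf p c e = 1
  rev : ∀ e, vf p (re K c) e = q e

lemma Lv.hid (hz : Lv p c K q) : vf p (co K c) = fun e => 1 - q e := by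
  funext e
  have h1 := vf_split p c K e
  rw [hz.one, hz.rev e] at h1
  linarith

lemma Lv.rev' (hz : Lv p c K q) : vf p (re K c) = q := funext hz.rev

/-- **Means of functions of the position in a system with levels.** -/
theorem Lv.el_eq (hz : Lv p c K q) (h : C11 F D B L) {Φ : (ι → ℝ) → ℝ} (hΦ : EG Φ) :
    el p c x F (fun z => Φ (lf p (re K c) z)) = MB x F q Φ / Z0 x F := by
  unfold el ex
  congr 1
  · have h1 := int_pos (p := p) (c := c) (K := K) (eg_We h x) hΦ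
    rw [hz.hid, hz.rev'] at h1
    exact h1
  · exact int_We h x hz.one

/-- Two systems with levels with the same revealed shares have the same means. -/
theorem Lv.el_congr {κ' : Type} [Fintype κ'] [DecidableEq κ'] {p' : κ' → ι} {c' : κ' → ℝ}
    {K' : Finset κ'} (hz : Lv p c K q) (hz' : Lv p' c' K' q) (h : C11 F D B L)
    {Φ : (ι → ℝ) → ℝ} (hΦ : EG Φ) :
    el p c x F (fun z => Φ (lf p (re K c) z)) =
      el p' c' x F (fun z => Φ (lf p' (re K' c') z)) := by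
  rw [hz.el_eq h hΦ, hz'.el_eq h hΦ]

lemma Lv.cl_eq (hz : Lv p c K q) (h : C11 F D B L) {φ : (ι → ℝ) → ℝ} (hφ : Measurable φ)
    (z : κ → ℝ) : cl p c K x F φ z = cT (fun e => 1 - q e) (We x F) φ (lf p (re K c) z) := by
  rw [H246.cl_eq h hφ, hz.hid]

/-- the mean of `∑ δ δ kT²` over the block `A1` (not normalised) -/
noncomputable def Kv (x : ℝ) (F : (ι → ℝ) → ℝ) (D : ι → (ι → ℝ) → ℝ)
    (H : ι → ι → (ι → ℝ) → ℝ) (A1 : Finset ι) (δ : ι → ℝ) (Y : (ι → ℝ) → ℝ) (q : ι → ℝ) : ℝ :=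
  MB x F q fun y => Y y * ∑ k ∈ A1, ∑ e ∈ A1, δ k * δ e * kT (fun e => 1 - q e) x F D H k e y ^ 2

/-- the mean of `∑ δ (cT D)²` over the block `A1` (not normalised) -/
noncomputable def Qv (x : ℝ) (F : (ι → ℝ) → ℝ) (D : ι → (ι → ℝ) → ℝ)
    (A1 : Finset ι) (δ : ι → ℝ) (Y : (ι → ℝ) → ℝ) (q : ι → ℝ) : ℝ :=
  MB x F q fun y => Y y * ∑ k ∈ A1, δ k * cT (fun e => 1 - q e) (We x F) (D k) y ^ 2

lemma eg_Kv (h : R1.Sm F D B L H T M) {Y : (ι → ℝ) → ℝ} (hY : EG Y) (A1 : Finset ι)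
    (δ q : ι → ℝ) : EG fun y => Y y * ∑ k ∈ A1, ∑ e ∈ A1, δ k * δ e *
      kT (fun e => 1 - q e) x F D H k e y ^ 2 :=
  hY.mul (EG.sum _ fun k _ => EG.sum _ fun e _ => ((eg_kT h _ k e).pow 2).const_mul _)

lemma eg_Qv (h : R1.Sm F D B L H T M) {Y : (ι → ℝ) → ℝ} (hY : EG Y) (A1 : Finset ι)
    (δ q : ι → ℝ) : EG fun y => Y y * ∑ k ∈ A1, δ k *
      cT (fun e => 1 - q e) (We x F) (D k) y ^ 2 :=
  hY.mul (EG.sum _ fun k _ => ((eg_cT h.c11 (h.eD k) (h.c11.bd k) _).pow 2).const_mul _)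

/-- `Kv` in a system with levels -/
theorem Lv.ex_kv (hz : Lv p c K q) (h : R1.Sm F D B L H T M) {Y : (ι → ℝ) → ℝ} (hY : EG Y)
    (A1 : Finset ι) (δ : ι → ℝ) :
    el p c x F (fun z => Y (lf p (re K c) z) *
        ∑ k ∈ A1, ∑ e ∈ A1, δ k * δ e * kl p c K x F D H k e z ^ 2) =
      Kv x F D H A1 δ Y q / Z0 x F := by
  have e1 : (fun z => Y (lf p (re K c) z) *
      ∑ k ∈ A1, ∑ e ∈ A1, δ k * δ e * kl p c K x F D H k e z ^ 2) =
      fun z => (fun y => Y y * ∑ k ∈ A1, ∑ e ∈ A1, δ k * δ e *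
        kT (fun e => 1 - q e) x F D H k e y ^ 2) (lf p (re K c) z) := by
    funext z
    simp only [kl_eq h, hz.hid]
  rw [e1, hz.el_eq h.c11 (eg_Kv h hY A1 δ q)]
  rfl

/-- `Qv` in a system with levels -/
theorem Lv.ex_qv (hz : Lv p c K q) (h : R1.Sm F D B L H T M) {Y : (ι → ℝ) → ℝ} (hY : EG Y)
    (A1 : Finset ι) (δ : ι → ℝ) :
    el p c x F (fun z => Y (lf p (re K c) z) * ∑ k ∈ A1, δ k * cl p c K x F (D k) z ^ 2) =
      Qv x F D A1 δ Y q / Z0 x F := by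
  have e1 : (fun z => Y (lf p (re K c) z) * ∑ k ∈ A1, δ k * cl p c K x F (D k) z ^ 2) =
      fun z => (fun y => Y y * ∑ k ∈ A1, δ k * cT (fun e => 1 - q e) (We x F) (D k) y ^ 2)
        (lf p (re K c) z) := by
    funext z
    simp only [hz.cl_eq h.c11 (h.eD _).meas]
  rw [e1, hz.el_eq h.c11 (eg_Qv h hY A1 δ q)]
  rfl

end base

/-! ### the path of shares -/

section path

variable {ι : Type} [Fintype ι] [DecidableEq ι]

/-- the shares along the path -/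
def qr (q0 q1 : ι → ℝ) (s : ℝ) : ι → ℝ := fun e => q0 e + s * (q1 e - q0 e)

/-- the coefficients of the three levels: revealed, moved, hidden -/
noncomputable def c3 (q0 q1 : ι → ℝ) : ι × Fin 3 → ℝ := fun j =>
  if j.2 = 0 then √(q0 j.1) else if j.2 = 1 then √(q1 j.1 - q0 j.1) else √(1 - q1 j.1)

/-- the moved coordinates -/
def A3 (ι : Type) [Fintype ι] [DecidableEq ι] : Finset (ι × Fin 3) := {j | j.2 = 1}

/-- the position of the coordinates which are not moved -/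
noncomputable def a3 : ι × Fin 3 → ℝ := fun j => if j.2 = 0 then 1 else 0

/-- the noise of the coordinates which are not moved -/
noncomputable def n3 : ι × Fin 3 → ℝ := fun j => if j.2 = 2 then 1 else 0

lemma mem_A3 {j : ι × Fin 3} : j ∈ A3 ι ↔ j.2 = 1 := by
  unfold A3
  simp

lemma sum_fst (f : ι × Fin 3 → ℝ) (e : ι) :
    ∑ j with j.1 = e, f j = f (e, 0) + f (e, 1) + f (e, 2) := by
  rw [Finset.sum_filter, Fintype.sum_prod_type, Finset.sum_eq_single e]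
  · rw [Fin.sum_univ_three]
    simp
  · intro b _ hb
    simp [hb]
  · intro h
    exact absurd (Finset.mem_univ e) h

/-- the coefficients of the position -/
noncomputable def cu (q0 q1 : ι → ℝ) (s : ℝ) : ι × Fin 3 → ℝ := fun j =>
  c3 q0 q1 j * (if j ∈ A3 ι then √s else a3 j)

/-- the coefficients of the noise -/
noncomputable def cn (q0 q1 : ι → ℝ) (s : ℝ) : ι × Fin 3 → ℝ := fun j =>
  c3 q0 q1 j * (if j ∈ A3 ι then √(1 - s) else n3 j)

/-- the position -/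
noncomputable def ps (q0 q1 : ι → ℝ) (s : ℝ) (v : (ι × Fin 3) ⊕ (ι × Fin 3) → ℝ) : ι → ℝ :=
  lf Prod.fst (cu q0 q1 s) (fun j => v (Sum.inl j))

variable {q0 q1 : ι → ℝ} (h0 : ∀ e, 0 ≤ q0 e) (h01 : ∀ e, q0 e ≤ q1 e) (h1 : ∀ e, q1 e ≤ 1)

lemma lf_cu (s : ℝ) (v : ι × Fin 3 → ℝ) (e : ι) : lf Prod.fst (cu q0 q1 s) v e =
    √(q0 e) * v (e, 0) + √(q1 e - q0 e) * √s * v (e, 1) := by
  unfold lf
  rw [sum_fst]
  simp [cu, c3, a3, mem_A3]

include h0 h01 in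
lemma vf_cu {s : ℝ} (hs : 0 ≤ s) : vf Prod.fst (cu q0 q1 s) = qr q0 q1 s := by
  funext e
  unfold vf
  rw [sum_fst]
  have e1 : √(q0 e) ^ 2 = q0 e := Real.sq_sqrt (h0 e)
  have e2 : √(q1 e - q0 e) ^ 2 = q1 e - q0 e := Real.sq_sqrt (by linarith [h01 e])
  have e3 : √s ^ 2 = s := Real.sq_sqrt hs
  simp [cu, c3, a3, mem_A3, mul_pow, e1, e2, e3, qr]
  ring

include h01 h1 in
lemma vf_cn {s : ℝ} (hs : s ≤ 1) : vf Prod.fst (cn q0 q1 s) = fun e => 1 - qr q0 q1 s e := by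
  funext e
  unfold vf
  rw [sum_fst]
  have e1 : √(1 - q1 e) ^ 2 = 1 - q1 e := Real.sq_sqrt (by linarith [h1 e])
  have e2 : √(q1 e - q0 e) ^ 2 = q1 e - q0 e := Real.sq_sqrt (by linarith [h01 e])
  have e3 : √(1 - s) ^ 2 = 1 - s := Real.sq_sqrt (by linarith)
  simp [cn, c3, n3, mem_A3, mul_pow, e1, e2, e3, qr]
  ring

lemma lf_pt (s : ℝ) (v : (ι × Fin 3) ⊕ (ι × Fin 3) → ℝ) (z : ι × Fin 3 → ℝ) :
    lf Prod.fst (c3 q0 q1) (pt (A3 ι) a3 0 n3 s v z) =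
      fun e => ps q0 q1 s v e + lf Prod.fst (cn q0 q1 s) z e := by
  funext e
  unfold ps lf
  rw [← Finset.sum_add_distrib]
  refine Finset.sum_congr rfl fun j _ => ?_
  unfold pt u cu cn
  by_cases hj : j ∈ A3 ι
  · simp only [if_pos hj]
    ring
  · simp only [if_neg hj, Pi.zero_apply, zero_mul, add_zero]
    ring

include h01 h1 in
/-- the block form of the three-level system -/
lemma P_three {s : ℝ} (hs : s ≤ 1) {G : (ι → ℝ) → ℝ} (hG : Measurable G)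
    (v : (ι × Fin 3) ⊕ (ι × Fin 3) → ℝ) :
    P (A3 ι) a3 0 n3 (fun y => G (lf Prod.fst (c3 q0 q1) y)) s v =
      Tc (fun e => 1 - qr q0 q1 s e) G (ps q0 q1 s v) := by
  unfold P
  simp only [lf_pt]
  have h : Measurable fun y : ι → ℝ => G (fun e => ps q0 q1 s v e + y e) :=
    hG.comp (by fun_prop)
  rw [int_lf Prod.fst (cn q0 q1 s) h, vf_cn h01 h1 hs]
  rfl

include h0 h01 in
/-- functions of the position of the three-level system -/
lemma int_three {s : ℝ} (hs : 0 ≤ s) {G : (ι → ℝ) → ℝ} (hG : EG G) :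
    ∫ v, G (ps q0 q1 s v) ∂(gI ((ι × Fin 3) ⊕ (ι × Fin 3))) =
      ∫ y, G (fun e => √(qr q0 q1 s e) * y e) ∂(gI ι) := by
  have e1 : EG fun z : ι × Fin 3 → ℝ => G (lf Prod.fst (cu q0 q1 s) z) :=
    eg_lf hG Prod.fst (cu q0 q1 s)
  have e2 := int_inl e1
  have e3 := int_lf Prod.fst (cu q0 q1 s) hG.meas
  rw [vf_cu h0 h01 hs] at e3
  rw [← e3, ← e2]
  rfl

variable {F : (ι → ℝ) → ℝ} {D : ι → (ι → ℝ) → ℝ} {B L x : ℝ} {φ : (ι → ℝ) → ℝ}

include h01 h1 in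
lemma zd_three (h : C11 F D B L) {s : ℝ} (hs : s ≤ 1) (v : (ι × Fin 3) ⊕ (ι × Fin 3) → ℝ) :
    zd (A3 ι) a3 0 n3 x (fun y => F (lf Prod.fst (c3 q0 q1) y)) s v =
      Tc (fun e => 1 - qr q0 q1 s e) (We x F) (ps q0 q1 s v) :=
  P_three h01 h1 hs (eg_We h x).meas v

include h01 h1 in
lemma cm_three (h : C11 F D B L) (hφ : EG φ) {s : ℝ} (hs : s ≤ 1)
    (v : (ι × Fin 3) ⊕ (ι × Fin 3) → ℝ) :
    cm (A3 ι) a3 0 n3 x (fun y => F (lf Prod.fst (c3 q0 q1) y))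
      (fun y => φ (lf Prod.fst (c3 q0 q1) y)) s v =
      cT (fun e => 1 - qr q0 q1 s e) (We x F) φ (ps q0 q1 s v) := by
  unfold cm cT
  rw [zd_three h01 h1 h hs, ← div_eq_mul_inv]
  congr 1
  exact P_three (G := fun y => We x F y * φ y) h01 h1 hs
    ((eg_We h x).meas.mul hφ.meas) v

include h01 in
/-- the weight of the coordinates which are not moved -/
lemma Y_three {Y : (ι → ℝ) → ℝ}
    (hY : ∀ e, q0 e < q1 e → ∀ y t, Y (Function.update y e t) = Y y) (s : ℝ)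
    (v : (ι × Fin 3) ⊕ (ι × Fin 3) → ℝ) :
    Y (fun e => √(q0 e) * v (Sum.inl (e, 0))) = Y (ps q0 q1 s v) := by
  set A : Finset ι := {e | q0 e < q1 e} with hA
  have h2 := mg_indep (A := A) (φ := Y) (fun e he => hY e (by simpa [hA] using he))
    (ps q0 q1 s v) (fun e => √(q0 e) * v (Sum.inl (e, 0)))
  rw [← h2]
  congr 1
  funext e
  unfold mg
  by_cases he : e ∈ A
  · rw [if_pos he]
  · rw [if_neg he]
    have h3 : ¬ q0 e < q1 e := by simpa [hA] using he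
    have h4 : q1 e - q0 e = 0 := by linarith [h01 e, not_lt.1 h3]
    unfold ps
    rw [lf_cu, h4, Real.sqrt_zero]
    ring

/-- the block of the moved coordinates over `A1` -/
def up (A1 : Finset ι) : Finset (ι × Fin 3) := A1.map ⟨fun e => (e, 1), fun _ _ h => (Prod.mk.inj h).1⟩

lemma up_sub (A1 : Finset ι) : up A1 ⊆ A3 ι := by
  intro j hj
  obtain ⟨e, -, rfl⟩ := Finset.mem_map.1 hj
  exact mem_A3.2 rfl

lemma sum_up {α : Type*} [AddCommMonoid α] (A1 : Finset ι) (f : ι × Fin 3 → α) :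
    ∑ j ∈ up A1, f j = ∑ e ∈ A1, f (e, 1) := by
  unfold up
  rw [Finset.sum_map]
  rfl

section gm

variable {Ω : Type} [MeasurableSpace Ω] {μ : Measure Ω} {k M0 : ℝ} {S : ι → Ω → ℝ}

include h0 h01 h1 in
lemma c3_le (j : ι × Fin 3) : |c3 q0 q1 j| ≤ 1 := by
  have h2 := h0 j.1
  have h3 := h01 j.1
  have h4 := h1 j.1
  unfold c3
  split_ifs
  · rw [abs_of_nonneg (Real.sqrt_nonneg _)]
    exact Real.sqrt_le_one.2 (by linarith)
  · rw [abs_of_nonneg (Real.sqrt_nonneg _)]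
    exact Real.sqrt_le_one.2 (by linarith)
  · rw [abs_of_nonneg (Real.sqrt_nonneg _)]
    exact Real.sqrt_le_one.2 (by linarith)

include h0 h01 h1 in
lemma gm_three (hG : GM μ S M0) : GM μ (Sl Prod.fst (c3 q0 q1) S) (1 * M0) :=
  gm_Sl hG Prod.fst zero_le_one (c3_le h0 h01 h1)

lemma lzm_three (μ : Measure Ω) (k : ℝ) (S : ι → Ω → ℝ) (q0 q1 : ι → ℝ) :
    lzm μ k (Sl Prod.fst (c3 q0 q1) S) = fun y => lzm μ k S (lf Prod.fst (c3 q0 q1) y) :=
  funext fun y => lzm_Sl μ k S y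

lemma c3_one (q0 q1 : ι → ℝ) (e : ι) : c3 q0 q1 (e, 1) = √(q1 e - q0 e) := by
  unfold c3
  simp

include h01 in
lemma c3_one_sq (e : ι) : c3 q0 q1 (e, 1) ^ 2 = q1 e - q0 e := by
  rw [c3_one, Real.sq_sqrt (by linarith [h01 e])]

include h01 h1 in
lemma kt_three (hG : GM μ S M0) (k x : ℝ) {s : ℝ} (hs : s ≤ 1)
    (v : (ι × Fin 3) ⊕ (ι × Fin 3) → ℝ) (e i : ι) :
    kt (A3 ι) a3 0 n3 x (lzm μ k (Sl Prod.fst (c3 q0 q1) S))
      (Dm μ k (Sl Prod.fst (c3 q0 q1) S)) (Hm μ k (Sl Prod.fst (c3 q0 q1) S)) (e, 1) (i, 1) s v =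
      c3 q0 q1 (e, 1) * c3 q0 q1 (i, 1) * kT (fun e => 1 - qr q0 q1 s e) x (lzm μ k S)
        (Dm μ k S) (Hm μ k S) e i (ps q0 q1 s v) := by
  have hs2 := hG.sm k
  have e1 : sm (Dm μ k (Sl Prod.fst (c3 q0 q1) S)) (Hm μ k (Sl Prod.fst (c3 q0 q1) S))
      (e, 1) (i, 1) = fun y => c3 q0 q1 (e, 1) * c3 q0 q1 (i, 1) *
        (fun y => sm (Dm μ k S) (Hm μ k S) e i (lf Prod.fst (c3 q0 q1) y)) y := by
    funext y
    exact sm_Sl μ k S _ _ y
  have e2 : ∀ l : ι, Dm μ k (Sl Prod.fst (c3 q0 q1) S) (l, 1) = fun y => c3 q0 q1 (l, 1) *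
      (fun y => Dm μ k S l (lf Prod.fst (c3 q0 q1) y)) y := by
    intro l
    funext y
    exact Dm_Sl μ k S _ y
  unfold kt kT
  rw [e1, e2, e2, cm_const_mul, cm_const_mul, cm_const_mul, lzm_three,
    cm_three h01 h1 (hG.c11 k) (eg_sm hs2 e i) hs, cm_three h01 h1 (hG.c11 k) (hs2.eD e) hs,
    cm_three h01 h1 (hG.c11 k) (hs2.eD i) hs]
  ring

variable {Y : (ι → ℝ) → ℝ}

include h0 h01 h1 in
/-- `Kb` of the three-level system is `Kv` -/
theorem Kb_three (hG : GM μ S M0) (k x : ℝ) (hYe : EG Y)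
    (hY : ∀ e, q0 e < q1 e → ∀ y t, Y (Function.update y e t) = Y y) (A1 : Finset ι)
    {s : ℝ} (hs0 : 0 ≤ s) (hs : s ≤ 1) :
    Kb (A3 ι) (up A1) a3 0 n3 x (lzm μ k (Sl Prod.fst (c3 q0 q1) S))
      (Dm μ k (Sl Prod.fst (c3 q0 q1) S)) (Hm μ k (Sl Prod.fst (c3 q0 q1) S))
      (fun v => Y (fun e => √(q0 e) * v (Sum.inl (e, 0)))) s =
      Kv x (lzm μ k S) (Dm μ k S) (Hm μ k S) A1 (fun e => q1 e - q0 e) Y (qr q0 q1 s) := by
  unfold Kb Kv MB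
  simp only [sum_up, kt_three h01 h1 hG k x hs, Y_three h01 hY s, mul_pow, c3_one_sq h01]
  have e1 : ∀ v, zd (A3 ι) a3 0 n3 x (lzm μ k (Sl Prod.fst (c3 q0 q1) S)) s v =
      Tc (fun e => 1 - qr q0 q1 s e) (We x (lzm μ k S)) (ps q0 q1 s v) := by
    intro v
    rw [lzm_three]
    exact zd_three h01 h1 (hG.c11 k) hs v
  simp only [e1]
  exact int_three (G := fun y => Tc (fun e => 1 - qr q0 q1 s e) (We x (lzm μ k S)) y *
    (Y y * ∑ e ∈ A1, ∑ i ∈ A1, (q1 e - q0 e) * (q1 i - q0 i) *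
      kT (fun e => 1 - qr q0 q1 s e) x (lzm μ k S) (Dm μ k S) (Hm μ k S) e i y ^ 2)) h0 h01 hs0
    ((H325.EG.Tc (eg_We (hG.c11 k) x) _).mul (eg_Kv (hG.sm k) hYe A1 _ _))

include h01 h1 in
lemma cD_three (hG : GM μ S M0) (k x : ℝ) {s : ℝ} (hs : s ≤ 1)
    (v : (ι × Fin 3) ⊕ (ι × Fin 3) → ℝ) (e : ι) :
    cm (A3 ι) a3 0 n3 x (lzm μ k (Sl Prod.fst (c3 q0 q1) S))
      (Dm μ k (Sl Prod.fst (c3 q0 q1) S) (e, 1)) s v =
      c3 q0 q1 (e, 1) * cT (fun e => 1 - qr q0 q1 s e) (We x (lzm μ k S)) (Dm μ k S e)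
        (ps q0 q1 s v) := by
  have e2 : Dm μ k (Sl Prod.fst (c3 q0 q1) S) (e, 1) = fun y => c3 q0 q1 (e, 1) *
      (fun y => Dm μ k S e (lf Prod.fst (c3 q0 q1) y)) y := by
    funext y
    exact Dm_Sl μ k S _ y
  rw [e2, cm_const_mul, lzm_three, cm_three h01 h1 (hG.c11 k) ((hG.sm k).eD e) hs]

include h0 h01 h1 in
/-- `Qb` of the three-level system is `Qv` -/
theorem Qb_three (hG : GM μ S M0) (k x : ℝ) (hYe : EG Y)
    (hY : ∀ e, q0 e < q1 e → ∀ y t, Y (Function.update y e t) = Y y) (A1 : Finset ι)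
    {s : ℝ} (hs0 : 0 ≤ s) (hs : s ≤ 1) :
    Qb (A3 ι) (up A1) a3 0 n3 x (lzm μ k (Sl Prod.fst (c3 q0 q1) S))
      (Dm μ k (Sl Prod.fst (c3 q0 q1) S))
      (fun v => Y (fun e => √(q0 e) * v (Sum.inl (e, 0)))) s =
      Qv x (lzm μ k S) (Dm μ k S) A1 (fun e => q1 e - q0 e) Y (qr q0 q1 s) := by
  unfold Qb Qv MB
  simp only [sum_up, cD_three h01 h1 hG k x hs, Y_three h01 hY s, mul_pow, c3_one_sq h01]
  have e1 : ∀ v, zd (A3 ι) a3 0 n3 x (lzm μ k (Sl Prod.fst (c3 q0 q1) S)) s v =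
      Tc (fun e => 1 - qr q0 q1 s e) (We x (lzm μ k S)) (ps q0 q1 s v) := by
    intro v
    rw [lzm_three]
    exact zd_three h01 h1 (hG.c11 k) hs v
  simp only [e1]
  exact int_three (G := fun y => Tc (fun e => 1 - qr q0 q1 s e) (We x (lzm μ k S)) y *
    (Y y * ∑ e ∈ A1, (q1 e - q0 e) *
      cT (fun e => 1 - qr q0 q1 s e) (We x (lzm μ k S)) (Dm μ k S e) y ^ 2)) h0 h01 hs0
    ((H325.EG.Tc (eg_We (hG.c11 k) x) _).mul (eg_Qv (hG.sm k) hYe A1 _ _))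

lemma eg_Y3 (hYe : EG Y) (q0 : ι → ℝ) :
    EG fun v : (ι × Fin 3) ⊕ (ι × Fin 3) → ℝ => Y (fun e => √(q0 e) * v (Sum.inl (e, 0))) := by
  have e1 : EG fun z : ι × Fin 3 → ℝ =>
      Y (lf Prod.fst (fun j : ι × Fin 3 => if j.2 = 0 then √(q0 j.1) else 0) z) :=
    eg_lf hYe _ _
  have e2 : (fun v : (ι × Fin 3) ⊕ (ι × Fin 3) → ℝ =>
      Y (fun e => √(q0 e) * v (Sum.inl (e, 0)))) = fun v =>
      Y (lf Prod.fst (fun j : ι × Fin 3 => if j.2 = 0 then √(q0 j.1) else 0)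
        fun j => v (Sum.inl j)) := by
    funext v
    congr 1
    funext e
    unfold lf
    rw [sum_fst]
    simp
  rw [e2]
  exact eg_inl e1

lemma Y3_upd (j : ι × Fin 3) (hj : j ∈ A3 ι) (v : (ι × Fin 3) ⊕ (ι × Fin 3) → ℝ) (t : ℝ) :
    (fun v : (ι × Fin 3) ⊕ (ι × Fin 3) → ℝ => Y (fun e => √(q0 e) * v (Sum.inl (e, 0))))
      (Function.update v (Sum.inl j) t) =
      (fun v : (ι × Fin 3) ⊕ (ι × Fin 3) → ℝ => Y (fun e => √(q0 e) * v (Sum.inl (e, 0)))) v := by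
  have e1 : ∀ e : ι, Function.update v (Sum.inl j) t (Sum.inl (e, 0)) = v (Sum.inl (e, 0)) := by
    intro e
    refine Function.update_of_ne (fun h => ?_) _ _
    have h2 := Sum.inl.inj h
    have h3 := mem_A3.1 hj
    rw [← h2] at h3
    simp at h3
  simp only [e1]

include h0 h01 h1 in
/-- **THE WINDOW THEOREM FOR A PATH OF SHARES.** -/
theorem windowq (hG : GM μ S M0) (k : ℝ) (hx : 0 ≤ x) (hx1 : x ≤ 1) (hYe : EG Y)
    (hY0 : ∀ y, 0 ≤ Y y)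
    (hY : ∀ e, q0 e < q1 e → ∀ y t, Y (Function.update y e t) = Y y) (A1 : Finset ι)
    {s0 s1 : ℝ} (hs0 : 0 ≤ s0) (hs : s0 ≤ s1) (hs1 : s1 ≤ 1) :
    x ^ 2 * ∫ s in s0..s1, Kv x (lzm μ k S) (Dm μ k S) (Hm μ k S) A1
        (fun e => q1 e - q0 e) Y (qr q0 q1 s) ≤
      Qv x (lzm μ k S) (Dm μ k S) A1 (fun e => q1 e - q0 e) Y (qr q0 q1 s1) -
        Qv x (lzm μ k S) (Dm μ k S) A1 (fun e => q1 e - q0 e) Y (qr q0 q1 s0) := by
  have hG3 := gm_three h0 h01 h1 hG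
  have h2 := bwindow_kt (A0 := A3 ι) (A1 := up A1) (hG3.sm k) (up_sub A1)
    (ps_of_cv (hG3.sm k) (hG3.cv k) _) hx hx1 a3 0 n3 (eg_Y3 hYe q0) (fun v => hY0 _)
    (fun j hj w t => Y3_upd (Y := Y) (q0 := q0) j hj w t) hs0 hs hs1
  rw [Qb_three h0 h01 h1 hG k x hYe hY A1 (hs0.trans hs) hs1,
    Qb_three h0 h01 h1 hG k x hYe hY A1 hs0 (hs.trans hs1)] at h2
  refine le_trans (le_of_eq ?_) h2
  congr 1
  refine intervalIntegral.integral_congr fun s hsI => ?_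
  rw [Set.uIcc_of_le hs] at hsI
  exact (Kb_three h0 h01 h1 hG k x hYe hY A1 (hs0.trans hsI.1) (hsI.2.trans hs1)).symm

include h0 h01 h1 in
/-- the integrand of the window theorem is continuous -/
theorem cont_Kv (hG : GM μ S M0) (k : ℝ) (hx : 0 ≤ x) (hYe : EG Y)
    (hY : ∀ e, q0 e < q1 e → ∀ y t, Y (Function.update y e t) = Y y) (A1 : Finset ι) :
    ContinuousOn (fun s => Kv x (lzm μ k S) (Dm μ k S) (Hm μ k S) A1
        (fun e => q1 e - q0 e) Y (qr q0 q1 s)) (Set.Icc 0 1) := by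
  have hG3 := gm_three h0 h01 h1 hG
  refine (cont_Kb (hG3.sm k) hx (A3 ι) (up A1) a3 0 n3 (eg_Y3 hYe q0)).congr fun s hs => ?_
  exact (Kb_three h0 h01 h1 hG k x hYe hY A1 hs.1 hs.2).symm

lemma Kv_nonneg (μ : Measure Ω) (S : ι → Ω → ℝ) (k x : ℝ) (hY0 : ∀ y, 0 ≤ Y y) {δ : ι → ℝ}
    (hδ : ∀ e, 0 ≤ δ e) (A1 : Finset ι) (q : ι → ℝ) :
    0 ≤ Kv x (lzm μ k S) (Dm μ k S) (Hm μ k S) A1 δ Y q :=
  integral_nonneg fun _ => mul_nonneg (integral_nonneg fun _ => (Real.exp_pos _).le)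
    (mul_nonneg (hY0 _) (Finset.sum_nonneg fun e _ => Finset.sum_nonneg fun i _ =>
      mul_nonneg (mul_nonneg (hδ e) (hδ i)) (sq_nonneg _)))

lemma Qv_nonneg (μ : Measure Ω) (S : ι → Ω → ℝ) (k x : ℝ) (hY0 : ∀ y, 0 ≤ Y y) {δ : ι → ℝ}
    (hδ : ∀ e, 0 ≤ δ e) (A1 : Finset ι) (q : ι → ℝ) :
    0 ≤ Qv x (lzm μ k S) (Dm μ k S) A1 δ Y q :=
  integral_nonneg fun _ => mul_nonneg (integral_nonneg fun _ => (Real.exp_pos _).le)
    (mul_nonneg (hY0 _) (Finset.sum_nonneg fun e _ => mul_nonneg (hδ e) (sq_nonneg _)))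

include h0 h01 h1 in
/-- **One point of the path for finitely many blocks and weights.** -/
theorem jointq (hG : GM μ S M0) (k : ℝ) (hx : 0 < x) (hx1 : x ≤ 1) {J : Type*} (U : Finset J)
    {Aj : J → Finset ι} {Yj : J → (ι → ℝ) → ℝ} (hYe : ∀ j ∈ U, EG (Yj j))
    (hY0 : ∀ j ∈ U, ∀ y, 0 ≤ Yj j y)
    (hY : ∀ j ∈ U, ∀ e, q0 e < q1 e → ∀ y t, Yj j (Function.update y e t) = Yj j y)
    {ε : ℝ} (hε : 0 < ε) :
    ∃ s ∈ Set.Icc (0 : ℝ) 1, ∀ j ∈ U,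
      x ^ 2 * Kv x (lzm μ k S) (Dm μ k S) (Hm μ k S) (Aj j) (fun e => q1 e - q0 e) (Yj j)
        (qr q0 q1 s) ≤
      U.card * (Qv x (lzm μ k S) (Dm μ k S) (Aj j) (fun e => q1 e - q0 e) (Yj j) q1 + ε) := by
  have hx2 : 0 < x ^ 2 := pow_pos hx 2
  have hδ : ∀ e, 0 ≤ (fun e => q1 e - q0 e) e := fun e => by
    show 0 ≤ q1 e - q0 e
    linarith [h01 e]
  have hq1 : qr q0 q1 1 = q1 := by
    funext e
    unfold qr
    ring
  have hi : ∀ j ∈ U, ∫ s in (0 : ℝ)..1, x ^ 2 * Kv x (lzm μ k S) (Dm μ k S) (Hm μ k S) (Aj j)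
      (fun e => q1 e - q0 e) (Yj j) (qr q0 q1 s) ≤
      Qv x (lzm μ k S) (Dm μ k S) (Aj j) (fun e => q1 e - q0 e) (Yj j) q1 + ε := by
    intro j hj
    rw [intervalIntegral.integral_const_mul]
    have h3 := windowq h0 h01 h1 hG k hx.le hx1 (hYe j hj) (hY0 j hj) (hY j hj) (Aj j)
      le_rfl zero_le_one le_rfl
    rw [hq1] at h3
    have h4 := Qv_nonneg μ S k x (hY0 j hj) hδ (Aj j) (qr q0 q1 0)
    linarith
  obtain ⟨s, hs, h2⟩ := pick U
    (f := fun j s => x ^ 2 * Kv x (lzm μ k S) (Dm μ k S) (Hm μ k S) (Aj j)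
      (fun e => q1 e - q0 e) (Yj j) (qr q0 q1 s))
    (t := fun j => Qv x (lzm μ k S) (Dm μ k S) (Aj j) (fun e => q1 e - q0 e) (Yj j) q1 + ε)
    zero_lt_one
    (fun j hj => continuousOn_const.mul (cont_Kv h0 h01 h1 hG k hx.le (hYe j hj) (hY j hj) _))
    (fun j hj s _ => mul_nonneg hx2.le (Kv_nonneg μ S k x (hY0 j hj) hδ _ _))
    (fun j hj => add_pos_of_nonneg_of_pos (Qv_nonneg μ S k x (hY0 j hj) hδ _ _) hε) hi
  refine ⟨s, hs, fun j hj => ?_⟩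
  have h3 := h2 j hj
  simp only [sub_zero, one_mul] at h3
  exact h3

end gm

end path

/-! ### in the language of `cx`/`ex` -/

section cx

variable {κ ι : Type} [Fintype κ] [DecidableEq κ] [Fintype ι] [DecidableEq ι]
  {Ω : Type} [MeasurableSpace Ω] {μ : Measure Ω} {k x M0 : ℝ} {S : ι → Ω → ℝ}
  {p : κ → ι} {c : κ → ℝ} {K : Finset κ} {q : ι → ℝ}

lemma el_gm (μ : Measure Ω) (k x : ℝ) (S : ι → Ω → ℝ) (p : κ → ι) (c : κ → ℝ)
    (Ψ : (κ → ℝ) → ℝ) : el p c x (lzm μ k S) Ψ =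
      ex (fun _ : κ => gaussianReal 0 1) (Zxm μ k (Sl p c S) x) Ψ := by
  unfold el
  rw [Zxm_Sl]

lemma cl_gm (μ : Measure Ω) (k x : ℝ) (S : ι → Ω → ℝ) (p : κ → ι) (c : κ → ℝ) (K : Finset κ)
    (h : Ω → ℝ) (z : κ → ℝ) : cl p c K x (lzm μ k S) (avm μ k S h) z =
      cx (fun _ : κ => gaussianReal 0 1) K (Zxm μ k (Sl p c S) x) (avm μ k (Sl p c S) h) z := by
  unfold cl
  rw [Zxm_Sl]
  congr 1
  funext z
  exact (avm_Sl μ k S h z).symm

lemma cl_mul_gm (μ : Measure Ω) (k x : ℝ) (S : ι → Ω → ℝ) (p : κ → ι) (c : κ → ℝ)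
    (K : Finset κ) (r : ℝ) (h : Ω → ℝ) (z : κ → ℝ) :
    cl p c K x (lzm μ k S) (fun u => r * avm μ k S h u) z = r *
      cx (fun _ : κ => gaussianReal 0 1) K (Zxm μ k (Sl p c S) x) (avm μ k (Sl p c S) h) z := by
  rw [← cl_gm]
  unfold cl cx
  rw [← mul_div_assoc, ← integral_const_mul]
  congr 2
  funext z'
  ring

/-- the total covariance of two slopes given the frozen coordinates -/
noncomputable def cv (μ : Measure Ω) (k x : ℝ) (S : ι → Ω → ℝ) (p : κ → ι) (c : κ → ℝ)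
    (K : Finset κ) (e i : ι) (z : κ → ℝ) : ℝ :=
  cx (fun _ : κ => gaussianReal 0 1) K (Zxm μ k (Sl p c S) x)
      (avm μ k (Sl p c S) (fun w => S e w * S i w)) z -
    cx (fun _ : κ => gaussianReal 0 1) K (Zxm μ k (Sl p c S) x) (avm μ k (Sl p c S) (S e)) z *
    cx (fun _ : κ => gaussianReal 0 1) K (Zxm μ k (Sl p c S) x) (avm μ k (Sl p c S) (S i)) z

lemma kl_gm (μ : Measure Ω) (k x : ℝ) (S : ι → Ω → ℝ) (p : κ → ι) (c : κ → ℝ) (K : Finset κ)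
    (e i : ι) (z : κ → ℝ) :
    kl p c K x (lzm μ k S) (Dm μ k S) (Hm μ k S) e i z = k ^ 2 * cv μ k x S p c K e i z := by
  unfold kl cv
  have e1 : sm (Dm μ k S) (Hm μ k S) e i =
      fun u => k ^ 2 * avm μ k S (fun w => S e w * S i w) u := funext fun u => sm_gm μ k S e i u
  have e2 : ∀ e, Dm μ k S e = fun u => k * avm μ k S (S e) u := fun _ => rfl
  rw [e1, e2, e2, cl_mul_gm, cl_mul_gm, cl_mul_gm]
  ring

/-- **`Kv` in `cx`/`ex` form.** -/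
theorem Lv.kv_gm (hz : Lv p c K q) (hG : GM μ S M0) (k x : ℝ) {Y : (ι → ℝ) → ℝ} (hY : EG Y)
    (A1 : Finset ι) (δ : ι → ℝ) :
    Kv x (lzm μ k S) (Dm μ k S) (Hm μ k S) A1 δ Y q = Z0 x (lzm μ k S) * (k ^ 4 *
      ex (fun _ : κ => gaussianReal 0 1) (Zxm μ k (Sl p c S) x) fun z =>
        Y (lf p (re K c) z) * ∑ e ∈ A1, ∑ i ∈ A1, δ e * δ i * cv μ k x S p c K e i z ^ 2) := by
  have h1 := hz.ex_kv (x := x) (hG.sm k) hY A1 δ
  rw [el_gm] at h1
  have h2 := (Z0_pos (hG.c11 k) x).ne'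
  rw [eq_div_iff h2] at h1
  rw [← h1, mul_comm]
  congr 1
  have e1 : (fun z => Y (lf p (re K c) z) * ∑ e ∈ A1, ∑ i ∈ A1, δ e * δ i *
      kl p c K x (lzm μ k S) (Dm μ k S) (Hm μ k S) e i z ^ 2) = fun z =>
      k ^ 4 * (Y (lf p (re K c) z) * ∑ e ∈ A1, ∑ i ∈ A1, δ e * δ i *
        cv μ k x S p c K e i z ^ 2) := by
    funext z
    simp only [kl_gm]
    rw [mul_left_comm]
    congr 1
    rw [Finset.mul_sum]
    refine Finset.sum_congr rfl fun e _ => ?_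
    rw [Finset.mul_sum]
    exact Finset.sum_congr rfl fun i _ => by ring
  rw [e1]
  unfold ex
  rw [← mul_div_assoc, ← integral_const_mul]
  congr 2
  funext z
  ring

/-- **`Qv` in `cx`/`ex` form.** -/
theorem Lv.qv_gm (hz : Lv p c K q) (hG : GM μ S M0) (k x : ℝ) {Y : (ι → ℝ) → ℝ} (hY : EG Y)
    (A1 : Finset ι) (δ : ι → ℝ) :
    Qv x (lzm μ k S) (Dm μ k S) A1 δ Y q = Z0 x (lzm μ k S) * (k ^ 2 *
      ex (fun _ : κ => gaussianReal 0 1) (Zxm μ k (Sl p c S) x) fun z =>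
        Y (lf p (re K c) z) * ∑ e ∈ A1, δ e *
          cx (fun _ : κ => gaussianReal 0 1) K (Zxm μ k (Sl p c S) x)
            (avm μ k (Sl p c S) (S e)) z ^ 2) := by
  have h1 := hz.ex_qv (x := x) (hG.sm k) hY A1 δ
  rw [el_gm] at h1
  have h2 := (Z0_pos (hG.c11 k) x).ne'
  rw [eq_div_iff h2] at h1
  rw [← h1, mul_comm]
  congr 1
  have e1 : (fun z => Y (lf p (re K c) z) * ∑ e ∈ A1, δ e *
      cl p c K x (lzm μ k S) (Dm μ k S e) z ^ 2) = fun z =>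
      k ^ 2 * (Y (lf p (re K c) z) * ∑ e ∈ A1, δ e *
        cx (fun _ : κ => gaussianReal 0 1) K (Zxm μ k (Sl p c S) x)
            (avm μ k (Sl p c S) (S e)) z ^ 2) := by
    funext z
    have e2 : ∀ e, Dm μ k S e = fun u => k * avm μ k S (S e) u := fun _ => rfl
    simp only [e2, cl_mul_gm]
    rw [mul_left_comm]
    congr 1
    rw [Finset.mul_sum]
    exact Finset.sum_congr rfl fun i _ => by ring
  rw [e1]
  unfold ex
  rw [← mul_div_assoc, ← integral_const_mul]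
  congr 2
  funext z
  ring

end cx

end Vale.Agent.P146.H118
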