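import Vale.Agent.P146.H118.JointQ
import Vale.Agent.P146.H246.Levels

/-!
The energy of the response along a path of shares. For a Gibbs system `GM μ S M0` and the shares
`q` of the revealed coordinates, `rT` is the derivative of the conditional mean of the slope `D k`
in the direction of the (revealed part of the) coordinate `e`:
`rT k e = E[H k e + x D k D e] - x E[D k] E[D e]`, conditional means given the position. `Rv` is
the mean of the sum of its squares over a block; the window theorem is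
`∫ Rv ≤ Qv (end) - Qv (start)`.
-/

open MeasureTheory ProbabilityTheory Filter Topology

namespace Vale.Agent.P146.H118

open Vale.Agent.P157.Lv Vale.Agent.P146.H425 Vale.Agent.P146.H332 Vale.Agent.P146.H246
open Vale.Agent.P146.H196 Vale.Agent.P146.H646
open Vale.Agent.P146.H325 (Tc)

set_option linter.unusedSectionVars false

section base

variable {κ ι : Type} [Fintype κ] [DecidableEq κ] [Fintype ι] [DecidableEq ι]
variable {F : (ι → ℝ) → ℝ} {D : ι → (ι → ℝ) → ℝ} {B L x M : ℝ} {H T : ι → ι → (ι → ℝ) → ℝ}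
  {p : κ → ι} {c : κ → ℝ} {K : Finset κ} {q : ι → ℝ}

/-- the second derivatives with the factor of the weight -/
def sx (x : ℝ) (D : ι → (ι → ℝ) → ℝ) (H : ι → ι → (ι → ℝ) → ℝ) (k e : ι) (y : ι → ℝ) : ℝ :=
  H k e y + x * (D k y * D e y)

lemma eg_sx (h : R1.Sm F D B L H T M) (x : ℝ) (k e : ι) : EG (sx x D H k e) :=
  (h.eH k e).add (((h.eD k).mul (h.eD e)).const_mul x)

lemma bd_sx (h : R1.Sm F D B L H T M) (x : ℝ) (k e : ι) (y : ι → ℝ) :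
    |sx x D H k e y| ≤ M + |x| * (B * B) := by
  unfold sx
  refine (abs_add_le _ _).trans (add_le_add (h.bH k e y) ?_)
  rw [abs_mul, abs_mul]
  exact mul_le_mul_of_nonneg_left
    (mul_le_mul (h.c11.bd k y) (h.c11.bd e y) (abs_nonneg _) h.c11.B0) (abs_nonneg _)

/-- the response as a function of the position -/
noncomputable def rT (r : ι → ℝ) (x : ℝ) (F : (ι → ℝ) → ℝ) (D : ι → (ι → ℝ) → ℝ)
    (H : ι → ι → (ι → ℝ) → ℝ) (k e : ι) (y : ι → ℝ) : ℝ :=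
  cT r (We x F) (sx x D H k e) y - x * (cT r (We x F) (D k) y * cT r (We x F) (D e) y)

/-- the response in the level system -/
noncomputable def rl (p : κ → ι) (c : κ → ℝ) (K : Finset κ) (x : ℝ) (F : (ι → ℝ) → ℝ)
    (D : ι → (ι → ℝ) → ℝ) (H : ι → ι → (ι → ℝ) → ℝ) (k e : ι) (z : κ → ℝ) : ℝ :=
  cl p c K x F (sx x D H k e) z - x * (cl p c K x F (D k) z * cl p c K x F (D e) z)

lemma rl_eq (h : R1.Sm F D B L H T M) (k e : ι) (z : κ → ℝ) :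
    rl p c K x F D H k e z = rT (vf p (co K c)) x F D H k e (lf p (re K c) z) := by
  unfold rl rT
  rw [cl_eq h.c11 (eg_sx h x k e).meas, cl_eq h.c11 (h.eD k).meas, cl_eq h.c11 (h.eD e).meas]

lemma eg_rT (h : R1.Sm F D B L H T M) (r : ι → ℝ) (k e : ι) : EG (rT r x F D H k e) :=
  (eg_cT h.c11 (eg_sx h x k e) (bd_sx h x k e) r).sub
    (((eg_cT h.c11 (h.eD k) (h.c11.bd k) r).mul
      (eg_cT h.c11 (h.eD e) (h.c11.bd e) r)).const_mul x)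

/-- the mean of `∑ δ δ rT²` over the block `A1` (not normalised) -/
noncomputable def Rv (x : ℝ) (F : (ι → ℝ) → ℝ) (D : ι → (ι → ℝ) → ℝ)
    (H : ι → ι → (ι → ℝ) → ℝ) (A1 : Finset ι) (δ : ι → ℝ) (Y : (ι → ℝ) → ℝ) (q : ι → ℝ) : ℝ :=
  MB x F q fun y => Y y * ∑ k ∈ A1, ∑ e ∈ A1, δ k * δ e * rT (fun e => 1 - q e) x F D H k e y ^ 2

lemma eg_Rv (h : R1.Sm F D B L H T M) {Y : (ι → ℝ) → ℝ} (hY : EG Y) (A1 : Finset ι)
    (δ q : ι → ℝ) : EG fun y => Y y * ∑ k ∈ A1, ∑ e ∈ A1, δ k * δ e *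
      rT (fun e => 1 - q e) x F D H k e y ^ 2 :=
  hY.mul (EG.sum _ fun k _ => EG.sum _ fun e _ => ((eg_rT h _ k e).pow 2).const_mul _)

/-- `Rv` in a system with levels -/
theorem Lv.ex_rv (hz : Lv p c K q) (h : R1.Sm F D B L H T M) {Y : (ι → ℝ) → ℝ} (hY : EG Y)
    (A1 : Finset ι) (δ : ι → ℝ) :
    el p c x F (fun z => Y (lf p (re K c) z) *
        ∑ k ∈ A1, ∑ e ∈ A1, δ k * δ e * rl p c K x F D H k e z ^ 2) =
      Rv x F D H A1 δ Y q / Z0 x F := by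
  have e1 : (fun z => Y (lf p (re K c) z) *
      ∑ k ∈ A1, ∑ e ∈ A1, δ k * δ e * rl p c K x F D H k e z ^ 2) =
      fun z => (fun y => Y y * ∑ k ∈ A1, ∑ e ∈ A1, δ k * δ e *
        rT (fun e => 1 - q e) x F D H k e y ^ 2) (lf p (re K c) z) := by
    funext z
    simp only [rl_eq h, hz.hid]
  rw [e1, hz.el_eq h.c11 (eg_Rv h hY A1 δ q)]
  rfl

end base

/-! ### the block form -/

section block

variable {ι : Type} [Fintype ι] [DecidableEq ι] {A0 A1 : Finset ι} {a b c : ι → ℝ} {x s : ℝ}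
  {F : (ι → ℝ) → ℝ} {D : ι → (ι → ℝ) → ℝ} {H T : ι → ι → (ι → ℝ) → ℝ} {B L M : ℝ}
  {Y : (ι ⊕ ι → ℝ) → ℝ}

lemma hs_sx (h : R1.Sm F D B L H T M) (k e : ι) (s : ℝ) (w : ι ⊕ ι → ℝ) :
    hs A0 a b c x F D H k e s w = cm A0 a b c x F (sx x D H k e) s w -
      x * (cm A0 a b c x F (D k) s w * cm A0 a b c x F (D e) s w) := by
  unfold hs dcm
  have e1 : sx x D H k e = fun y => H k e y + (fun y => x * (fun y => D k y * D e y) y) y := rfl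
  rw [e1, cm_add h.c11 (h.eH k e) (((h.eD k).mul (h.eD e)).const_mul x), cm_const_mul]
  ring

/-- the weighted mean of `∑_{A1 × A1} hs²` at the share `s` (not normalised) -/
noncomputable def Rb (A0 A1 : Finset ι) (a b c : ι → ℝ) (x : ℝ) (F : (ι → ℝ) → ℝ)
    (D : ι → (ι → ℝ) → ℝ) (H : ι → ι → (ι → ℝ) → ℝ) (Y : (ι ⊕ ι → ℝ) → ℝ) (s : ℝ) : ℝ :=
  ∫ w, zd A0 a b c x F s w * (Y w * ∑ k ∈ A1, ∑ e ∈ A1, hs A0 a b c x F D H k e s w ^ 2)
    ∂(gI (ι ⊕ ι))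

lemma ge_Rb (h : R1.Sm F D B L H T M) (hx : 0 ≤ x) (A0 A1 : Finset ι) (a b c : ι → ℝ)
    (hY : EG Y) : GE fun s w => zd A0 a b c x F s w *
      (Y w * ∑ k ∈ A1, ∑ e ∈ A1, hs A0 a b c x F D H k e s w ^ 2) :=
  (ge_zd h hx A0 a b c).mul ((GE.of_eg hY).mul (GE.sum A1 fun k _ => GE.sum A1 fun e _ =>
    (ge_dcm h.c11 h.cF (h.cD k) hx A0 a b c e).pow 2))

lemma cont_Rb (h : R1.Sm F D B L H T M) (hx : 0 ≤ x) (A0 A1 : Finset ι) (a b c : ι → ℝ)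
    (hY : EG Y) : ContinuousOn (Rb A0 A1 a b c x F D H Y) (Set.Icc 0 1) :=
  (ge_Rb h hx A0 A1 a b c hY).continuousOn

lemma Rb_le_Hb (h : R1.Sm F D B L H T M) (hA : A1 ⊆ A0) (hx : 0 ≤ x)
    (hY : EG Y) (hY0 : ∀ w, 0 ≤ Y w) {s : ℝ} (hsI : s ∈ Set.Icc (0 : ℝ) 1) :
    Rb A0 A1 a b c x F D H Y s ≤ Hb A0 A1 a b c x F D H Y s := by
  unfold Rb Hb
  refine integral_mono ((ge_Rb h hx A0 A1 a b c hY).eg hsI).integrable
    ((ge_Hb h hx A0 A1 a b c hY).eg hsI).integrable fun w => ?_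
  have h1' : ∑ k ∈ A1, ∑ e ∈ A1, hs A0 a b c x F D H k e s w ^ 2 ≤
      ∑ k ∈ A1, ∑ e ∈ A0, hs A0 a b c x F D H k e s w ^ 2 :=
    Finset.sum_le_sum fun k _ => Finset.sum_le_sum_of_subset_of_nonneg hA
      fun _ _ _ => sq_nonneg _
  have h2 : 0 ≤ zd A0 a b c x F s w * Y w := mul_nonneg (zd_pos h.c11 x s w).le (hY0 w)
  have h3 := mul_le_mul_of_nonneg_left h1' h2
  show zd A0 a b c x F s w * (Y w * ∑ k ∈ A1, ∑ e ∈ A1,
    hs A0 a b c x F D H k e s w ^ 2) ≤ zd A0 a b c x F s w * (Y w * ∑ k ∈ A1, ∑ e ∈ A0,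
    hs A0 a b c x F D H k e s w ^ 2)
  linarith

/-- **BLOCK WINDOW FOR THE RESPONSE** -/
theorem bwindow_r (h : R1.Sm F D B L H T M) (hA : A1 ⊆ A0) (hx : 0 ≤ x)
    (a b c : ι → ℝ) (hY : EG Y) (hY0 : ∀ w, 0 ≤ Y w)
    (hYi : ∀ e ∈ A0, ∀ w t, Y (Function.update w (Sum.inl e) t) = Y w)
    {s0 s1 : ℝ} (h0 : 0 ≤ s0) (h01 : s0 ≤ s1) (h1 : s1 ≤ 1) :
    ∫ s in s0..s1, Rb A0 A1 a b c x F D H Y s ≤
      Qb A0 A1 a b c x F D Y s1 - Qb A0 A1 a b c x F D Y s0 := by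
  rw [← bwindow_hs h hx A0 A1 a b c hY hYi h0 h01 h1]
  have hsub : Set.uIcc s0 s1 ⊆ Set.Icc (0 : ℝ) 1 := by
    rw [Set.uIcc_of_le h01]
    exact Set.Icc_subset_Icc h0 h1
  refine intervalIntegral.integral_mono_on h01
    ((cont_Rb h hx A0 A1 a b c hY).mono hsub).intervalIntegrable
    ((cont_Hb h hx A0 A1 a b c hY).mono hsub).intervalIntegrable fun s hs => ?_
  exact Rb_le_Hb h hA hx hY hY0 ⟨h0.trans hs.1, hs.2.trans h1⟩

end block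

/-! ### the path of shares -/

section path

variable {ι : Type} [Fintype ι] [DecidableEq ι] {q0 q1 : ι → ℝ} (h0 : ∀ e, 0 ≤ q0 e)
  (h01 : ∀ e, q0 e ≤ q1 e) (h1 : ∀ e, q1 e ≤ 1) {x : ℝ}
  {Ω : Type} [MeasurableSpace Ω] {μ : Measure Ω} {k M0 : ℝ} {S : ι → Ω → ℝ}

lemma sx_Sl {κ : Type} [Fintype κ] [DecidableEq κ] {p : κ → ι} {c : κ → ℝ} (μ : Measure Ω)
    (k x : ℝ) (S : ι → Ω → ℝ) (j i : κ) (z : κ → ℝ) :
    sx x (Dm μ k (Sl p c S)) (Hm μ k (Sl p c S)) j i z =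
      c j * c i * sx x (Dm μ k S) (Hm μ k S) (p j) (p i) (lf p c z) := by
  unfold sx
  rw [Dm_Sl, Dm_Sl]
  have h2 := sm_Sl (p := p) (c := c) μ k S j i z
  unfold sm at h2
  rw [Dm_Sl, Dm_Sl] at h2
  linear_combination h2

include h0 h01 h1 in
lemma hs_three (hG : GM μ S M0) (k x : ℝ) {s : ℝ} (hs' : s ≤ 1)
    (v : (ι × Fin 3) ⊕ (ι × Fin 3) → ℝ) (e i : ι) :
    hs (A3 ι) a3 0 n3 x (lzm μ k (Sl Prod.fst (c3 q0 q1) S))
      (Dm μ k (Sl Prod.fst (c3 q0 q1) S)) (Hm μ k (Sl Prod.fst (c3 q0 q1) S)) (e, 1) (i, 1) s v =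
      c3 q0 q1 (e, 1) * c3 q0 q1 (i, 1) * rT (fun e => 1 - qr q0 q1 s e) x (lzm μ k S)
        (Dm μ k S) (Hm μ k S) e i (ps q0 q1 s v) := by
  have hs2 := hG.sm k
  rw [hs_sx ((gm_three h0 h01 h1 hG).sm k)]
  have e1 : sx x (Dm μ k (Sl Prod.fst (c3 q0 q1) S)) (Hm μ k (Sl Prod.fst (c3 q0 q1) S))
      (e, 1) (i, 1) = fun y => c3 q0 q1 (e, 1) * c3 q0 q1 (i, 1) *
        (fun y => sx x (Dm μ k S) (Hm μ k S) e i (lf Prod.fst (c3 q0 q1) y)) y := by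
    funext y
    exact sx_Sl μ k x S _ _ y
  have e2 : ∀ l : ι, Dm μ k (Sl Prod.fst (c3 q0 q1) S) (l, 1) = fun y => c3 q0 q1 (l, 1) *
      (fun y => Dm μ k S l (lf Prod.fst (c3 q0 q1) y)) y := by
    intro l
    funext y
    exact Dm_Sl μ k S _ y
  unfold rT
  rw [e1, e2, e2, cm_const_mul, cm_const_mul, cm_const_mul, lzm_three,
    cm_three h01 h1 (hG.c11 k) (eg_sx hs2 x e i) hs',
    cm_three h01 h1 (hG.c11 k) (hs2.eD e) hs', cm_three h01 h1 (hG.c11 k) (hs2.eD i) hs']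
  ring

variable {Y : (ι → ℝ) → ℝ}

include h0 h01 h1 in
/-- `Rb` of the three-level system is `Rv` -/
theorem Rb_three (hG : GM μ S M0) (k x : ℝ) (hYe : EG Y)
    (hY : ∀ e, q0 e < q1 e → ∀ y t, Y (Function.update y e t) = Y y) (A1 : Finset ι)
    {s : ℝ} (hs0 : 0 ≤ s) (hs' : s ≤ 1) :
    Rb (A3 ι) (up A1) a3 0 n3 x (lzm μ k (Sl Prod.fst (c3 q0 q1) S))
      (Dm μ k (Sl Prod.fst (c3 q0 q1) S)) (Hm μ k (Sl Prod.fst (c3 q0 q1) S))
      (fun v => Y (fun e => √(q0 e) * v (Sum.inl (e, 0)))) s =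
      Rv x (lzm μ k S) (Dm μ k S) (Hm μ k S) A1 (fun e => q1 e - q0 e) Y (qr q0 q1 s) := by
  unfold Rb Rv MB
  simp only [sum_up, hs_three h0 h01 h1 hG k x hs', Y_three h01 hY s, mul_pow, c3_one_sq h01]
  have e1 : ∀ v, zd (A3 ι) a3 0 n3 x (lzm μ k (Sl Prod.fst (c3 q0 q1) S)) s v =
      Tc (fun e => 1 - qr q0 q1 s e) (We x (lzm μ k S)) (ps q0 q1 s v) := by
    intro v
    rw [lzm_three]
    exact zd_three h01 h1 (hG.c11 k) hs' v
  simp only [e1]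
  exact int_three (G := fun y => Tc (fun e => 1 - qr q0 q1 s e) (We x (lzm μ k S)) y *
    (Y y * ∑ e ∈ A1, ∑ i ∈ A1, (q1 e - q0 e) * (q1 i - q0 i) *
      rT (fun e => 1 - qr q0 q1 s e) x (lzm μ k S) (Dm μ k S) (Hm μ k S) e i y ^ 2)) h0 h01 hs0
    ((H325.EG.Tc (eg_We (hG.c11 k) x) _).mul (eg_Rv (hG.sm k) hYe A1 _ _))

include h0 h01 h1 in
/-- **THE WINDOW THEOREM FOR THE RESPONSE, along a path of shares.** -/
theorem windowr (hG : GM μ S M0) (k : ℝ) (hx : 0 ≤ x) (hYe : EG Y) (hY0 : ∀ y, 0 ≤ Y y)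
    (hY : ∀ e, q0 e < q1 e → ∀ y t, Y (Function.update y e t) = Y y) (A1 : Finset ι)
    {s0 s1 : ℝ} (hs0 : 0 ≤ s0) (hs : s0 ≤ s1) (hs1 : s1 ≤ 1) :
    ∫ s in s0..s1, Rv x (lzm μ k S) (Dm μ k S) (Hm μ k S) A1
        (fun e => q1 e - q0 e) Y (qr q0 q1 s) ≤
      Qv x (lzm μ k S) (Dm μ k S) A1 (fun e => q1 e - q0 e) Y (qr q0 q1 s1) -
        Qv x (lzm μ k S) (Dm μ k S) A1 (fun e => q1 e - q0 e) Y (qr q0 q1 s0) := by
  have hG3 := gm_three h0 h01 h1 hG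
  have h2 := bwindow_r (A0 := A3 ι) (A1 := up A1) (hG3.sm k) (up_sub A1)
    hx a3 0 n3 (eg_Y3 hYe q0) (fun v => hY0 _)
    (fun j hj w t => Y3_upd (Y := Y) (q0 := q0) j hj w t) hs0 hs hs1
  rw [Qb_three h0 h01 h1 hG k x hYe hY A1 (hs0.trans hs) hs1,
    Qb_three h0 h01 h1 hG k x hYe hY A1 hs0 (hs.trans hs1)] at h2
  refine le_trans (le_of_eq ?_) h2
  refine intervalIntegral.integral_congr fun s hsI => ?_
  rw [Set.uIcc_of_le hs] at hsI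
  exact (Rb_three h0 h01 h1 hG k x hYe hY A1 (hs0.trans hsI.1) (hsI.2.trans hs1)).symm

include h0 h01 h1 in
/-- the integrand of the window theorem for the response is continuous -/
theorem cont_Rv (hG : GM μ S M0) (k : ℝ) (hx : 0 ≤ x) (hYe : EG Y)
    (hY : ∀ e, q0 e < q1 e → ∀ y t, Y (Function.update y e t) = Y y) (A1 : Finset ι) :
    ContinuousOn (fun s => Rv x (lzm μ k S) (Dm μ k S) (Hm μ k S) A1
        (fun e => q1 e - q0 e) Y (qr q0 q1 s)) (Set.Icc 0 1) := by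
  have hG3 := gm_three h0 h01 h1 hG
  refine (cont_Rb (hG3.sm k) hx (A3 ι) (up A1) a3 0 n3 (eg_Y3 hYe q0)).congr fun s hs => ?_
  exact (Rb_three h0 h01 h1 hG k x hYe hY A1 hs.1 hs.2).symm

lemma Rv_nonneg (μ : Measure Ω) (S : ι → Ω → ℝ) (k x : ℝ) (hY0 : ∀ y, 0 ≤ Y y) {δ : ι → ℝ}
    (hδ : ∀ e, 0 ≤ δ e) (A1 : Finset ι) (q : ι → ℝ) :
    0 ≤ Rv x (lzm μ k S) (Dm μ k S) (Hm μ k S) A1 δ Y q :=
  integral_nonneg fun _ => mul_nonneg (integral_nonneg fun _ => (Real.exp_pos _).le)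
    (mul_nonneg (hY0 _) (Finset.sum_nonneg fun e _ => Finset.sum_nonneg fun i _ =>
      mul_nonneg (mul_nonneg (hδ e) (hδ i)) (sq_nonneg _)))

/-- the conditional second moments increase along the path -/
lemma Qv_mono (hG : GM μ S M0) (k : ℝ) (hx : 0 ≤ x) (h0 : ∀ e, 0 ≤ q0 e)
    (h01 : ∀ e, q0 e ≤ q1 e) (h1 : ∀ e, q1 e ≤ 1) (hYe : EG Y) (hY0 : ∀ y, 0 ≤ Y y)
    (hY : ∀ e, q0 e < q1 e → ∀ y t, Y (Function.update y e t) = Y y) (A1 : Finset ι) :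
    Qv x (lzm μ k S) (Dm μ k S) A1 (fun e => q1 e - q0 e) Y q0 ≤
      Qv x (lzm μ k S) (Dm μ k S) A1 (fun e => q1 e - q0 e) Y q1 := by
  have h := windowr h0 h01 h1 hG k hx hYe hY0 hY A1 le_rfl zero_le_one le_rfl
  have e0 : qr q0 q1 0 = q0 := by
    funext e
    unfold qr
    ring
  have e1 : qr q0 q1 1 = q1 := by
    funext e
    unfold qr
    ring
  rw [e0, e1] at h
  have h3 : 0 ≤ ∫ s in (0 : ℝ)..1, Rv x (lzm μ k S) (Dm μ k S) (Hm μ k S) A1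
      (fun e => q1 e - q0 e) Y (qr q0 q1 s) :=
    intervalIntegral.integral_nonneg zero_le_one fun s _ =>
      Rv_nonneg μ S k x hY0 (fun e => by
        show 0 ≤ q1 e - q0 e
        linarith [h01 e]) A1 _
  linarith

end path

/-! ### in the language of `cx`/`ex` -/

section cx

variable {κ ι : Type} [Fintype κ] [DecidableEq κ] [Fintype ι] [DecidableEq ι]
  {Ω : Type} [MeasurableSpace Ω] {μ : Measure Ω} {x M0 : ℝ} {S : ι → Ω → ℝ}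
  {p : κ → ι} {c : κ → ℝ} {K : Finset κ}

lemma sx_gm (μ : Measure Ω) (k x : ℝ) (S : ι → Ω → ℝ) (e i : ι) (u : ι → ℝ) :
    sx x (Dm μ k S) (Hm μ k S) e i u = k ^ 2 * (avm μ k S (fun w => S e w * S i w) u -
      (1 - x) * (avm μ k S (S e) u * avm μ k S (S i) u)) := by
  unfold sx Hm Dm
  ring

/-- the response of the conditional mean of `f` to the energy `g` given the frozen coordinates:
`cx (⟨f g⟩ - (1 - x) ⟨f⟩ ⟨g⟩) - x cx ⟨f⟩ cx ⟨g⟩` -/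
noncomputable def rg (μ : Measure Ω) (S' : κ → Ω → ℝ) (x : ℝ) (K : Finset κ) (f g : Ω → ℝ)
    (z : κ → ℝ) : ℝ :=
  cx (fun _ : κ => gaussianReal 0 1) K (Zxm μ 1 S' x) (fun u => avm μ 1 S' (fun w => f w * g w) u -
    (1 - x) * (avm μ 1 S' f u * avm μ 1 S' g u)) z - x * (cg μ S' x K f z * cg μ S' x K g z)

lemma rl_av {S' : κ → Ω → ℝ} (h : Lvl p c S S') (K : Finset κ) (x : ℝ) (e i : ι) (z : κ → ℝ) :
    rl p c K x (lzm μ 1 S) (Dm μ 1 S) (Hm μ 1 S) e i z = rg μ S' x K (S e) (S i) z := by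
  unfold rl rg
  rw [Dm_one, Dm_one, cl_av h, cl_av h]
  congr 1
  unfold cl
  have e1 : (fun z : κ → ℝ => Real.exp (x * lzm μ 1 S (lf p c z))) = Zxm μ 1 S' x := by
    funext z
    rw [Zx_lv h]
    rfl
  rw [e1]
  congr 1
  funext z
  rw [sx_gm, av_lv h, av_lv h, av_lv h]
  ring

end cx

end Vale.Agent.P146.H118
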