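import Vale.Agent.P146.H118.Rank

/-!
One share of a window which is good for finitely many continuous functions, and the fourth moment:
the weighted mean of `∑ cm (sm k e)²` (for the bond coordinates: of `E[R⁴]`) against the one of
`(∑ cm (D k)²)²`.
-/

open MeasureTheory ProbabilityTheory Filter Topology

namespace Vale.Agent.P146.H118

open Vale.Agent.P157.Lv Vale.Agent.P146.H425 Vale.Agent.P146.H332

set_option linter.unusedSectionVars false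

/-- **One point for finitely many functions.** -/
theorem pick {K : Type*} (A : Finset K) {f : K → ℝ → ℝ} {t : K → ℝ}
    {s0 s1 : ℝ} (h01 : s0 < s1) (hc : ∀ k ∈ A, ContinuousOn (f k) (Set.Icc s0 s1))
    (h0 : ∀ k ∈ A, ∀ s ∈ Set.Icc s0 s1, 0 ≤ f k s) (ht : ∀ k ∈ A, 0 < t k)
    (hi : ∀ k ∈ A, ∫ s in s0..s1, f k s ≤ t k) :
    ∃ s ∈ Set.Icc s0 s1, ∀ k ∈ A, (s1 - s0) * f k s ≤ A.card * t k := by
  by_contra hcon
  simp only [not_exists, not_and, not_forall, not_le] at hcon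
  have hd : 0 < s1 - s0 := by linarith
  set g : ℝ → ℝ := fun s => ∑ k ∈ A, (s1 - s0) / t k * f k s with hg
  have hsub : Set.uIcc s0 s1 = Set.Icc s0 s1 := Set.uIcc_of_le h01.le
  have gc : ContinuousOn g (Set.Icc s0 s1) :=
    continuousOn_finsetSum A fun k hk => continuousOn_const.mul (hc k hk)
  have hlow : ∀ s ∈ Set.Icc s0 s1, (A.card : ℝ) < g s := by
    intro s hs
    obtain ⟨k, hk, h⟩ := hcon s hs
    have h1 : (A.card : ℝ) < (s1 - s0) / t k * f k s := by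
      rw [div_mul_eq_mul_div, lt_div_iff₀ (ht k hk)]
      exact h
    refine h1.trans_le ?_
    exact Finset.single_le_sum (f := fun k => (s1 - s0) / t k * f k s)
      (fun k hk => mul_nonneg (div_nonneg hd.le (ht k hk).le) (h0 k hk s hs)) hk
  have h2 : ∫ _s in s0..s1, (A.card : ℝ) < ∫ s in s0..s1, g s :=
    intervalIntegral.integral_lt_integral_of_continuousOn_of_le_of_exists_lt h01
      continuousOn_const gc (fun s hs => (hlow s ⟨hs.1.le, hs.2⟩).le)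
      ⟨s0, ⟨le_rfl, h01.le⟩, hlow s0 ⟨le_rfl, h01.le⟩⟩
  have h3 : ∫ s in s0..s1, g s ≤ ∑ k ∈ A, (s1 - s0) := by
    rw [hg, intervalIntegral.integral_finsetSum fun k hk => ?_]
    · refine Finset.sum_le_sum fun k hk => ?_
      rw [intervalIntegral.integral_const_mul]
      have := mul_le_mul_of_nonneg_left (hi k hk) (div_nonneg hd.le (ht k hk).le)
      refine this.trans (le_of_eq ?_)
      rw [div_mul_cancel₀ _ (ht k hk).ne']
    · refine ContinuousOn.intervalIntegrable ?_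
      rw [hsub]
      exact continuousOn_const.mul (hc k hk)
  rw [intervalIntegral.integral_const, smul_eq_mul] at h2
  rw [Finset.sum_const, nsmul_eq_mul] at h3
  linarith [mul_comm (A.card : ℝ) (s1 - s0)]

variable {ι : Type} [Fintype ι] [DecidableEq ι]

variable {A0 : Finset ι} {a b c : ι → ℝ} {x s : ℝ} {F : (ι → ℝ) → ℝ} {D : ι → (ι → ℝ) → ℝ}
  {H T : ι → ι → (ι → ℝ) → ℝ} {B L M : ℝ} {Y : (ι ⊕ ι → ℝ) → ℝ}

/-- the weighted mean of `∑ cm (sm k e)²` at the share `s` (not normalised) -/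
noncomputable def M4 (A0 : Finset ι) (a b c : ι → ℝ) (x : ℝ) (F : (ι → ℝ) → ℝ)
    (D : ι → (ι → ℝ) → ℝ) (H : ι → ι → (ι → ℝ) → ℝ) (Y : (ι ⊕ ι → ℝ) → ℝ) (s : ℝ) : ℝ :=
  ∫ w, zd A0 a b c x F s w *
    (Y w * ∑ k ∈ A0, ∑ e ∈ A0, cm A0 a b c x F (sm D H k e) s w ^ 2) ∂(gI (ι ⊕ ι))

/-- the weighted mean of `(∑ cm (D k)²)²` at the share `s` (not normalised) -/
noncomputable def Q4 (A0 : Finset ι) (a b c : ι → ℝ) (x : ℝ) (F : (ι → ℝ) → ℝ)
    (D : ι → (ι → ℝ) → ℝ) (Y : (ι ⊕ ι → ℝ) → ℝ) (s : ℝ) : ℝ :=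
  ∫ w, zd A0 a b c x F s w * (Y w * (∑ k ∈ A0, cm A0 a b c x F (D k) s w ^ 2) ^ 2)
    ∂(gI (ι ⊕ ι))

lemma ge_zd (h : R1.Sm F D B L H T M) (hx : 0 ≤ x) (A0 : Finset ι) (a b c : ι → ℝ) :
    GE (zd A0 a b c x F) := (den_zd h.c11 h.cF hx A0 a b c).kf.gf

lemma ge_M4 (h : R1.Sm F D B L H T M) (hx : 0 ≤ x) (A0 : Finset ι) (a b c : ι → ℝ)
    (hY : EG Y) : GE fun s w => zd A0 a b c x F s w *
      (Y w * ∑ k ∈ A0, ∑ e ∈ A0, cm A0 a b c x F (sm D H k e) s w ^ 2) :=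
  (ge_zd h hx A0 a b c).mul ((GE.of_eg hY).mul (GE.sum A0 fun k _ => GE.sum A0 fun e _ =>
    (ge_cm h.c11 h.cF hx (eg_sm h k e) (cont_sm h k e) A0 a b c).pow 2))

lemma ge_Q4 (h : R1.Sm F D B L H T M) (hx : 0 ≤ x) (A0 : Finset ι) (a b c : ι → ℝ)
    (hY : EG Y) : GE fun s w => zd A0 a b c x F s w *
      (Y w * (∑ k ∈ A0, cm A0 a b c x F (D k) s w ^ 2) ^ 2) :=
  (ge_zd h hx A0 a b c).mul ((GE.of_eg hY).mul ((GE.sum A0 fun k _ =>
    (ge_cm h.c11 h.cF hx (h.eD k) (h.cF.c1 k) A0 a b c).pow 2).pow 2))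

lemma ge_Kq (h : R1.Sm F D B L H T M) (hx : 0 ≤ x) (A0 : Finset ι) (a b c : ι → ℝ)
    (hY : EG Y) : GE fun s w => zd A0 a b c x F s w *
      (Y w * ∑ k ∈ A0, ∑ e ∈ A0, kt A0 a b c x F D H k e s w ^ 2) :=
  (ge_zd h hx A0 a b c).mul ((GE.of_eg hY).mul (GE.sum A0 fun k _ => GE.sum A0 fun e _ =>
    (ge_kt h hx A0 a b c k e).pow 2))

/-- the mean of `∑ cm (sm k e)²` at any share -/
theorem M4_le (h : R1.Sm F D B L H T M) (hx : 0 ≤ x) (a b c : ι → ℝ) (hY : EG Y)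
    (hY0 : ∀ w, 0 ≤ Y w) {s : ℝ} (hsI : s ∈ Set.Icc (0 : ℝ) 1) {θ : ℝ} (hθ : 0 < θ) :
    M4 A0 a b c x F D H Y s ≤ (1 + θ) * Q4 A0 a b c x F D Y s +
      (1 + 1 / θ) * Kq A0 a b c x F D H Y s := by
  have i1 := ((ge_M4 h hx A0 a b c hY).eg hsI).integrable
  have i2 := ((ge_Q4 h hx A0 a b c hY).eg hsI).integrable
  have i3 := ((ge_Kq h hx A0 a b c hY).eg hsI).integrable
  unfold M4 Q4 Kq
  rw [← integral_const_mul, ← integral_const_mul, ← integral_add (i2.const_mul _)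
    (i3.const_mul _)]
  refine integral_mono i1 ((i2.const_mul _).add (i3.const_mul _)) fun w => ?_
  have h1 := (abs_le.1 (second_moment_cm A0 a b c x F D H s w hθ)).2
  have h2 : 0 ≤ zd A0 a b c x F s w * Y w := mul_nonneg (zd_pos h.c11 x s w).le (hY0 w)
  have h3 := mul_le_mul_of_nonneg_left h1 h2
  simp only
  nlinarith [h3]

/-- **MOM**: the mean of `∑ cm (sm k e)²` at one share of a window. -/
theorem mom (h : R1.Sm F D B L H T M) (hp : Ps A0 H) (hx : 0 < x) (hx1 : x ≤ 1)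
    (a b c : ι → ℝ) (hY : EG Y) (hY0 : ∀ w, 0 ≤ Y w)
    (hYi : ∀ e ∈ A0, ∀ w t, Y (Function.update w (Sum.inl e) t) = Y w)
    {s0 s1 : ℝ} (h0 : 0 ≤ s0) (h01 : s0 < s1) (h1 : s1 ≤ 1) :
    ∃ s ∈ Set.Icc s0 s1, ∀ θ : ℝ, 0 < θ →
      M4 A0 a b c x F D H Y s ≤ (1 + θ) * Q4 A0 a b c x F D Y s +
        (1 + 1 / θ) * (QqF A0 a b c x F D Y s1 / (x ^ 2 * (s1 - s0))) := by
  obtain ⟨s, hs, h2⟩ := rank_one h hp hx.le hx1 a b c hY hY0 hYi h0 h01 h1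
  refine ⟨s, hs, fun θ hθ => ?_⟩
  have h3 := M4_le (A0 := A0) h hx.le a b c hY hY0 ⟨h0.trans hs.1, hs.2.trans h1⟩ hθ
  have h4 : Kq A0 a b c x F D H Y s ≤ QqF A0 a b c x F D Y s1 / (x ^ 2 * (s1 - s0)) := by
    rw [le_div_iff₀ (mul_pos (pow_pos hx 2) (by linarith))]
    linarith
  have h5 : 0 ≤ 1 + 1 / θ := by positivity
  have := mul_le_mul_of_nonneg_left h4 h5
  linarith

/-- the increments of `QqF` are nonnegative -/
lemma Qq_mono (h : R1.Sm F D B L H T M) (hx : 0 ≤ x) (a b c : ι → ℝ) (hY : EG Y)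
    (hY0 : ∀ w, 0 ≤ Y w) (hYi : ∀ e ∈ A0, ∀ w t, Y (Function.update w (Sum.inl e) t) = Y w)
    {s0 s1 : ℝ} (h0 : 0 ≤ s0) (h01 : s0 ≤ s1) (h1 : s1 ≤ 1) :
    QqF A0 a b c x F D Y s0 ≤ QqF A0 a b c x F D Y s1 := by
  have h2 := window_hs h hx A0 a b c hY hYi h0 h01 h1
  have h3 : 0 ≤ ∫ s in s0..s1, Hq A0 a b c x F D H Y s :=
    intervalIntegral.integral_nonneg h01 fun s _ => integral_nonneg fun w =>
      mul_nonneg (zd_pos h.c11 x s w).le (mul_nonneg (hY0 w) (Finset.sum_nonneg fun _ _ =>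
        Finset.sum_nonneg fun _ _ => sq_nonneg _))
  linarith

end Vale.Agent.P146.H118
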