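import Vale.Agent.P146.H118.CM

/-!
Rank one given the frozen coordinates. `D` is the gradient of `F`, `H` its Hessian,
`S k e = H k e + D k D e` (for a log-sum of exponentials of linear forms: the Gibbs mean of the
product of the slopes `k` and `e`). For the active coordinates `A0` and the position at the share
`s`, `kt = cm (S k e) - cm (D k) cm (D e)` is the total covariance given the position and
`hs` is the Hessian of the value function. Then `0 ≤ x kt ≤ hs` as quadratic forms, hence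
`x² ∑ kt² ≤ ∑ hs²`, and the integral of the mean of `∑ hs²` over a window of shares is the
increment of the mean of `∑ (cm (D k))²`.
-/

open MeasureTheory ProbabilityTheory Filter Topology

namespace Vale.Agent.P146.H118

open Vale.Agent.P157.Lv Vale.Agent.P146.H425 Vale.Agent.P146.H332

set_option linter.unusedSectionVars false

/-! ### the Frobenius norm -/

section frob

open scoped MatrixOrder

/-- The trace of a product of positive semidefinite matrices is nonnegative. -/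
lemma trace_mul_nonneg {n : Type*} [Fintype n] [DecidableEq n] {P Q : Matrix n n ℝ}
    (hP : P.PosSemidef) (hQ : Q.PosSemidef) : 0 ≤ (P * Q).trace := by
  set R := CFC.sqrt Q with hR
  have h1 : R * R = Q := CFC.sqrt_mul_sqrt_self Q hQ.nonneg
  have h2 : R.PosSemidef := Matrix.nonneg_iff_posSemidef.1 (CFC.sqrt_nonneg Q)
  have h3 := (hP.mul_mul_conjTranspose_same R).trace_nonneg
  rw [h2.1.eq, Matrix.trace_mul_cycle, h1, Matrix.trace_mul_comm] at h3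
  exact h3

/-- **Monotonicity of the squared Frobenius norm** on the positive semidefinite cone. -/
theorem frob_mono {n : Type*} [Fintype n] [DecidableEq n] {K H : n → n → ℝ}
    (hK : ∀ i j, K i j = K j i) (hH : ∀ i j, H i j = H j i)
    (h0 : ∀ v : n → ℝ, 0 ≤ ∑ i, ∑ j, v i * v j * K i j)
    (h1 : ∀ v : n → ℝ, ∑ i, ∑ j, v i * v j * K i j ≤ ∑ i, ∑ j, v i * v j * H i j) :
    ∑ i, ∑ j, K i j ^ 2 ≤ ∑ i, ∑ j, H i j ^ 2 := by
  have psd : ∀ A : n → n → ℝ, (∀ i j, A i j = A j i) →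
      (∀ v : n → ℝ, 0 ≤ ∑ i, ∑ j, v i * v j * A i j) → (Matrix.of A).PosSemidef := by
    intro A hA hv
    refine Matrix.PosSemidef.of_dotProduct_mulVec_nonneg ?_ fun v => ?_
    · ext i j
      simp [Matrix.conjTranspose_apply, hA i j]
    · have := hv v
      simp only [star_trivial, dotProduct, Matrix.mulVec, Matrix.of_apply]
      refine this.trans (le_of_eq ?_)
      refine Finset.sum_congr rfl fun i _ => ?_
      rw [Finset.mul_sum]
      exact Finset.sum_congr rfl fun j _ => by ring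
  have tr : ∀ A C : n → n → ℝ, (∀ i j, C i j = C j i) →
      (Matrix.of A * Matrix.of C).trace = ∑ i, ∑ j, A i j * C i j := by
    intro A C hC
    rw [Matrix.trace]
    refine Finset.sum_congr rfl fun i _ => ?_
    rw [Matrix.diag_apply, Matrix.mul_apply]
    exact Finset.sum_congr rfl fun j _ => by rw [Matrix.of_apply, Matrix.of_apply, hC j i]
  have hd : ∀ i j, H i j - K i j = H j i - K j i := fun i j => by rw [hK i j, hH i j]
  have p1 := psd K hK h0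
  have p2 := psd (fun i j => H i j - K i j) hd fun v => by
    have := h1 v
    have e : ∑ i, ∑ j, v i * v j * (H i j - K i j) =
        ∑ i, ∑ j, v i * v j * H i j - ∑ i, ∑ j, v i * v j * K i j := by
      rw [← Finset.sum_sub_distrib]
      refine Finset.sum_congr rfl fun i _ => ?_
      rw [← Finset.sum_sub_distrib]
      exact Finset.sum_congr rfl fun j _ => by ring
    rw [e]
    linarith
  have p3 := psd H hH fun v => (h0 v).trans (h1 v)
  have t1 := trace_mul_nonneg p2 p3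
  have t2 := trace_mul_nonneg p2 p1
  rw [tr _ _ hH] at t1
  rw [tr _ _ hK] at t2
  have e : ∑ i, ∑ j, H i j ^ 2 - ∑ i, ∑ j, K i j ^ 2 =
      ∑ i, ∑ j, (H i j - K i j) * H i j + ∑ i, ∑ j, (H i j - K i j) * K i j := by
    rw [← Finset.sum_sub_distrib, ← Finset.sum_add_distrib]
    refine Finset.sum_congr rfl fun i _ => ?_
    rw [← Finset.sum_sub_distrib, ← Finset.sum_add_distrib]
    exact Finset.sum_congr rfl fun j _ => by ring
  linarith

/-- The same with sums over a finite set. -/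
theorem frob_mono' {α : Type*} [DecidableEq α] {A : Finset α} {K H : α → α → ℝ}
    (hK : ∀ i j, K i j = K j i) (hH : ∀ i j, H i j = H j i)
    (h0 : ∀ v : α → ℝ, 0 ≤ ∑ i ∈ A, ∑ j ∈ A, v i * v j * K i j)
    (h1 : ∀ v : α → ℝ, ∑ i ∈ A, ∑ j ∈ A, v i * v j * K i j ≤
      ∑ i ∈ A, ∑ j ∈ A, v i * v j * H i j) :
    ∑ i ∈ A, ∑ j ∈ A, K i j ^ 2 ≤ ∑ i ∈ A, ∑ j ∈ A, H i j ^ 2 := by
  have conv : ∀ g : α → α → ℝ, ∑ i ∈ A, ∑ j ∈ A, g i j = ∑ i : A, ∑ j : A, g i j := by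
    intro g
    rw [← Finset.sum_coe_sort A fun i => ∑ j ∈ A, g i j]
    exact Finset.sum_congr rfl fun i _ => (Finset.sum_coe_sort A fun j => g i j).symm
  have ext : ∀ (v : A → ℝ), ∃ v' : α → ℝ, ∀ i : A, v' i = v i := fun v =>
    ⟨fun i => if h : i ∈ A then v ⟨i, h⟩ else 0, fun i => by simp⟩
  rw [conv, conv]
  refine frob_mono (fun i j => hK i j) (fun i j => hH i j) (fun v => ?_) fun v => ?_
  · obtain ⟨v', hv'⟩ := ext v
    have := h0 v'
    rw [conv] at this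
    simpa only [hv'] using this
  · obtain ⟨v', hv'⟩ := ext v
    have := h1 v'
    rw [conv, conv] at this
    simpa only [hv'] using this

end frob

variable {ι : Type} [Fintype ι] [DecidableEq ι]

/-- the second moments of the slopes -/
def sm (D : ι → (ι → ℝ) → ℝ) (H : ι → ι → (ι → ℝ) → ℝ) (k e : ι) (y : ι → ℝ) : ℝ :=
  H k e y + D k y * D e y

/-- the Hessian of the value function in active coordinates -/
noncomputable def hs (A0 : Finset ι) (a b c : ι → ℝ) (x : ℝ) (F : (ι → ℝ) → ℝ)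
    (D : ι → (ι → ℝ) → ℝ) (H : ι → ι → (ι → ℝ) → ℝ) (k e : ι) (s : ℝ) (w : ι ⊕ ι → ℝ) : ℝ :=
  dcm A0 a b c x F D (D k) (H k) e s w

/-- the total covariance of the slopes given the position -/
noncomputable def kt (A0 : Finset ι) (a b c : ι → ℝ) (x : ℝ) (F : (ι → ℝ) → ℝ)
    (D : ι → (ι → ℝ) → ℝ) (H : ι → ι → (ι → ℝ) → ℝ) (k e : ι) (s : ℝ) (w : ι ⊕ ι → ℝ) : ℝ :=
  cm A0 a b c x F (sm D H k e) s w - cm A0 a b c x F (D k) s w * cm A0 a b c x F (D e) s w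

variable {A0 : Finset ι} {a b c : ι → ℝ} {x s : ℝ} {F : (ι → ℝ) → ℝ} {D : ι → (ι → ℝ) → ℝ}
  {H T : ι → ι → (ι → ℝ) → ℝ} {B L M : ℝ}

lemma eg_sm (h : R1.Sm F D B L H T M) (k e : ι) : EG (sm D H k e) :=
  (h.eH k e).add ((h.eD k).mul (h.eD e))

lemma cont_sm (h : R1.Sm F D B L H T M) (k e : ι) : Continuous (sm D H k e) :=
  ((h.cD k).c1 e).add ((h.cF.c1 k).mul (h.cF.c1 e))

lemma hs_symm (h : R1.Sm F D B L H T M) (k e : ι) (w : ι ⊕ ι → ℝ) :
    hs A0 a b c x F D H k e s w = hs A0 a b c x F D H e k s w := by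
  unfold hs dcm
  have e1 : H k e = H e k := funext (h.sy k e)
  have e2 : (fun y => D k y * D e y) = fun y => D e y * D k y := by funext y; ring
  rw [e1, e2]
  ring

lemma kt_symm (h : R1.Sm F D B L H T M) (k e : ι) (w : ι ⊕ ι → ℝ) :
    kt A0 a b c x F D H k e s w = kt A0 a b c x F D H e k s w := by
  unfold kt
  have e1 : sm D H k e = sm D H e k := by
    funext y
    unfold sm
    rw [h.sy k e y]
    ring
  rw [e1]
  ring

/-- the quadratic form of the Gibbs covariance -/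
def qH (A0 : Finset ι) (H : ι → ι → (ι → ℝ) → ℝ) (v : ι → ℝ) (y : ι → ℝ) : ℝ :=
  ∑ k ∈ A0, ∑ e ∈ A0, v k * v e * H k e y

/-- the directional slope -/
def lD (A0 : Finset ι) (D : ι → (ι → ℝ) → ℝ) (v : ι → ℝ) (y : ι → ℝ) : ℝ := ∑ k ∈ A0, v k * D k y

lemma eg_qH (h : R1.Sm F D B L H T M) (v : ι → ℝ) : EG (qH A0 H v) :=
  EG.sum _ fun k _ => EG.sum _ fun e _ => (h.eH k e).const_mul _

lemma eg_lD (h : R1.Sm F D B L H T M) (v : ι → ℝ) : EG (lD A0 D v) :=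
  EG.sum _ fun k _ => (h.eD k).const_mul _

lemma cm_qH (h : R1.Sm F D B L H T M) (v : ι → ℝ) (s : ℝ) (w : ι ⊕ ι → ℝ) :
    cm A0 a b c x F (qH A0 H v) s w =
      ∑ k ∈ A0, ∑ e ∈ A0, v k * v e * cm A0 a b c x F (H k e) s w := by
  unfold qH
  rw [cm_sum _ h.c11 fun k _ => EG.sum _ fun e _ => (h.eH k e).const_mul _]
  refine Finset.sum_congr rfl fun k _ => ?_
  rw [cm_sum _ h.c11 fun e _ => (h.eH k e).const_mul _]
  exact Finset.sum_congr rfl fun e _ => cm_const_mul _ _ _ _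

lemma cm_lD (h : R1.Sm F D B L H T M) (v : ι → ℝ) (s : ℝ) (w : ι ⊕ ι → ℝ) :
    cm A0 a b c x F (lD A0 D v) s w = ∑ k ∈ A0, v k * cm A0 a b c x F (D k) s w := by
  unfold lD
  rw [cm_sum _ h.c11 fun k _ => (h.eD k).const_mul _]
  exact Finset.sum_congr rfl fun k _ => cm_const_mul _ _ _ _

lemma cm_lD_sq (h : R1.Sm F D B L H T M) (v : ι → ℝ) (s : ℝ) (w : ι ⊕ ι → ℝ) :
    cm A0 a b c x F (fun y => lD A0 D v y ^ 2) s w =
      ∑ k ∈ A0, ∑ e ∈ A0, v k * v e * cm A0 a b c x F (fun y => D k y * D e y) s w := by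
  have e0 : (fun y => lD A0 D v y ^ 2) =
      fun y => ∑ k ∈ A0, ∑ e ∈ A0, v k * v e * (D k y * D e y) := by
    funext y
    unfold lD
    rw [pow_two, Finset.sum_mul_sum]
    exact Finset.sum_congr rfl fun k _ => Finset.sum_congr rfl fun e _ => by ring
  rw [e0, cm_sum _ h.c11 fun k _ => EG.sum _ fun e _ => ((h.eD k).mul (h.eD e)).const_mul _]
  refine Finset.sum_congr rfl fun k _ => ?_
  rw [cm_sum _ h.c11 fun e _ => ((h.eD k).mul (h.eD e)).const_mul _]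
  exact Finset.sum_congr rfl fun e _ => cm_const_mul _ _ _ _

lemma sq_sum (v g : ι → ℝ) : (∑ k ∈ A0, v k * g k) ^ 2 =
    ∑ k ∈ A0, ∑ e ∈ A0, v k * v e * (g k * g e) := by
  rw [pow_two, Finset.sum_mul_sum]
  exact Finset.sum_congr rfl fun k _ => Finset.sum_congr rfl fun e _ => by ring

/-- The quadratic form of the Hessian. -/
lemma quad_hs (h : R1.Sm F D B L H T M) (v : ι → ℝ) (s : ℝ) (w : ι ⊕ ι → ℝ) :
    ∑ k ∈ A0, ∑ e ∈ A0, v k * v e * hs A0 a b c x F D H k e s w =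
      cm A0 a b c x F (qH A0 H v) s w + x * (cm A0 a b c x F (fun y => lD A0 D v y ^ 2) s w -
        cm A0 a b c x F (lD A0 D v) s w ^ 2) := by
  rw [cm_qH h, cm_lD_sq h, cm_lD h, sq_sum, ← Finset.sum_sub_distrib, Finset.mul_sum,
    ← Finset.sum_add_distrib]
  refine Finset.sum_congr rfl fun k _ => ?_
  rw [← Finset.sum_sub_distrib, Finset.mul_sum, ← Finset.sum_add_distrib]
  refine Finset.sum_congr rfl fun e _ => ?_
  unfold hs dcm
  ring

/-- The quadratic form of the covariance. -/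
lemma quad_kt (h : R1.Sm F D B L H T M) (v : ι → ℝ) (s : ℝ) (w : ι ⊕ ι → ℝ) :
    ∑ k ∈ A0, ∑ e ∈ A0, v k * v e * kt A0 a b c x F D H k e s w =
      cm A0 a b c x F (qH A0 H v) s w + (cm A0 a b c x F (fun y => lD A0 D v y ^ 2) s w -
        cm A0 a b c x F (lD A0 D v) s w ^ 2) := by
  rw [cm_qH h, cm_lD_sq h, cm_lD h, sq_sum, ← Finset.sum_sub_distrib,
    ← Finset.sum_add_distrib]
  refine Finset.sum_congr rfl fun k _ => ?_
  rw [← Finset.sum_sub_distrib, ← Finset.sum_add_distrib]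
  refine Finset.sum_congr rfl fun e _ => ?_
  have e1 : cm A0 a b c x F (sm D H k e) s w = cm A0 a b c x F (H k e) s w +
      cm A0 a b c x F (fun y => D k y * D e y) s w :=
    cm_add h.c11 (h.eH k e) ((h.eD k).mul (h.eD e)) s w
  unfold kt
  rw [e1]
  ring

/-- the positivity of the Hessian of `F` on the active coordinates -/
def Ps (A0 : Finset ι) (H : ι → ι → (ι → ℝ) → ℝ) : Prop := ∀ v y, 0 ≤ qH A0 H v y

lemma ps_of_cv (h : R1.Sm F D B L H T M) (hc : Cv F) (A0 : Finset ι) : Ps A0 H := by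
  intro v y
  have h1 := R1.vH_nonneg h hc (fun e => if e ∈ A0 then v e else 0) y
  refine h1.trans (le_of_eq ?_)
  unfold R1.vH qH
  rw [← Finset.sum_subset (Finset.subset_univ A0)]
  · refine Finset.sum_congr rfl fun k hk => ?_
    rw [← Finset.sum_subset (Finset.subset_univ A0)]
    · refine Finset.sum_congr rfl fun e he => ?_
      simp only [hk, he, if_true]
      ring
    · intro e _ he
      simp only [he, if_false, mul_zero]
  · intro k _ hk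
    refine Finset.sum_eq_zero fun e _ => ?_
    simp only [hk, if_false, mul_zero, zero_mul]

/-- **`0 ≤ kt`** as a quadratic form. -/
theorem quad_kt_nonneg (h : R1.Sm F D B L H T M) (hp : Ps A0 H) (v : ι → ℝ) (s : ℝ)
    (w : ι ⊕ ι → ℝ) : 0 ≤ ∑ k ∈ A0, ∑ e ∈ A0, v k * v e * kt A0 a b c x F D H k e s w := by
  rw [quad_kt h]
  have h1 := cm_nonneg (A0 := A0) (a := a) (b := b) (c := c) (x := x) h.c11 (eg_qH h v)
    (hp v) s w
  have h2 := cm_sq_le (A0 := A0) (a := a) (b := b) (c := c) (x := x) h.c11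
    (eg_lD (A0 := A0) h v) s w
  linarith

/-- **`x kt ≤ hs`** as quadratic forms, for `0 ≤ x ≤ 1`. -/
theorem quad_kt_le (h : R1.Sm F D B L H T M) (hp : Ps A0 H) (hx1 : x ≤ 1)
    (v : ι → ℝ) (s : ℝ) (w : ι ⊕ ι → ℝ) :
    x * ∑ k ∈ A0, ∑ e ∈ A0, v k * v e * kt A0 a b c x F D H k e s w ≤
      ∑ k ∈ A0, ∑ e ∈ A0, v k * v e * hs A0 a b c x F D H k e s w := by
  rw [quad_kt h, quad_hs h]
  have h1 := cm_nonneg (A0 := A0) (a := a) (b := b) (c := c) (x := x) h.c11 (eg_qH h v)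
    (hp v) s w
  nlinarith [mul_le_of_le_one_left h1 hx1]

/-- **The Frobenius norms**: `x² ∑ kt² ≤ ∑ hs²`. -/
theorem frob_kt_le (h : R1.Sm F D B L H T M) (hp : Ps A0 H) (hx : 0 ≤ x) (hx1 : x ≤ 1)
    (s : ℝ) (w : ι ⊕ ι → ℝ) :
    x ^ 2 * ∑ k ∈ A0, ∑ e ∈ A0, kt A0 a b c x F D H k e s w ^ 2 ≤
      ∑ k ∈ A0, ∑ e ∈ A0, hs A0 a b c x F D H k e s w ^ 2 := by
  have h1 := frob_mono' (A := A0) (K := fun k e => x * kt A0 a b c x F D H k e s w)
    (H := fun k e => hs A0 a b c x F D H k e s w)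
    (fun k e => by rw [kt_symm h]) (fun k e => hs_symm h k e w) (fun v => ?_) fun v => ?_
  · refine le_trans (le_of_eq ?_) h1
    rw [Finset.mul_sum]
    refine Finset.sum_congr rfl fun k _ => ?_
    rw [Finset.mul_sum]
    exact Finset.sum_congr rfl fun e _ => by ring
  · have h2 := mul_nonneg hx (quad_kt_nonneg (a := a) (b := b) (c := c) (x := x) h hp v s w)
    refine h2.trans (le_of_eq ?_)
    rw [Finset.mul_sum]
    refine Finset.sum_congr rfl fun k _ => ?_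
    rw [Finset.mul_sum]
    exact Finset.sum_congr rfl fun e _ => by ring
  · refine le_trans (le_of_eq ?_) (quad_kt_le (a := a) (b := b) (c := c) h hp hx1 v s w)
    rw [Finset.mul_sum]
    refine Finset.sum_congr rfl fun k _ => ?_
    rw [Finset.mul_sum]
    exact Finset.sum_congr rfl fun e _ => by ring

/-! ### the window -/

lemma ge_cm (h : C11 F D B L) {F2 : ι → (ι → ℝ) → ℝ} (hF : H325.C2 F D F2) (hx : 0 ≤ x)
    {φ : (ι → ℝ) → ℝ} (hφ : EG φ) (hc : Continuous φ) (A0 : Finset ι) (a b c : ι → ℝ) :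
    GE (cm A0 a b c x F φ) :=
  (ge_P ((h.eg_exp x).mul hφ) ((Real.continuous_exp.comp
    (continuous_const.mul hF.cont)).mul hc)).mul (den_zd h hF hx A0 a b c).ge_inv

lemma ge_kt (h : R1.Sm F D B L H T M) (hx : 0 ≤ x) (A0 : Finset ι) (a b c : ι → ℝ) (k e : ι) :
    GE (kt A0 a b c x F D H k e) :=
  (ge_cm h.c11 h.cF hx (eg_sm h k e) (cont_sm h k e) A0 a b c).sub
    ((ge_cm h.c11 h.cF hx (h.eD k) (h.cF.c1 k) A0 a b c).mul
      (ge_cm h.c11 h.cF hx (h.eD e) (h.cF.c1 e) A0 a b c))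

lemma ge_dcm (h : C11 F D B L) {F2 φ1 φ2 : ι → (ι → ℝ) → ℝ} (hF : H325.C2 F D F2)
    {φ : (ι → ℝ) → ℝ} (hφ : H325.C2 φ φ1 φ2) (hx : 0 ≤ x) (A0 : Finset ι) (a b c : ι → ℝ)
    (e : ι) : GE (dcm A0 a b c x F D φ φ1 e) :=
  (ge_cm h hF hx (hφ.eg1 e) (hφ.c1 e) A0 a b c).add
    (((ge_cm h hF hx (hφ.eg.mul (h.eg_D e)) (hφ.cont.mul (hF.c1 e)) A0 a b c).sub
      ((ge_cm h hF hx hφ.eg hφ.cont A0 a b c).mul
        (ge_cm h hF hx (h.eg_D e) (hF.c1 e) A0 a b c))).const_mul x)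

/-- the weighted mean of `∑ kt²` at the share `s` (not normalised) -/
noncomputable def Kq (A0 : Finset ι) (a b c : ι → ℝ) (x : ℝ) (F : (ι → ℝ) → ℝ)
    (D : ι → (ι → ℝ) → ℝ) (H : ι → ι → (ι → ℝ) → ℝ) (Y : (ι ⊕ ι → ℝ) → ℝ) (s : ℝ) : ℝ :=
  ∫ w, zd A0 a b c x F s w * (Y w * ∑ k ∈ A0, ∑ e ∈ A0, kt A0 a b c x F D H k e s w ^ 2)
    ∂(gI (ι ⊕ ι))

/-- the weighted mean of `∑ hs²` at the share `s` (not normalised) -/
noncomputable def Hq (A0 : Finset ι) (a b c : ι → ℝ) (x : ℝ) (F : (ι → ℝ) → ℝ)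
    (D : ι → (ι → ℝ) → ℝ) (H : ι → ι → (ι → ℝ) → ℝ) (Y : (ι ⊕ ι → ℝ) → ℝ) (s : ℝ) : ℝ :=
  ∫ w, zd A0 a b c x F s w * (Y w * ∑ k ∈ A0, ∑ e ∈ A0, hs A0 a b c x F D H k e s w ^ 2)
    ∂(gI (ι ⊕ ι))

/-- the weighted mean of `∑ (cm (D k))²` at the share `s` (not normalised) -/
noncomputable def QqF (A0 : Finset ι) (a b c : ι → ℝ) (x : ℝ) (F : (ι → ℝ) → ℝ)
    (D : ι → (ι → ℝ) → ℝ) (Y : (ι ⊕ ι → ℝ) → ℝ) (s : ℝ) : ℝ :=
  ∫ w, zd A0 a b c x F s w * (Y w * ∑ k ∈ A0, cm A0 a b c x F (D k) s w ^ 2) ∂(gI (ι ⊕ ι))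

variable {Y : (ι ⊕ ι → ℝ) → ℝ}

lemma cont_Kq (h : R1.Sm F D B L H T M) (hx : 0 ≤ x) (A0 : Finset ι) (a b c : ι → ℝ)
    (hY : EG Y) : ContinuousOn (Kq A0 a b c x F D H Y) (Set.Icc 0 1) :=
  ((den_zd h.c11 h.cF hx A0 a b c).kf.gf.mul ((GE.of_eg hY).mul (GE.sum A0 fun k _ =>
    GE.sum A0 fun e _ => (ge_kt h hx A0 a b c k e).pow 2))).continuousOn

lemma cont_Hq (h : R1.Sm F D B L H T M) (hx : 0 ≤ x) (A0 : Finset ι) (a b c : ι → ℝ)
    (hY : EG Y) : ContinuousOn (Hq A0 a b c x F D H Y) (Set.Icc 0 1) :=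
  ((den_zd h.c11 h.cF hx A0 a b c).kf.gf.mul ((GE.of_eg hY).mul (GE.sum A0 fun k _ =>
    GE.sum A0 fun e _ => (ge_dcm h.c11 h.cF (h.cD k) hx A0 a b c e).pow 2))).continuousOn

/-- **The window identity**: `∫ E|hs|² ds` is the increment of `E ∑ (cm (D k))²`. -/
theorem window_hs (h : R1.Sm F D B L H T M) (hx : 0 ≤ x) (A0 : Finset ι) (a b c : ι → ℝ)
    (hY : EG Y) (hYi : ∀ e ∈ A0, ∀ w t, Y (Function.update w (Sum.inl e) t) = Y w)
    {s0 s1 : ℝ} (h0 : 0 ≤ s0) (h01 : s0 ≤ s1) (h1 : s1 ≤ 1) :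
    ∫ s in s0..s1, Hq A0 a b c x F D H Y s = QqF A0 a b c x F D Y s1 - QqF A0 a b c x F D Y s0 :=
  ftc_sq h.c11 h.cF A0 (fun k _ => h.cD k) hx A0 a b c hY hYi h0 h01 h1

lemma Kq_le_Hq (h : R1.Sm F D B L H T M) (hp : Ps A0 H) (hx : 0 ≤ x) (hx1 : x ≤ 1)
    (hY : EG Y) (hY0 : ∀ w, 0 ≤ Y w) {s : ℝ} (hsI : s ∈ Set.Icc (0 : ℝ) 1) :
    x ^ 2 * Kq A0 a b c x F D H Y s ≤ Hq A0 a b c x F D H Y s := by
  unfold Kq Hq
  rw [← integral_const_mul]
  have g0 := (den_zd h.c11 h.cF hx A0 a b c).kf.gf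
  have g1 := g0.mul ((GE.of_eg hY).mul (GE.sum A0 fun k _ =>
    GE.sum A0 fun e _ => (ge_kt h hx A0 a b c k e).pow 2))
  have g2 := g0.mul ((GE.of_eg hY).mul (GE.sum A0 fun k _ =>
    GE.sum A0 fun e _ => (ge_dcm h.c11 h.cF (h.cD k) hx A0 a b c e).pow 2))
  refine integral_mono ((g1.eg hsI).integrable.const_mul (x ^ 2)) (g2.eg hsI).integrable
    fun w => ?_
  have h1 := frob_kt_le (a := a) (b := b) (c := c) h hp hx hx1 s w
  have h2 : 0 ≤ zd A0 a b c x F s w * Y w := mul_nonneg (zd_pos h.c11 x s w).le (hY0 w)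
  have h3 := mul_le_mul_of_nonneg_left h1 h2
  show x ^ 2 * (zd A0 a b c x F s w * (Y w * ∑ k ∈ A0, ∑ e ∈ A0,
    kt A0 a b c x F D H k e s w ^ 2)) ≤ zd A0 a b c x F s w * (Y w * ∑ k ∈ A0, ∑ e ∈ A0,
    hs A0 a b c x F D H k e s w ^ 2)
  linarith

/-- **RANK ONE, window form**: `x² ∫ E|kt|² ds ≤ E|m|²(s1) - E|m|²(s0)`. -/
theorem window_kt (h : R1.Sm F D B L H T M) (hp : Ps A0 H) (hx : 0 ≤ x) (hx1 : x ≤ 1)
    (a b c : ι → ℝ) (hY : EG Y) (hY0 : ∀ w, 0 ≤ Y w)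
    (hYi : ∀ e ∈ A0, ∀ w t, Y (Function.update w (Sum.inl e) t) = Y w)
    {s0 s1 : ℝ} (h0 : 0 ≤ s0) (h01 : s0 ≤ s1) (h1 : s1 ≤ 1) :
    x ^ 2 * ∫ s in s0..s1, Kq A0 a b c x F D H Y s ≤
      QqF A0 a b c x F D Y s1 - QqF A0 a b c x F D Y s0 := by
  rw [← window_hs h hx A0 a b c hY hYi h0 h01 h1, ← intervalIntegral.integral_const_mul]
  have hsub : Set.uIcc s0 s1 ⊆ Set.Icc (0 : ℝ) 1 := by
    rw [Set.uIcc_of_le h01]
    exact Set.Icc_subset_Icc h0 h1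
  refine intervalIntegral.integral_mono_on h01
    (((cont_Kq h hx A0 a b c hY).mono hsub).intervalIntegrable.const_mul _)
    ((cont_Hq h hx A0 a b c hY).mono hsub).intervalIntegrable fun s hs => ?_
  exact Kq_le_Hq h hp hx hx1 hY hY0 ⟨h0.trans hs.1, hs.2.trans h1⟩

lemma Qq_nonneg (h : R1.Sm F D B L H T M) (hY0 : ∀ w, 0 ≤ Y w) (s : ℝ) :
    0 ≤ QqF A0 a b c x F D Y s :=
  integral_nonneg fun w => mul_nonneg (zd_pos h.c11 x s w).le
    (mul_nonneg (hY0 w) (Finset.sum_nonneg fun _ _ => sq_nonneg _))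

/-- **RANK ONE at one share of the window.** -/
theorem rank_one (h : R1.Sm F D B L H T M) (hp : Ps A0 H) (hx : 0 ≤ x) (hx1 : x ≤ 1)
    (a b c : ι → ℝ) (hY : EG Y) (hY0 : ∀ w, 0 ≤ Y w)
    (hYi : ∀ e ∈ A0, ∀ w t, Y (Function.update w (Sum.inl e) t) = Y w)
    {s0 s1 : ℝ} (h0 : 0 ≤ s0) (h01 : s0 < s1) (h1 : s1 ≤ 1) :
    ∃ s ∈ Set.Icc s0 s1, x ^ 2 * ((s1 - s0) * Kq A0 a b c x F D H Y s) ≤
      QqF A0 a b c x F D Y s1 := by
  by_contra hcon
  simp only [not_exists, not_and, not_le] at hcon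
  have hsub : Set.uIcc s0 s1 ⊆ Set.Icc (0 : ℝ) 1 := by
    rw [Set.uIcc_of_le h01.le]
    exact Set.Icc_subset_Icc h0 h1
  have hi := (((cont_Kq h hx A0 a b c hY).mono hsub).intervalIntegrable (μ := volume)).const_mul
    (x ^ 2 * (s1 - s0))
  have h2 : ∫ _s in s0..s1, QqF A0 a b c x F D Y s1 <
      ∫ s in s0..s1, x ^ 2 * (s1 - s0) * Kq A0 a b c x F D H Y s := by
    refine intervalIntegral.integral_lt_integral_of_continuousOn_of_le_of_exists_lt h01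
      continuousOn_const ?_ (fun s hs => ?_) ⟨s0, ⟨le_rfl, h01.le⟩, ?_⟩
    · rw [Set.uIcc_of_le h01.le] at hsub
      exact continuousOn_const.mul ((cont_Kq h hx A0 a b c hY).mono hsub)
    · have := hcon s ⟨hs.1.le, hs.2⟩
      linarith
    · have := hcon s0 ⟨le_rfl, h01.le⟩
      linarith
  rw [intervalIntegral.integral_const, smul_eq_mul, intervalIntegral.integral_const_mul] at h2
  have h3 := window_kt h hp hx hx1 a b c hY hY0 hYi h0 h01.le h1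
  have h4 := Qq_nonneg (A0 := A0) (a := a) (b := b) (c := c) (x := x) h hY0 s0
  have h5 : (s1 - s0) * (x ^ 2 * ∫ s in s0..s1, Kq A0 a b c x F D H Y s) ≤
      (s1 - s0) * QqF A0 a b c x F D Y s1 :=
    mul_le_mul_of_nonneg_left (by linarith) (by linarith)
  have h6 : x ^ 2 * (s1 - s0) * ∫ s in s0..s1, Kq A0 a b c x F D H Y s =
      (s1 - s0) * (x ^ 2 * ∫ s in s0..s1, Kq A0 a b c x F D H Y s) := by ring
  linarith

/-! ### consequences, pointwise in the position -/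

section alg

variable {α : Type*} {A : Finset α} {K : α → α → ℝ} {m : α → ℝ}

/-- the quadratic form of `K` at `m` is at most the Frobenius norm times `|m|²` -/
lemma quad_le_frob (A : Finset α) (K : α → α → ℝ) (m g : α → ℝ) :
    (∑ k ∈ A, ∑ e ∈ A, m k * g e * K k e) ^ 2 ≤
      (∑ k ∈ A, ∑ e ∈ A, K k e ^ 2) * ((∑ k ∈ A, m k ^ 2) * ∑ k ∈ A, g k ^ 2) := by
  have h1 := Finset.sum_mul_sq_le_sq_mul_sq (A ×ˢ A) (fun p => K p.1 p.2)
    (fun p => m p.1 * g p.2)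
  simp only [Finset.sum_product] at h1
  have e1 : ∑ k ∈ A, ∑ e ∈ A, K k e * (m k * g e) = ∑ k ∈ A, ∑ e ∈ A, m k * g e * K k e :=
    Finset.sum_congr rfl fun k _ => Finset.sum_congr rfl fun e _ => by ring
  have e2 : ∑ k ∈ A, ∑ e ∈ A, (m k * g e) ^ 2 = (∑ k ∈ A, m k ^ 2) * ∑ k ∈ A, g k ^ 2 := by
    rw [Finset.sum_mul_sum]
    exact Finset.sum_congr rfl fun k _ => Finset.sum_congr rfl fun e _ => by ring
  rwa [e1, e2] at h1

/-- the second moments compared with the square of `|m|²`, for any `θ > 0` -/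
theorem second_moment (A : Finset α) (K : α → α → ℝ) (m : α → ℝ) {θ : ℝ} (hθ : 0 < θ) :
    |∑ k ∈ A, ∑ e ∈ A, (K k e + m k * m e) ^ 2 - (∑ k ∈ A, m k ^ 2) ^ 2| ≤
      (1 + 1 / θ) * ∑ k ∈ A, ∑ e ∈ A, K k e ^ 2 + θ * (∑ k ∈ A, m k ^ 2) ^ 2 := by
  set k2 := ∑ k ∈ A, ∑ e ∈ A, K k e ^ 2 with hk2
  set q := ∑ k ∈ A, m k ^ 2 with hq
  set r := ∑ k ∈ A, ∑ e ∈ A, m k * m e * K k e with hr
  have e1 : ∑ k ∈ A, ∑ e ∈ A, (K k e + m k * m e) ^ 2 = k2 + 2 * r + q ^ 2 := by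
    have e2 : q ^ 2 = ∑ k ∈ A, ∑ e ∈ A, (m k * m e) ^ 2 := by
      rw [hq, pow_two, Finset.sum_mul_sum]
      exact Finset.sum_congr rfl fun k _ => Finset.sum_congr rfl fun e _ => by ring
    rw [e2, hk2, hr, Finset.mul_sum, ← Finset.sum_add_distrib, ← Finset.sum_add_distrib]
    refine Finset.sum_congr rfl fun k _ => ?_
    rw [Finset.mul_sum, ← Finset.sum_add_distrib, ← Finset.sum_add_distrib]
    exact Finset.sum_congr rfl fun e _ => by ring
  have h1 : r ^ 2 ≤ k2 * (q * q) := quad_le_frob A K m m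
  have hk0 : 0 ≤ k2 := Finset.sum_nonneg fun _ _ => Finset.sum_nonneg fun _ _ => sq_nonneg _
  have h2 : |2 * r| ≤ 1 / θ * k2 + θ * q ^ 2 := by
    refine abs_le_of_sq_le_sq ?_ (by positivity)
    have h3 : (1 / θ * k2 + θ * q ^ 2) ^ 2 = (1 / θ * k2 - θ * q ^ 2) ^ 2 +
        4 * (k2 * (q * q)) := by
      field_simp
      ring
    rw [h3]
    nlinarith [sq_nonneg (1 / θ * k2 - θ * q ^ 2)]
  rw [e1]
  have e3 : k2 + 2 * r + q ^ 2 - q ^ 2 = k2 + 2 * r := by ring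
  rw [e3]
  calc |k2 + 2 * r| ≤ |k2| + |2 * r| := abs_add_le _ _
    _ ≤ k2 + (1 / θ * k2 + θ * q ^ 2) := by rw [abs_of_nonneg hk0]; linarith
    _ = _ := by ring

end alg

/-- **`E[R²|position]` against `Q²`**: with `m k = cm (D k)`. -/
theorem second_moment_cm (A0 : Finset ι) (a b c : ι → ℝ) (x : ℝ) (F : (ι → ℝ) → ℝ)
    (D : ι → (ι → ℝ) → ℝ) (H : ι → ι → (ι → ℝ) → ℝ) (s : ℝ) (w : ι ⊕ ι → ℝ)
    {θ : ℝ} (hθ : 0 < θ) :
    |∑ k ∈ A0, ∑ e ∈ A0, cm A0 a b c x F (sm D H k e) s w ^ 2 -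
        (∑ k ∈ A0, cm A0 a b c x F (D k) s w ^ 2) ^ 2| ≤
      (1 + 1 / θ) * ∑ k ∈ A0, ∑ e ∈ A0, kt A0 a b c x F D H k e s w ^ 2 +
        θ * (∑ k ∈ A0, cm A0 a b c x F (D k) s w ^ 2) ^ 2 := by
  have h1 := second_moment A0 (fun k e => kt A0 a b c x F D H k e s w)
    (fun k => cm A0 a b c x F (D k) s w) hθ
  have e1 : ∀ k e, kt A0 a b c x F D H k e s w + cm A0 a b c x F (D k) s w *
      cm A0 a b c x F (D e) s w = cm A0 a b c x F (sm D H k e) s w := fun k e => by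
    unfold kt
    ring
  simpa only [e1] using h1

end Vale.Agent.P146.H118
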