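import Vale.Agent.P146.H585.NeUn
import Vale.Agent.P146.H646.DvU

/-!
The upper half of the untested row equation in the ensemble `U` (regime 2 of the final version):
frozen coordinates `Kset S BL FL`, modulated levels may be revealed.

* `row_up`: `(Q + inc) / #S ≤ kp² (τ Q + v) + C3 + 2 kp (τ D + v Df)`;
* `icU_nonneg`: the increment is nonnegative;
* `reg2_q`: the inequality for the mean square of the magnetisation in normalised letters, with the
  numbers `PVU` (`H646.DvU`) and the mean of the last square `C3` as inputs.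
-/

open MeasureTheory ProbabilityTheory Filter Topology

namespace Vale.Agent.P146.H118

open Vale.Agent.P157.Lv Vale.Agent.P146.H196 Vale.Agent.P146.H646 Vale.Agent.P146.H161
  Vale.Agent.P146.H615 Vale.Agent.P146.H475 Vale.Agent.P146.H816 Vale.Agent.P146.H325
  Vale.Agent.P146.H347 Vale.Agent.P146.H347.U Vale.Agent.P146.H281.U Vale.Agent.P146.H585
  Vale.Agent.P146.H585.U

set_option linter.unusedSectionVars false

section row

variable {Θ : Type} [MeasurableSpace Θ] {n : ℕ} {LB LF : Type}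
variable [Fintype LB] [DecidableEq LB] [Fintype LF] [DecidableEq LF]
variable (b : ℝ) (cB : LB → ℝ) (cF cP : LF → ℝ) (a : LF → Θ → ℝ) {i0 : Fin n}
  {S : Finset (Fin n)} (BL : Finset LB) (FL : Finset LF)

/-- **The upper half of the untested row equation in the ensemble `U`.** -/
theorem row_up {ν : Measure Θ} (hν : IsFiniteMeasure ν) (h0 : ν ≠ 0) {η : ℝ} (hA : AmU a η)
    {x : ℝ} (hx0 : 0 ≤ x) (hx1 : x ≤ 1) (hi : i0 ∉ S) (hS : S.Nonempty)
    (hP : ∀ l ∈ FL, ∀ θ, cP l * (cF l * a l θ) = cP l ^ 2)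
    {kp : ℝ} (hk : 0 ≤ kp) {τ v : ℝ}
    (hτ : τ = b ^ 2 / n * ∑ l ∈ BL, cB l ^ 2) (hv : v = ∑ l ∈ FL, cP l ^ 2)
    {w : (Co n LB LF → ℝ) → ℝ} (hw : w = Zxm (muU ν n) 1 (SU b cB cF a) x)
    {av : (Θ × Xs n → ℝ) → (Co n LB LF → ℝ) → ℝ}
    (hav : av = avm (muU ν n) 1 (SU b cB cF a))
    {r : Θ → ℝ} (hr : Measurable r) {Cr : ℝ} (hrb : ∀ θ, |r θ| ≤ Cr)
    {M : Fin n → (Co n LB LF → ℝ) → ℝ}
    (hM : M = fun j => cx (g1 _) (Kset S BL FL) w (av fun ω => r ω.1 * sp ω.2 j))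
    {N : (Co n LB LF → ℝ) → ℝ}
    (hN : N = cx (g1 _) (Kset (insert i0 S) BL FL) w (av fun ω => r ω.1 * sp ω.2 i0))
    {inc : ℝ} (hinc : inc = ∑ j ∈ S, (ex (g1 _) w (fun z =>
        cx (g1 _) (Kset (insert i0 S) BL FL) w (av fun ω => r ω.1 * sp ω.2 j) z ^ 2) -
        ex (g1 _) w (fun z => M j z ^ 2)))
    {D Df : ℝ}
    (hI : |ex (g1 _) w (fun z => ∑ j ∈ S, M j z * Th av x (fun ω => r ω.1)
        (fun ω => sp ω.2 i0) (fun j ω => sp ω.2 j) j z) -
      kp * ex (g1 _) w (fun z => m2 S M z)| ≤ D)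
    (hF : |ex (g1 _) w (fun z => Tf av x (fun ω => r ω.1) (fun ω => sp ω.2 i0) z) - kp| ≤ Df) :
    (ex (g1 _) w (fun z => m2 S M z) + inc) / S.card ≤
      kp ^ 2 * (τ * ex (g1 _) w (fun z => m2 S M z) + v) +
      ex (g1 _) w (fun z => cx (g1 _) (Kset S BL FL) w (fun y =>
        (N y - lc (Rw i0 S BL FL) (cfr i0 b cB cP kp M z) y) ^ 2) z) +
      2 * kp * (τ * D + v * Df) := by
  have hw' : Wt (g1 (Co n LB LF)) w := by rw [hw]; exact wtU b cB cF hν h0 hA x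
  have hG := gmU (n := n) b cB cF η hν h0 hA
  have hAv : Av av := by rw [hav]; exact av_avm hG 1
  have bF : ∀ j, BM (av fun ω => r ω.1 * sp ω.2 j) := fun j => by
    rw [hav]
    exact bmU b cB cF hν h0 hA (bm_fun_sp hr hrb j)
  have bM : ∀ j, BM (M j) := fun j => by rw [hM]; exact hw'.bm_cx _ (bF j)
  have dM : ∀ j, H646.Dep (Kset S BL FL) (M j) := fun j => by rw [hM]; exact H646.dep_cx _
  have hs : ∀ j : Fin n, Bd fun ω : Θ × Xs n => sp ω.2 j := fun j => bm_spU j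
  have hst := hstar_ku b cB cF cP a BL FL hν h0 hA x hi hP M bM dM kp
    (φ := fun _ => 1) (fun _ _ => rfl) (BM.const 1) hτ hv hw hav hr hrb rfl rfl rfl
  have hτ0 : 0 ≤ τ := by
    rw [hτ]
    exact mul_nonneg (div_nonneg (sq_nonneg _) (Nat.cast_nonneg _))
      (Finset.sum_nonneg fun _ _ => sq_nonneg _)
  have hv0 : 0 ≤ v := by rw [hv]; exact Finset.sum_nonneg fun _ _ => sq_nonneg _
  have key := (easm_pair (S := S) (M := M) (s := fun j (ω : Θ × Xs n) => sp ω.2 j)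
    (s0 := fun ω : Θ × Xs n => sp ω.2 i0) (a := fun ω : Θ × Xs n => r ω.1) hw' hAv hs bM
    (hs i0) (fun ω => (abs_one_sp ω.2 i0).le) hx0 hx1 hτ0 hv0 hk (φ := fun _ => 1)
    (BM.const 1) (fun _ => zero_le_one) (D := D) (Df := Df)
    (by simpa only [one_mul] using hI)
    (by simpa only [one_mul, ex_const hw' 1, mul_one] using hF) rfl rfl hst).2
  simp only [one_mul] at key
  -- exchangeability
  have hc : (0 : ℝ) < S.card := by exact_mod_cast hS.card_pos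
  have hE := exch_one (by rw [hw]; exact invP_ZU b cB cF a hν 1 x) hw'
    (Ψ := fun j => av fun ω => r ω.1 * sp ω.2 j)
    (by rw [hav]; exact eq1_spU b cB cF a hν 1 r) bF hi BL FL
  have hE' : ex (g1 _) w (fun z => cx (g1 _) (Kset (insert i0 S) BL FL) w
      (av fun ω => r ω.1 * sp ω.2 i0) z ^ 2) =
      (ex (g1 _) w (fun z => m2 S M z) + inc) / S.card := by
    rw [eq_div_iff hc.ne', mul_comm, hE, hinc, hM]
  have eY : ex (g1 _) w (fun z => Yf S M τ v z) = τ * ex (g1 _) w (fun z => m2 S M z) + v := by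
    have e : (fun z => Yf S M τ v z) = fun z => τ * m2 S M z + v := rfl
    rw [e, ex_add hw' (bcm τ (bm_m2 hAv hs bM)) (BM.const v), ex_cmul, ex_const hw' v]
  rw [hE', eY] at key
  rw [hN]
  exact key

end row

variable {Θ : Type} [MeasurableSpace Θ] {n : ℕ} {LB LF : Type} [Fintype LB] [DecidableEq LB]
  [Fintype LF] [DecidableEq LF]

/-- the mean of the last square of the row -/
noncomputable def C3L (n : ℕ) (ν : Measure Θ) (b : ℝ) (cB : LB → ℝ) (cF cP : LF → ℝ)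
    (a : LF → Θ → ℝ) (x kp : ℝ) (BL : Finset LB) (FL : Finset LF) (r : Θ → ℝ)
    (S : Finset (Fin n)) (i0 : Fin n) : ℝ :=
  exU n ν b cB cF a x (fun z => cxU n ν b cB cF a x (Kset S BL FL) (fun y =>
    (cxU n ν b cB cF a x (Kset (insert i0 S) BL FL)
      (avU n ν b cB cF a fun ω => r ω.1 * sp ω.2 i0) y -
      lc (Rw i0 S BL FL) (cfr i0 b cB cP kp (fun j => MU n ν b cB cF a x (Kset S BL FL) r j) z)
        y) ^ 2) z)

/-- the increment is nonnegative -/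
lemma icU_nonneg {ν : Measure Θ} (hν : IsFiniteMeasure ν) (h0 : ν ≠ 0) (b : ℝ) (cB : LB → ℝ)
    (cF : LF → ℝ) {a : LF → Θ → ℝ} {η : ℝ} (hA : AmU a η) (x : ℝ) {K K' : Finset (Co n LB LF)}
    (hK : K ⊆ K') {r : Θ → ℝ} (hr : Measurable r) {Cr : ℝ} (hrb : ∀ θ, |r θ| ≤ Cr)
    (S : Finset (Fin n)) : 0 ≤ icU n ν b cB cF a x K K' r S := by
  have hw : Wt (g1 (Co n LB LF)) (Zxm (muU ν n) 1 (SU b cB cF a) x) := wtU b cB cF hν h0 hA x
  refine Finset.sum_nonneg fun j _ => sub_nonneg.2 ?_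
  exact ex_cx_sq_mono hw hK (bmU b cB cF hν h0 hA (bm_fun_sp hr hrb j))

/-- the arithmetic of `reg2_q` -/
lemma reg2_alg {n s b t kp v q ic D D' Df Df' C3 dth wF NL PV pv cc η crd R x : ℝ} (hn : 0 < n)
    (hk : 0 < kp) (hs : 0 < s) (ht : 0 ≤ t) (hv : 0 ≤ v) (hic : 0 ≤ ic)
    (key : (n * q + ic) / s ≤ kp ^ 2 * (b ^ 2 / n * t * (n * q) + v) + C3 +
      2 * kp * (b ^ 2 / n * t * D + v * Df))
    (hD : D ≤ n * D') (hDf : Df ≤ Df')
    (hC3 : C3 ≤ 6 * (b ^ 2 * t / n * dth + 40 * wF) + NL)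
    (hdth : dth ≤ 2 * (8 * (1 + η) ^ 2 * √R / crd) + 2 * ((1 - x) ^ 2 * PV))
    (hR : R ≤ (n * cc) ^ 2) (hcc : 0 ≤ cc) (hcr : 0 < crd) (hPV : (1 - x) ^ 2 * PV ≤ n * pv) :
    (n / s - (b * kp) ^ 2 * t) * q ≤ kp ^ 2 * v + 240 * wF + NL +
      6 * (b ^ 2 * t * (16 * (1 + η) ^ 2 * cc / crd + 2 * pv)) +
      2 * kp * (b ^ 2 * t * D' + v * Df') := by
  have h1 : (n * q + ic) / s = n / s * q + ic / s := by ring
  have h2 : 0 ≤ ic / s := div_nonneg hic hs.le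
  have h3 : b ^ 2 / n * t * (n * q) = b ^ 2 * t * q := by field_simp
  have h4 : b ^ 2 / n * t * D ≤ b ^ 2 * t * D' := by
    calc b ^ 2 / n * t * D ≤ b ^ 2 / n * t * (n * D') :=
          mul_le_mul_of_nonneg_left hD (by positivity)
      _ = b ^ 2 * t * D' := by field_simp
  have h5 : v * Df ≤ v * Df' := mul_le_mul_of_nonneg_left hDf hv
  have h6 : 2 * kp * (b ^ 2 / n * t * D + v * Df) ≤ 2 * kp * (b ^ 2 * t * D' + v * Df') :=
    mul_le_mul_of_nonneg_left (add_le_add h4 h5) (by positivity)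
  have h7 : √R ≤ n * cc := by
    rw [← Real.sqrt_sq (mul_nonneg hn.le hcc)]; exact Real.sqrt_le_sqrt hR
  have h8 : 2 * (8 * (1 + η) ^ 2 * √R / crd) ≤ n * (16 * (1 + η) ^ 2 * cc / crd) := by
    have e : n * (16 * (1 + η) ^ 2 * cc / crd) = 2 * (8 * (1 + η) ^ 2 * (n * cc) / crd) := by ring
    rw [e]
    refine mul_le_mul_of_nonneg_left ?_ (by norm_num)
    exact div_le_div_of_nonneg_right (mul_le_mul_of_nonneg_left h7 (by positivity)) hcr.le
  have h9 : 2 * ((1 - x) ^ 2 * PV) ≤ n * (2 * pv) := by linarith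
  have h10 : b ^ 2 * t / n * dth ≤ b ^ 2 * t * (16 * (1 + η) ^ 2 * cc / crd + 2 * pv) := by
    calc b ^ 2 * t / n * dth ≤
        b ^ 2 * t / n * (n * (16 * (1 + η) ^ 2 * cc / crd) + n * (2 * pv)) :=
          mul_le_mul_of_nonneg_left (hdth.trans (add_le_add h8 h9)) (by positivity)
      _ = _ := by field_simp
  rw [h1, h3] at key
  have e2 : (n / s - (b * kp) ^ 2 * t) * q = n / s * q - kp ^ 2 * (b ^ 2 * t * q) := by ring
  rw [e2]
  nlinarith [mul_nonneg (sq_nonneg kp) hv]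

variable {Gt : Type} [Fintype Gt] [DecidableEq Gt]

/-- **Regime 2 in the ensemble `U`, the inequality for the magnetisation**, `S1` = all sites. -/
theorem reg2_q {lam c : Gt → ℝ} (h : ∀ g, 0 < lam g) (b : ℝ) (cB : LB → ℝ) (cF : LF → ℝ)
    {a : LF → (Gt → ℝ) → ℝ} {η : ℝ} (hA : AmU a η) {g0 : Gt}
    {Lm : Finset LF} (hM : Mods a η g0 Lm)
    {x : ℝ} (hx0 : 0 ≤ x) (hx : x < 1) {s2 : ℝ} (hs2 : ∑ l ∈ Lm, cF l ^ 2 = s2)
    (hs : 0 < s2) {r0 kp : ℝ} (hkp : kp = 1 - (1 - x) * r0)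
    (hc : c g0 = s2 * n * kp) (hk : 0 < kp)
    {S : Finset (Fin n)} (hSn : S.Nonempty) {i0 : Fin n} (hi : i0 ∉ S)
    (BL : Finset LB) (FL : Finset LF)
    {P : Finset LF} (hP : ∀ l ∈ P, ∀ θ, a l θ = 1)
    {t v : ℝ} (ht : t = ∑ l ∈ BL, cB l ^ 2) (hv : v = ∑ l ∈ FL ∩ P, cF l ^ 2)
    {q cc cS X pv wF NL : ℝ}
    (hq : QsU n (nuG lam η c) b cB cF a x (Kset S BL FL) (fun θ => al η (θ g0)) S = n * q)
    (hcc0 : 0 ≤ cc) (hcc : R2U n (nuG lam η c) b cB cF a x (Kset Finset.univ BL FL)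
      Finset.univ ≤ (n * cc) ^ 2)
    (hcS0 : 0 ≤ cS) (hcS : R2U n (nuG lam η c) b cB cF a x (Kset S BL FL) S ≤ (n * cS) ^ 2)
    (hX : X2U n (nuG lam η c) b cB cF a x (Kset S BL FL) (fun θ => al η (θ g0)) S ≤
      (n : ℝ) ^ 2 * X)
    (hpv : (1 - x) ^ 2 * PVU n (nuG lam η c) b cB cF a x r0 (Kset S BL FL)
      (fun θ => al η (θ g0)) S ≤ n * pv)
    (hC3 : C3L n (nuG lam η c) b cB cF (cPl P cF) a x kp BL FL (fun θ => al η (θ g0)) S i0 ≤
      6 * (b ^ 2 * t / n * exU n (nuG lam η c) b cB cF a x (DthU n (nuG lam η c) b cB cF a x kp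
        (Kset S BL FL) (fun θ => al η (θ g0)) S i0) + 40 * wF) + NL) :
    (n / S.card - (b * kp) ^ 2 * t) * q ≤
      kp ^ 2 * v + 240 * wF + NL +
      6 * (b ^ 2 * t * (16 * (1 + η) ^ 2 * cc / (Sᶜ.card : ℝ) + 2 * pv)) +
      2 * kp * (b ^ 2 * t * ((√(8 * (1 + η) ^ 2 * cc / (Sᶜ.card : ℝ)) +
        lam g0 / (s2 * n) * √cS + (|r0| + 1) * (1 + η) *
          √(stk n (nuG lam η c) b cB cF a η x g0)) * √q +
        √X * √(2 * cS ^ 2 + 2 * stk n (nuG lam η c) b cB cF a η x g0)) +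
      v * (kp * η + lam g0 / (s2 * n) +
          (|r0| + 1) * (1 + η) * stk n (nuG lam η c) b cB cF a η x g0)) := by
  have hη := hA.nn
  have hν := finite_nuG h hη c
  have h0 := nuG_ne h hη c
  have hnp : 0 < n := lt_of_le_of_lt (Nat.zero_le _) i0.2
  have hn : (0 : ℝ) < n := by exact_mod_cast hnp
  have hsc : (0 : ℝ) < S.card := by exact_mod_cast hSn.card_pos
  have ht0 : 0 ≤ t := by rw [ht]; exact Finset.sum_nonneg fun _ _ => sq_nonneg _
  have hv0 : 0 ≤ v := by rw [hv]; exact Finset.sum_nonneg fun _ _ => sq_nonneg _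
  have hne : (Finset.univ \ S).Nonempty := ⟨i0, by simp [hi]⟩
  have hcomp : Finset.univ \ S = Sᶜ := by rw [Finset.compl_eq_univ_sdiff]
  have hD0 : (0 : ℝ) < (Sᶜ.card : ℝ) := by
    rw [hcomp] at hne
    exact_mod_cast hne.card_pos
  have hgg : 0 ≤ lam g0 / (s2 * n) := div_nonneg (h g0).le (by positivity)
  have hr : Measurable fun θ : Gt → ℝ => al η (θ g0) :=
    (measurable_al η).comp (measurable_pi_apply g0)
  have hrη : ∀ θ : Gt → ℝ, |al η (θ g0) - 1| ≤ η := fun θ => abs_al_sub hη (θ g0)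
  have hra : ∀ θ : Gt → ℝ, |al η (θ g0)| ≤ 1 + η := fun θ => by
    have h1 := abs_le.1 (hrη θ)
    rw [abs_le]; constructor <;> linarith [h1.1, h1.2]
  have hst0 : 0 ≤ stk n (nuG lam η c) b cB cF a η x g0 := by
    have hG := gmU (n := n) b cB cF η hν h0 hA
    have hw := wtU (n := n) (LB := LB) b cB cF hν h0 hA x
    unfold stk
    have h1 : Bm fun w : (Gt → ℝ) × Xs n => 1 - ins η (w.1 g0) :=
      (Bm.const 1).sub (bm_insU η g0)
    refine ex_nonneg hw fun z => ?_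
    refine (av_gm hG 1).nonneg h1 (fun ω => ?_) z
    have h3 := ins_le η (ω.1 g0)
    show 0 ≤ 1 - ins η (ω.1 g0)
    linarith
  have hD := dU (n := n) (b := b) (cB := cB) (c := c) h hA hM hx0 hx (by rw [hs2]; exact hs)
    (r0 := r0) (by rw [hs2, ← hkp]; exact hc) BL FL (S1 := Finset.univ)
    (Finset.subset_univ S) hi hne
  have hDf := i2f_U (n := n) (b := b) (cB := cB) (c := c) h hA hM hx hx0
    (by rw [hs2]; exact hs) (r0 := r0) (by rw [hs2, ← hkp]; exact hc) i0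
  rw [hs2, ← hkp, hcomp] at hD
  rw [hs2, ← hkp] at hDf
  have key := row_up b cB cF (cPl P cF) a BL FL hν h0 hA hx0 hx.le hi hSn
    (fun l _ θ => cPl_mul hP l θ) hk.le (τ := b ^ 2 / n * t) (v := v) (by rw [ht])
    (by rw [hv, sum_cPl])
    (w := Zxm (muU (nuG lam η c) n) 1 (SU b cB cF a) x) rfl
    (av := avm (muU (nuG lam η c) n) 1 (SU b cB cF a)) rfl hr hra
    (M := fun j => MU n (nuG lam η c) b cB cF a x (Kset S BL FL) (fun θ => al η (θ g0)) j) rfl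
    (N := cx (g1 _) (Kset (insert i0 S) BL FL) (Zxm (muU (nuG lam η c) n) 1 (SU b cB cF a) x)
      (avm (muU (nuG lam η c) n) 1 (SU b cB cF a) fun ω => al η (ω.1 g0) * sp ω.2 i0)) rfl rfl
    hD hDf
  have hinc := icU_nonneg hν h0 b cB cF hA x (Kset_mono (LB := LB) (LF := LF)
    (Finset.subset_insert i0 S) (Finset.Subset.refl BL) (Finset.Subset.refl FL)) hr hra S
  have hdth := dth_U hν h0 hA hr hrη hx0 hx.le (b := b) (cB := cB) (cF := cF) (r0 := r0) BL FL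
    (Finset.subset_univ S) hi hne
  rw [← hkp, hcomp] at hdth
  have hvr : (∑ l ∈ Lm.filter (· ∈ FL), cF l ^ 2) / (s2 * n) ≤ 1 / n := by
    have h1 : ∑ l ∈ Lm.filter (· ∈ FL), cF l ^ 2 ≤ s2 := by
      rw [← hs2]
      exact Finset.sum_le_sum_of_subset_of_nonneg (Finset.filter_subset _ _)
        fun _ _ _ => sq_nonneg _
    rw [div_le_div_iff₀ (by positivity) hn]
    nlinarith
  have hcard : (S.card : ℝ) ≤ n := by
    have := Finset.card_le_univ S
    rw [Fintype.card_fin] at this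
    exact_mod_cast this
  have hDn : errD η r0 (lam g0 / (s2 * n)) ((∑ l ∈ Lm.filter (· ∈ FL), cF l ^ 2) / (s2 * n))
      (Sᶜ.card) S.card
      (R2U n (nuG lam η c) b cB cF a x (Kset Finset.univ BL FL) Finset.univ)
      (R2U n (nuG lam η c) b cB cF a x (Kset S BL FL) S)
      (X2U n (nuG lam η c) b cB cF a x (Kset S BL FL) (fun θ => al η (θ g0)) S)
      (stk n (nuG lam η c) b cB cF a η x g0)
      (QsU n (nuG lam η c) b cB cF a x (Kset S BL FL) (fun θ => al η (θ g0)) S) ≤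
      n * ((√(8 * (1 + η) ^ 2 * cc / (Sᶜ.card : ℝ)) +
        lam g0 / (s2 * n) * √cS + (|r0| + 1) * (1 + η) *
          √(stk n (nuG lam η c) b cB cF a η x g0)) * √q +
        √X * √(2 * cS ^ 2 + 2 * stk n (nuG lam η c) b cB cF a η x g0)) :=
    errD_norm hn hη hgg hvr hD0 (Nat.cast_nonneg _) hcard hst0 hcc0 hcc hcS0 hcS hX hq.le
  have key2 : ((n : ℝ) * q + icU n (nuG lam η c) b cB cF a x (Kset S BL FL)
      (Kset (insert i0 S) BL FL) (fun θ => al η (θ g0)) S) / S.card ≤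
      kp ^ 2 * (b ^ 2 / n * t * (n * q) + v) +
      C3L n (nuG lam η c) b cB cF (cPl P cF) a x kp BL FL (fun θ => al η (θ g0)) S i0 +
      2 * kp * (b ^ 2 / n * t * errD η r0 (lam g0 / (s2 * n))
        ((∑ l ∈ Lm.filter (· ∈ FL), cF l ^ 2) / (s2 * n)) (Sᶜ.card) S.card
        (R2U n (nuG lam η c) b cB cF a x (Kset Finset.univ BL FL) Finset.univ)
        (R2U n (nuG lam η c) b cB cF a x (Kset S BL FL) S)
        (X2U n (nuG lam η c) b cB cF a x (Kset S BL FL) (fun θ => al η (θ g0)) S)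
        (stk n (nuG lam η c) b cB cF a η x g0)
        (QsU n (nuG lam η c) b cB cF a x (Kset S BL FL) (fun θ => al η (θ g0)) S) +
        v * (|kp| * η + lam g0 / (s2 * n) +
          (|r0| + 1) * (1 + η) * stk n (nuG lam η c) b cB cF a η x g0)) := by
    rw [← hq]
    exact key
  rw [abs_of_pos hk] at key2
  exact reg2_alg hn hk hsc ht0 hv0 hinc key2 hDn le_rfl hC3 hdth hcc hcc0 hD0 hpv

end Vale.Agent.P146.H118
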