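import Vale.Agent.P146.H118.Reg2U
import Vale.Agent.P146.H281.C3Un
import Vale.Agent.P146.H161.PvU

/-!
Regime 2 in the ensemble `U`, closed: `reg2_c` = `reg2_q` with the mean of the last square
(`H281.C3.c3_Un`) and the squared norm of the defect (`H161.L2.pvU`) inserted.
-/

open MeasureTheory ProbabilityTheory Filter Topology

namespace Vale.Agent.P146.H118

open Vale.Agent.P157.Lv Vale.Agent.P146.H196 Vale.Agent.P146.H646
  Vale.Agent.P146.H615 Vale.Agent.P146.H475 Vale.Agent.P146.H816 Vale.Agent.P146.H325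
  Vale.Agent.P146.H347 Vale.Agent.P146.H347.U Vale.Agent.P146.H281.U Vale.Agent.P146.H585
  Vale.Agent.P146.H585.U
open Vale.Agent.P146.H161.L2 (errV)
open Vale.Agent.P146.H281.C3 (NLc)

set_option linter.unusedSectionVars false

/-- the squared norm of the defect in normalised letters -/
noncomputable def pvN (n η r0 gg rr B cS st p : ℝ) : ℝ :=
  2 * (gg * √cS + (|r0| + 1) * (1 + η) * √st) ^ 2 + 2 * (rr / n) * B +
    2 * √(rr / n) * ((|r0| + 1) * (1 + η) * √p)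

lemma errV_norm {η r0 gg rr m B R st p n cS : ℝ} (hn : 0 < n) (hη : 0 ≤ η) (hgg : 0 ≤ gg)
    (hm : m ≤ n) (hst : 0 ≤ st) (hcS0 : 0 ≤ cS) (hcS : R ≤ (n * cS) ^ 2) :
    errV η r0 gg (rr / n) m (n * B) R st p ≤ n * pvN n η r0 gg rr B cS st p := by
  have hV : 0 ≤ (|r0| + 1) * (1 + η) := by positivity
  have a2 : √√R ≤ √n * √cS := by
    rw [← Real.sqrt_mul hn.le]
    refine Real.sqrt_le_sqrt ?_
    rw [← Real.sqrt_sq (mul_nonneg hn.le hcS0)]; exact Real.sqrt_le_sqrt hcS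
  have a5 : √(m * ((|r0| + 1) * (1 + η)) ^ 2 * st) ≤ √n * ((|r0| + 1) * (1 + η) * √st) := by
    have e : √n * ((|r0| + 1) * (1 + η) * √st) = √(n * ((|r0| + 1) * (1 + η)) ^ 2 * st) := by
      rw [Real.sqrt_mul (by positivity), Real.sqrt_mul hn.le, Real.sqrt_sq hV]
      ring
    rw [e]
    refine Real.sqrt_le_sqrt ?_
    exact mul_le_mul_of_nonneg_right (mul_le_mul_of_nonneg_right hm (sq_nonneg _)) hst
  have a6 : gg * √√R + √(m * ((|r0| + 1) * (1 + η)) ^ 2 * st) ≤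
      √n * (gg * √cS + (|r0| + 1) * (1 + η) * √st) := by
    have := mul_le_mul_of_nonneg_left a2 hgg
    nlinarith
  have a7 : (gg * √√R + √(m * ((|r0| + 1) * (1 + η)) ^ 2 * st)) ^ 2 ≤
      n * (gg * √cS + (|r0| + 1) * (1 + η) * √st) ^ 2 := by
    refine (pow_le_pow_left₀ (by positivity) a6 2).trans (le_of_eq ?_)
    rw [mul_pow, Real.sq_sqrt hn.le]
  have a8 : 2 * √(rr / n) * (m * ((|r0| + 1) * (1 + η)) * √p) ≤
      2 * √(rr / n) * (n * ((|r0| + 1) * (1 + η)) * √p) := by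
    refine mul_le_mul_of_nonneg_left ?_ (by positivity)
    exact mul_le_mul_of_nonneg_right (mul_le_mul_of_nonneg_right hm hV) (Real.sqrt_nonneg _)
  unfold errV pvN
  have e3 : 2 * (rr / n) * (n * B) = n * (2 * (rr / n) * B) := by ring
  have e4 : 2 * √(rr / n) * (n * ((|r0| + 1) * (1 + η)) * √p) =
      n * (2 * √(rr / n) * ((|r0| + 1) * (1 + η) * √p)) := by ring
  rw [e3]
  rw [e4] at a8
  linarith

variable {n : ℕ} {LB LF : Type} [Fintype LB] [DecidableEq LB] [Fintype LF] [DecidableEq LF]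
  {Gt : Type} [Fintype Gt] [DecidableEq Gt]

/-- **Regime 2 in the ensemble `U`, closed**: modulated levels may be revealed. -/
theorem reg2_c {lam c : Gt → ℝ} (h : ∀ g, 0 < lam g) (b : ℝ) (cB : LB → ℝ) (cF : LF → ℝ)
    {a : LF → (Gt → ℝ) → ℝ} {η : ℝ} (hA : AmU a η) (hη1 : η ≤ 1 / 2) {g0 : Gt}
    {Lm : Finset LF} (hM : Mods a η g0 Lm)
    {x : ℝ} (hx0 : 0 ≤ x) (hx : x < 1) {s2 : ℝ} (hs2 : ∑ l ∈ Lm, cF l ^ 2 = s2)
    (hs : 0 < s2) {r0 kp : ℝ} (hkp : kp = 1 - (1 - x) * r0)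
    (hc : c g0 = s2 * n * kp) (hk : 0 < kp) (hk3 : kp ≤ 3)
    {S : Finset (Fin n)} (hSn : S.Nonempty) {i0 : Fin n} (hi : i0 ∉ S)
    (BL : Finset LB) (FL : Finset LF)
    {P : Finset LF} (hP : ∀ l ∈ P, ∀ θ, a l θ = 1)
    {t v wF : ℝ} (ht : t = ∑ l ∈ BL, cB l ^ 2) (hv : v = ∑ l ∈ FL ∩ P, cF l ^ 2)
    (hwF : wF = (1 + η) ^ 2 * ∑ l ∈ FL, cF l ^ 2)
    (hL : x ^ 2 * (b ^ 2 * t + wF) ≤ 1 / 4)
    {sr sh : ℝ} (hsr : ∑ l ∈ Lm.filter (· ∈ FL), cF l ^ 2 = sr)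
    (hsh : ∑ l ∈ Lm.filter (· ∉ FL), cF l ^ 2 = sh) (hsh0 : 0 < sh)
    {q cc cS cI m4 X δ B p : ℝ} (hδ : 0 < δ) (hB : 0 ≤ B)
    (hq : QsU n (nuG lam η c) b cB cF a x (Kset S BL FL) (fun θ => al η (θ g0)) S = n * q)
    (hcc0 : 0 ≤ cc) (hcc : R2U n (nuG lam η c) b cB cF a x (Kset Finset.univ BL FL)
      Finset.univ ≤ (n * cc) ^ 2)
    (hcS0 : 0 ≤ cS) (hcS : R2U n (nuG lam η c) b cB cF a x (Kset S BL FL) S ≤ (n * cS) ^ 2)
    (hcI : R2U n (nuG lam η c) b cB cF a x (Kset (insert i0 S) BL FL) S ≤ (n : ℝ) ^ 2 * cI)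
    (hm4 : q4U n (nuG lam η c) b cB cF a x (Kset (insert i0 S) BL FL) S ≤ (n : ℝ) ^ 4 * m4)
    (hX : X2U n (nuG lam η c) b cB cF a x (Kset S BL FL) (fun θ => al η (θ g0)) S ≤
      (n : ℝ) ^ 2 * X)
    (hp : exU n (nuG lam η c) b cB cF a x (H317.ind ((n * B) ^ 2) (fun z => ∑ j ∈ S, ∑ l ∈ S,
      cxU n (nuG lam η c) b cB cF a x (Kset S BL FL)
        (avU n (nuG lam η c) b cB cF a (fun w => sp w.2 j * sp w.2 l)) z ^ 2)) ≤ p) :
    (n / S.card - (b * kp) ^ 2 * t) * q ≤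
      kp ^ 2 * v + 240 * wF + NLc b t wF η δ cI m4 +
      6 * (b ^ 2 * t * (16 * (1 + η) ^ 2 * cc / (Sᶜ.card : ℝ) +
        2 * pvN n η r0 (lam g0 / (s2 * n)) (sr / (sh * s2)) B cS
          (stk n (nuG lam η c) b cB cF a η x g0) p)) +
      2 * kp * (b ^ 2 * t * ((√(8 * (1 + η) ^ 2 * cc / (Sᶜ.card : ℝ)) +
        lam g0 / (s2 * n) * √cS + (|r0| + 1) * (1 + η) *
          √(stk n (nuG lam η c) b cB cF a η x g0)) * √q +
        √X * √(2 * cS ^ 2 + 2 * stk n (nuG lam η c) b cB cF a η x g0)) +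
      v * (kp * η + lam g0 / (s2 * n) +
          (|r0| + 1) * (1 + η) * stk n (nuG lam η c) b cB cF a η x g0)) := by
  have hη := hA.nn
  have hν := finite_nuG h hη c
  have h0 := nuG_ne h hη c
  have hnp : 0 < n := lt_of_le_of_lt (Nat.zero_le _) i0.2
  have hn : (0 : ℝ) < n := by exact_mod_cast hnp
  have hgg : 0 ≤ lam g0 / (s2 * n) := div_nonneg (h g0).le (by positivity)
  have hr : Measurable fun θ : Gt → ℝ => al η (θ g0) :=
    (measurable_al η).comp (measurable_pi_apply g0)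
  have hrη : ∀ θ : Gt → ℝ, |al η (θ g0) - 1| ≤ η := fun θ => abs_al_sub hη (θ g0)
  have hcard : (S.card : ℝ) ≤ n := by
    have := Finset.card_le_univ S
    rw [Fintype.card_fin] at this
    exact_mod_cast this
  have hst0 : 0 ≤ stk n (nuG lam η c) b cB cF a η x g0 := by
    have hw := wtU (n := n) (LB := LB) b cB cF hν h0 hA x
    have hG := gmU (n := n) b cB cF η hν h0 hA
    unfold stk
    have h1 : Bm fun w : (Gt → ℝ) × Xs n => 1 - ins η (w.1 g0) :=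
      (Bm.const 1).sub (bm_insU η g0)
    refine ex_nonneg hw fun z => ?_
    refine (av_gm hG 1).nonneg h1 (fun ω => ?_) z
    have h3 := ins_le η (ω.1 g0)
    show 0 ≤ 1 - ins η (ω.1 g0)
    linarith
  have hcP : ∀ l ∈ FL, |cPl P cF l| ≤ |cF l| := fun l _ => by
    unfold cPl
    split_ifs
    · exact le_rfl
    · rw [abs_zero]; exact abs_nonneg _
  have hC3 := H281.C3.c3_Un hν h0 b cB cF hA (S := S) BL FL hx0 hx.le hη1 hi hr hrη
    (cP := cPl P cF) (fun l _ θ => cPl_mul hP l θ) hcP (kp := kp)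
    (by rw [abs_of_pos hk]; exact hk3) ht hwF hL hδ hcI hm4
  have hpv := H161.L2.pvU (b := b) (cB := cB) (c := c) h hA hM hx0 hx hnp (r0 := r0)
    (by rw [hs2, ← hkp]; exact hc) BL FL S (by rw [hsh]; exact hsh0)
    (B := n * B) (mul_nonneg hn.le hB) hp
  rw [hs2, hsr, hsh] at hpv
  have e1 : sr / (sh * (s2 * n)) = sr / (sh * s2) / n := by
    rw [div_div]; ring_nf
  rw [e1] at hpv
  have hpv2 := hpv.trans (errV_norm (rr := sr / (sh * s2)) (B := B) (p := p) hn hη hgg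
    hcard hst0 hcS0 hcS)
  exact reg2_q h b cB cF hA hM hx0 hx hs2 hs hkp hc hk hSn hi BL FL hP ht hv hq hcc0 hcc hcS0
    hcS hX hpv2 hC3

end Vale.Agent.P146.H118
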