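import Vale.Agent.P146.H118.RkM
import Vale.Agent.P146.H418.Skel

/-!
The numbers `rk`, `ff`, `pp` of `H418.Law` are the numbers `RKf`, `QF`, `QBd` of `RkM`; `Law.kb` is
the rank-one number of the pairs. Continuity, windows and values in every system with levels.
-/

open MeasureTheory ProbabilityTheory Filter Topology

namespace Vale.Agent.P146.H118

open Vale.Agent.P157.Lv Vale.Agent.P146.H196 Vale.Agent.P146.H646 Vale.Agent.P146.H475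
  Vale.Agent.P146.H816 Vale.Agent.P146.H325 Vale.Agent.P146.H347 Vale.Agent.P146.H119
  Vale.Agent.P146.H205 Vale.Agent.P146.H425 Vale.Agent.P146.H246 Vale.Agent.P146.H418

set_option linter.unusedSectionVars false

/-- the shares of the two levels of `Skel` -/
theorem sh_skel {v t u : ℝ} (hv : 0 ≤ v) (ht0 : 0 ≤ t) (ht1 : t ≤ 1) (hu0 : 0 ≤ u)
    (hu1 : u ≤ 1) : Sh (H418.cb t) (H418.cf v u) {true} {true} 1 (√v) t u where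
  totB := by rw [sum_cb ht0 ht1]; norm_num
  totF := by rw [sum_cf hv hu0 hu1, Real.sq_sqrt hv]
  shB := by simp [H418.cb, Real.sq_sqrt ht0]
  shF := by
    rw [Finset.sum_singleton, Real.sq_sqrt hv]
    simp [H418.cf, H418.cb, mul_pow, Real.sq_sqrt hv, Real.sq_sqrt hu0, mul_comm]

/-- the rank-one number of the pairs -/
noncomputable def kb (L : Law) (S : Finset (Fin L.n)) (t u : ℝ) : ℝ :=
  L.ex' t u fun z => ∑ q ∈ H119.ps S, ∑ r ∈ H119.ps S,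
    (L.cx' S t u (fun w => SkS q w.2 * SkS r w.2) z -
      L.cx' S t u (fun w => SkS q w.2) z * L.cx' S t u (fun w => SkS r w.2) z) ^ 2

/-- the base measure -/
noncomputable abbrev muL (L : Law) : Measure (ℝ × Xs L.n) := muA (Xs L.n) L.lam L.η L.c

variable {L : Law} {S : Finset (Fin L.n)} {t u : ℝ}

theorem gm_L (hl : 0 < L.lam) (hη : 0 ≤ L.η) :
    ∃ M0, GM (muL L) (Sb L.n L.b 1 (√L.vp) L.s L.η) M0 :=
  ⟨_, gmA (n := L.n) L.b (fun _ : Unit => 1) (fun _ : Unit => √L.vp) L.s hl hη L.c⟩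

/-- **`n² rk` is `RKf`** -/
theorem rk_skel (hl : 0 < L.lam) (hη : 0 ≤ L.η) (hv : 0 < L.vp) (ht0 : 0 ≤ t) (ht1 : t ≤ 1)
    (hu0 : 0 ≤ u) (hu1 : u ≤ 1) (S : Finset (Fin L.n)) :
    L.rk S t u = RKf (muL L) L.b 1 (√L.vp) L.s L.η L.x S t u / L.n ^ 2 := by
  obtain ⟨M0, hG⟩ := gm_L hl hη
  rw [← rkf_eq hG (gmA (n := L.n) L.b (H418.cb t) (H418.cf L.vp u) L.s hl hη L.c) one_pos
    (Real.sqrt_pos.2 hv) (sh_skel hv.le ht0 ht1 hu0 hu1) L.x S]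
  rfl

/-- **`ff` is `QF`** -/
theorem ff_skel (hl : 0 < L.lam) (hη : 0 ≤ L.η) (hv : 0 < L.vp) (ht0 : 0 ≤ t) (ht1 : t ≤ 1)
    (hu0 : 0 ≤ u) (hu1 : u ≤ 1) (S : Finset (Fin L.n)) :
    L.ff S t u = QF (muL L) L.b 1 (√L.vp) L.s L.η L.x S t u := by
  obtain ⟨M0, hG⟩ := gm_L hl hη
  rw [← qf_eq hG (gmA (n := L.n) L.b (H418.cb t) (H418.cf L.vp u) L.s hl hη L.c) one_pos
    (Real.sqrt_pos.2 hv) (sh_skel hv.le ht0 ht1 hu0 hu1) L.x S]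
  rfl

/-- **`kb` is `RKb`** -/
theorem kb_skel (hl : 0 < L.lam) (hη : 0 ≤ L.η) (hn : 0 < L.n) (hb : 0 < L.b) (hv : 0 < L.vp)
    (ht0 : 0 ≤ t) (ht1 : t ≤ 1) (hu0 : 0 ≤ u) (hu1 : u ≤ 1) (S : Finset (Fin L.n)) :
    kb L S t u = RKb (muL L) L.b 1 (√L.vp) L.s L.η L.x S t u := by
  obtain ⟨M0, hG⟩ := gm_L hl hη
  rw [← rkb_eq hG (gmA (n := L.n) L.b (H418.cb t) (H418.cf L.vp u) L.s hl hη L.c) hn hb one_pos
    (Real.sqrt_pos.2 hv) (sh_skel hv.le ht0 ht1 hu0 hu1) L.x S]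
  rfl

/-- **`pp` is `QBd`** -/
theorem pp_skel (hl : 0 < L.lam) (hη : 0 ≤ L.η) (hn : 0 < L.n) (hb : 0 < L.b) (hv : 0 < L.vp)
    (ht0 : 0 ≤ t) (ht1 : t ≤ 1) (hu0 : 0 ≤ u) (hu1 : u ≤ 1) (S : Finset (Fin L.n)) :
    L.pp S t u = QBd (muL L) L.b 1 (√L.vp) L.s L.η L.x S t u := by
  obtain ⟨M0, hG⟩ := gm_L hl hη
  rw [← qbd_eq hG (gmA (n := L.n) L.b (H418.cb t) (H418.cf L.vp u) L.s hl hη L.c) hn hb one_pos
    (Real.sqrt_pos.2 hv) (sh_skel hv.le ht0 ht1 hu0 hu1) L.x S]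
  rfl

/-! ### nonnegativity, windows, continuity -/

lemma L_rk_nonneg (L : Law) (S : Finset (Fin L.n)) (t u : ℝ) (hl : 0 < L.lam) (hη : 0 ≤ L.η)
    (hv : 0 < L.vp) (ht0 : 0 ≤ t) (ht1 : t ≤ 1) (hu0 : 0 ≤ u) (hu1 : u ≤ 1) :
    0 ≤ L.rk S t u := by
  rw [rk_skel hl hη hv ht0 ht1 hu0 hu1]
  exact div_nonneg (RKf_nonneg _ _ _ _ _ _ _ _ _ _) (by positivity)

/-- a point of a path of shares -/
lemma pt_mem {a b r : ℝ} (h : a ≤ b) (h0 : 0 ≤ a) (h1 : b ≤ 1)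
    (hr : r ∈ Set.Icc (0 : ℝ) 1) : 0 ≤ a + r * (b - a) ∧ a + r * (b - a) ≤ 1 := by
  have h2 := mul_nonneg hr.1 (sub_nonneg.2 h)
  have h3 := mul_nonneg (sub_nonneg.2 hr.2) (sub_nonneg.2 h)
  constructor <;> nlinarith

variable {t0 t1 u0 u1 : ℝ}

/-- **the window of the fields along a joint path** -/
theorem rk_path (hl : 0 < L.lam) (hη : 0 ≤ L.η) (hv : 0 < L.vp) (hn : 0 < L.n)
    (hx : 0 ≤ L.x) (hx1 : L.x ≤ 1) (S : Finset (Fin L.n))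
    (ht0 : 0 ≤ t0) (ht : t0 ≤ t1) (ht1 : t1 ≤ 1) (hu0 : 0 ≤ u0) (hu : u0 < u1) (hu1 : u1 ≤ 1) :
    L.x ^ 2 * L.vp * L.n ^ 2 * ((u1 - u0) * ∫ r in (0 : ℝ)..1, L.rk S
      (t0 + r * (t1 - t0)) (u0 + r * (u1 - u0))) ≤ L.ff S t1 u1 - L.ff S t0 u0 := by
  obtain ⟨M0, hG⟩ := gm_L hl hη
  have h := window_f hG hx hx1 (Real.sqrt_pos.2 hv) S ht0 ht ht1 hu0 hu hu1
  rw [← ff_skel hl hη hv (ht0.trans ht) ht1 (hu0.trans hu.le) hu1,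
    ← ff_skel hl hη hv ht0 (ht.trans ht1) hu0 (hu.le.trans hu1)] at h
  refine le_trans (le_of_eq ?_) h
  have e1 : ∫ r in (0 : ℝ)..1, L.rk S (t0 + r * (t1 - t0)) (u0 + r * (u1 - u0)) =
      (∫ r in (0 : ℝ)..1, RKf (muL L) L.b 1 (√L.vp) L.s L.η L.x S
        (t0 + r * (t1 - t0)) (u0 + r * (u1 - u0))) / L.n ^ 2 := by
    rw [← intervalIntegral.integral_div]
    refine intervalIntegral.integral_congr fun r hr => ?_
    rw [Set.uIcc_of_le zero_le_one] at hr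
    have a1 := pt_mem ht ht0 ht1 hr
    have a2 := pt_mem hu.le hu0 hu1 hr
    exact rk_skel hl hη hv a1.1 a1.2 a2.1 a2.2 S
  rw [e1, Real.sq_sqrt hv.le]
  have hn' : (L.n : ℝ) ^ 2 ≠ 0 := pow_ne_zero 2 (by exact_mod_cast hn.ne')
  rw [mul_comm (L.x ^ 2 * L.vp) (L.n ^ 2 : ℝ), mul_assoc]
  generalize (∫ r in (0 : ℝ)..1, RKf (muL L) L.b 1 (√L.vp) L.s L.η L.x S
        (t0 + r * (t1 - t0)) (u0 + r * (u1 - u0))) = I
  field_simp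

/-- **the window of the bonds along a joint path** -/
theorem kb_path (hl : 0 < L.lam) (hη : 0 ≤ L.η) (hv : 0 < L.vp) (hn : 0 < L.n) (hb : 0 < L.b)
    (hx : 0 ≤ L.x) (hx1 : L.x ≤ 1) (S : Finset (Fin L.n))
    (ht0 : 0 ≤ t0) (ht : t0 < t1) (ht1 : t1 ≤ 1) (hu0 : 0 ≤ u0) (hu : u0 ≤ u1) (hu1 : u1 ≤ 1) :
    L.x ^ 2 * (L.b ^ 2 / L.n) * ((t1 - t0) * ∫ r in (0 : ℝ)..1, kb L S
      (t0 + r * (t1 - t0)) (u0 + r * (u1 - u0))) ≤ L.pp S t1 u1 - L.pp S t0 u0 := by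
  obtain ⟨M0, hG⟩ := gm_L hl hη
  have h := window_b hG hx hx1 hn hb one_pos S ht0 ht ht1 hu0 hu hu1
  rw [← pp_skel hl hη hn hb hv (ht0.trans ht.le) ht1 (hu0.trans hu) hu1,
    ← pp_skel hl hη hn hb hv ht0 (ht.le.trans ht1) hu0 (hu.trans hu1)] at h
  refine le_trans (le_of_eq ?_) h
  have e1 : ∫ r in (0 : ℝ)..1, kb L S (t0 + r * (t1 - t0)) (u0 + r * (u1 - u0)) =
      ∫ r in (0 : ℝ)..1, RKb (muL L) L.b 1 (√L.vp) L.s L.η L.x S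
        (t0 + r * (t1 - t0)) (u0 + r * (u1 - u0)) := by
    refine intervalIntegral.integral_congr fun r hr => ?_
    rw [Set.uIcc_of_le zero_le_one] at hr
    have a1 := pt_mem ht.le ht0 ht1 hr
    have a2 := pt_mem hu hu0 hu1 hr
    exact kb_skel hl hη hn hb hv a1.1 a1.2 a2.1 a2.2 S
  rw [e1]
  ring

/-- continuity along a joint path -/
theorem rk_cont (hl : 0 < L.lam) (hη : 0 ≤ L.η) (hv : 0 < L.vp) (hx : 0 ≤ L.x)
    (S : Finset (Fin L.n)) (ht0 : 0 ≤ t0) (ht : t0 ≤ t1) (ht1 : t1 ≤ 1) (hu0 : 0 ≤ u0)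
    (hu : u0 < u1) (hu1 : u1 ≤ 1) :
    ContinuousOn (fun r => L.rk S (t0 + r * (t1 - t0)) (u0 + r * (u1 - u0))) (Set.Icc 0 1) := by
  obtain ⟨M0, hG⟩ := gm_L hl hη
  refine ((cont_f hG hx S ht0 ht ht1 hu0 hu hu1).div_const (L.n ^ 2 : ℝ)).congr fun r hr => ?_
  have a1 := pt_mem ht ht0 ht1 hr
  have a2 := pt_mem hu.le hu0 hu1 hr
  exact rk_skel hl hη hv a1.1 a1.2 a2.1 a2.2 S

/-- continuity along a joint path -/
theorem kb_cont (hl : 0 < L.lam) (hη : 0 ≤ L.η) (hv : 0 < L.vp) (hn : 0 < L.n) (hb : 0 < L.b)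
    (hx : 0 ≤ L.x) (S : Finset (Fin L.n)) (ht0 : 0 ≤ t0) (ht : t0 < t1) (ht1 : t1 ≤ 1)
    (hu0 : 0 ≤ u0) (hu : u0 ≤ u1) (hu1 : u1 ≤ 1) :
    ContinuousOn (fun r => kb L S (t0 + r * (t1 - t0)) (u0 + r * (u1 - u0))) (Set.Icc 0 1) := by
  obtain ⟨M0, hG⟩ := gm_L hl hη
  refine (cont_b hG hx S ht0 ht ht1 hu0 hu hu1).congr fun r hr => ?_
  have a1 := pt_mem ht.le ht0 ht1 hr
  have a2 := pt_mem hu hu0 hu1 hr
  exact kb_skel hl hη hn hb hv a1.1 a1.2 a2.1 a2.2 S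

end Vale.Agent.P146.H118
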